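import Vale.Agent.P106.U.H543.TopR
import Vale.Agent.P106.U.H118.HeavyRun

/-!
# P106 / U / H543 : the overhang in the form used by the summation (helper543)

* `xoR` : price of the overhang (helper679): proportional to the growth of the precision, plus the whole growth near the end.
* `hov_re` : hypothesis `hov` of `H118.heavy_re` with `xo = xoR`, `cx = 13`.
* `sum_xoR` : total price.
-/

set_option autoImplicit false

namespace Vale.Agent.P106.U.Top543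

open Finset Vale.Agent.P127 Vale.Agent.P127.Stk Vale.Agent.P127.U Vale.Agent.P106.W Vale.Agent.P106.K Vale.Agent.P106.U
open Vale.Agent.P106.U.S3 (Run)

open Classical in
/-- **price of the overhang** at the step `j` : `L0` = loss of the top piece, `ν` = number of time blocks near the end -/
noncomputable def xoR (M L0 : ℝ) (ν : ℕ) (a r : ℕ → ℕ) (N j : ℕ) : ℝ :=
  ((r (j + 1) - r j : ℕ) : ℝ) * (L0 / ν + if a N ≤ a j + ν then M else 0)

theorem xoR_nonneg {M L0 : ℝ} (hM : 0 ≤ M) (hL0 : 0 ≤ L0) (ν : ℕ) (a r : ℕ → ℕ) (N j : ℕ) : 0 ≤ xoR M L0 ν a r N j := by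
  unfold xoR
  have h1 : (0 : ℝ) ≤ if a N ≤ a j + ν then M else 0 := by
    split_ifs
    · exact hM
    · exact le_rfl
  have h2 : 0 ≤ L0 / ν := div_nonneg hL0 (Nat.cast_nonneg _)
  exact mul_nonneg (Nat.cast_nonneg _) (add_nonneg h2 h1)

theorem sum_dif {r : ℕ → ℕ} {i i1 : ℕ} (h : i ≤ i1) : (r i1 : ℝ) - r i ≤ ∑ j ∈ Ico i i1, ((r (j + 1) - r j : ℕ) : ℝ) := by
  induction i1, h using Nat.le_induction with
  | base => simp
  | succ k hk ih =>
    rw [Finset.sum_Ico_succ_top hk]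
    have h1 : (r (k + 1) : ℝ) ≤ ((r (k + 1) - r k : ℕ) : ℝ) + r k := by
      exact_mod_cast (by omega : r (k + 1) ≤ (r (k + 1) - r k) + r k)
    linarith

/-- the price of a heavy interval -/
theorem xoR_le {M L0 : ℝ} (hM : 0 ≤ M) (hL0 : 0 ≤ L0) {ν : ℕ} (hν : 0 < ν) {a r : ℕ → ℕ} {N i i1 : ℕ} (h : i < i1) (hN : i1 ≤ N)
    (ha : ∀ j, i ≤ j → j ≤ N → a i ≤ a j) (ho : a N + r i < a i + r i1) :
    M * ((r i1 : ℝ) - r i) ≤ ∑ j ∈ Ico i i1, xoR M L0 ν a r N j ∨ L0 ≤ ∑ j ∈ Ico i i1, xoR M L0 ν a r N j := by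
  have hs := sum_dif (r := r) h.le
  have hν' : (0 : ℝ) < ν := by exact_mod_cast hν
  have h2 : 0 ≤ L0 / ν := div_nonneg hL0 hν'.le
  rcases le_or_gt (a N) (a i + ν) with hc | hc
  · left
    have h1 : M * ∑ j ∈ Ico i i1, ((r (j + 1) - r j : ℕ) : ℝ) ≤ ∑ j ∈ Ico i i1, xoR M L0 ν a r N j := by
      rw [Finset.mul_sum]
      refine Finset.sum_le_sum fun j hj => ?_
      rw [Finset.mem_Ico] at hj
      unfold xoR
      have h3 := ha j hj.1 (by omega)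
      rw [if_pos (by omega), mul_comm]
      exact mul_le_mul_of_nonneg_left (by linarith) (Nat.cast_nonneg _)
    exact (mul_le_mul_of_nonneg_left hs hM).trans h1
  · right
    have h1 : L0 / ν * ∑ j ∈ Ico i i1, ((r (j + 1) - r j : ℕ) : ℝ) ≤ ∑ j ∈ Ico i i1, xoR M L0 ν a r N j := by
      rw [Finset.mul_sum]
      refine Finset.sum_le_sum fun j _ => ?_
      unfold xoR
      rw [mul_comm]
      refine mul_le_mul_of_nonneg_left ?_ (Nat.cast_nonneg _)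
      have h3 : (0 : ℝ) ≤ if a N ≤ a j + ν then M else 0 := by
        split_ifs
        · exact hM
        · exact le_rfl
      linarith
    have h3 : (ν : ℝ) ≤ (r i1 : ℝ) - r i := by
      have h4 : ν + r i ≤ r i1 := by omega
      have h5 : ((ν + r i : ℕ) : ℝ) ≤ (r i1 : ℝ) := by exact_mod_cast h4
      push_cast at h5
      linarith
    have h4 : L0 = L0 / ν * ν := by field_simp
    calc L0 = L0 / ν * ν := h4
      _ ≤ L0 / ν * ∑ j ∈ Ico i i1, ((r (j + 1) - r j : ℕ) : ℝ) := mul_le_mul_of_nonneg_left (h3.trans hs) h2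
      _ ≤ _ := h1

/-- **total price of the overhang** : `j0` = first step with `a N ≤ a j + ν` -/
theorem sum_xoR {M L0 : ℝ} (hM : 0 ≤ M) {ν : ℕ} {a r : ℕ → ℕ} {N : ℕ} (hr : ∀ j < N, r j ≤ r (j + 1)) {j0 : ℕ} (hj0 : j0 ≤ N)
    (h0 : ∀ j < j0, a j + ν < a N) :
    ∑ j ∈ range N, xoR M L0 ν a r N j ≤ L0 / ν * ((r N : ℝ) - r 0) + M * ((r N : ℝ) - r j0) := by
  have key : ∀ n ≤ N, ∑ j ∈ range n, xoR M L0 ν a r N j ≤ L0 / ν * ((r n : ℝ) - r 0) + M * (max ((r n : ℝ)) (r j0) - r j0) := by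
    intro n
    induction n with
    | zero =>
      intro _
      simp only [Finset.range_zero, Finset.sum_empty, sub_self, mul_zero, zero_add]
      exact mul_nonneg hM (by linarith [le_max_right (r 0 : ℝ) (r j0)])
    | succ n ih =>
      intro hn
      rw [Finset.sum_range_succ]
      have h1 := ih (by omega)
      have h2 : ((r (n + 1) - r n : ℕ) : ℝ) = (r (n + 1) : ℝ) - r n := Nat.cast_sub (hr n (by omega))
      have h4 : (r n : ℝ) ≤ r (n + 1) := by exact_mod_cast hr n (by omega)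
      unfold xoR at h1 ⊢
      rw [h2]
      by_cases hc : a N ≤ a n + ν
      · rw [if_pos hc]
        have hjn : j0 ≤ n := by
          by_contra hcon
          have := h0 n (by omega)
          omega
        have hmono : ∀ m, j0 ≤ m → m ≤ N → r j0 ≤ r m := by
          intro m hm
          induction m, hm using Nat.le_induction with
          | base => intro _; exact le_rfl
          | succ m _ ih => intro hmN; exact (ih (by omega)).trans (hr m (by omega))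
        have h5 : (r j0 : ℝ) ≤ r n := by exact_mod_cast hmono n hjn (by omega)
        rw [max_eq_left h5] at h1
        rw [max_eq_left (h5.trans h4)]
        nlinarith
      · rw [if_neg hc]
        have h5 : max (r n : ℝ) (r j0) ≤ max (r (n + 1) : ℝ) (r j0) := max_le_max h4 le_rfl
        have h6 := mul_le_mul_of_nonneg_left h5 hM
        nlinarith
  have h1 := key N le_rfl
  have hmono : ∀ m, j0 ≤ m → m ≤ N → r j0 ≤ r m := by
    intro m hm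
    induction m, hm using Nat.le_induction with
    | base => intro _; exact le_rfl
    | succ m _ ih => intro hmN; exact (ih (by omega)).trans (hr m (by omega))
  have h5 : (r j0 : ℝ) ≤ r N := by exact_mod_cast hmono N hj0 le_rfl
  rwa [max_eq_left h5] at h1

/-- **OVERHANG**, hypothesis `hov` of `H118.heavy_re` -/
theorem hov_re (lam N' k k' β β' : ℝ) (h0 : 0 ≤ lam) (h1 : lam ≤ 1) (hk : 0 ≤ k) (hkk : k ≤ k') (hk' : k' ≤ lam) (hN' : 0 ≤ N')
    (hF : FIXA lam N' k' β') (c K : ℝ) (hc : 1 ≤ c) (hK : 1 ≤ K) (ε' : ℝ) (hε : 0 < ε') (δ0 : ℝ) (hδ0 : 0 < δ0) :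
    ∃ (D : ℝ) (z : ℕ), 0 ≤ D ∧ ∀ {Ω : Type} [Fintype Ω] {τ υ : Type} (R : Run Ω τ υ) (p : Run.Num) (c' g' gU d : ℝ),
      1 ≤ R.h → 0 ≤ β' + ε' - β + d → R.Ok p K c' g' gU → NEx c lam N' k β d R.Q R.ry R.t (fun _ => ()) R.L R.h R.q R.W →
      z ≤ R.r0 → ∀ {f : ℕ → ℕ} (_ : Monotone f) {N : ℕ} (_ : ∀ i k, i < k → k ≤ N → f i < f k) (_ : f N ≤ R.n)
        {A0 R0 b : ℕ} {a r : ℕ → ℕ} (_ : ∀ k ≤ N, R.C.a (f k) = A0 + R.m * a k) (_ : ∀ k ≤ N, R.C.R (f k) b = R0 + R.m * r k)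
        {ε δ co L0 : ℝ} {ν : ℕ}, 0 < ν → R.m + z ≤ b → b < p.B₁ → R.m * R.b1 ≤ b → 8 * R.C.μ ≤ b → 8 * R.C.μ ≤ R.C.R (f 0) b →
        R.C.a (f N) ≤ p.A' → p.A' + 2 * b ≤ R.h → R.C.R (f N) b + b ≤ R.q → 12 * ε + δ0 ≤ δ → δ ≤ 1 →
        (8 * R.C.μ + ((p.s : ℝ) + 2) * R.m) * Real.log 2 + D ≤ co →
        (((R.h : ℝ) - R.C.a (f N)) + b + (β' + ε' - β + d) * R.h) * Real.log 2 + gU ≤ L0 →
        ∀ i i1, R.Good p ε b (f i) → i < i1 → i1 ≤ N → a N + r i < a i + r i1 →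
          R.m * Real.log 2 * ((r i1 : ℝ) - r i) ≤
            ∑ j ∈ Ico i i1, xoR (R.m * Real.log 2) L0 ν a r N j + co + R.m * Real.log 2 * 13 * ((a i1 : ℝ) - a i) ∨
          ((a i : ℝ) + r i1 - r i - a N) * (R.m * Real.log 2) * (1 - δ) -
              (co + ∑ j ∈ Ico i i1, xoR (R.m * Real.log 2) L0 ν a r N j + R.m * Real.log 2 * 13 * ((a i1 : ℝ) - a i)) ≤
            Stk.hc (H118.two R.Q (R.XZ (f i) b)) (fun p => R.C.cell (f i1) b p.snd)
              (fun p => (R.C.cell (f N) b p.fst, R.C.VZ (f N) b p.fst)) := by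
  obtain ⟨D, z, hD, hT⟩ := topR lam N' k k' β β' h0 h1 hk hkk hk' hN' hF c K hc hK ε' hε δ0 hδ0
  refine ⟨D, z, hD, ?_⟩
  intro Ω _ τ υ R p c' g' gU d hh hd h hne hr0 f hf N hfs hfN A0 R0 b a r hA hR ε δ co L0 ν hν hbz hbB hb1 hb8 hR8 hAN hroom hRq
    hεδ hδ1 hco hL0 i i1 hg hii hi1 ho
  have hl2 : 0 < Real.log 2 := Real.log_pos (by norm_num)
  have hP := h.pth
  have hm1 := hP.m1
  have hfi : f i < f i1 := hfs i i1 hii hi1
  have hf1 : f i1 ≤ f N := hf hi1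
  have ham : ∀ j j', j ≤ j' → j' ≤ N → a j ≤ a j' := by
    intro j j' hj hj'
    have e1 := R.C.ha (hf hj)
    rw [hA j (by omega), hA j' hj'] at e1
    exact Nat.le_of_mul_le_mul_left (by omega : R.m * a j ≤ R.m * a j') hm1
  have hM0 : 0 ≤ R.m * Real.log 2 := by positivity
  have hgU : 0 ≤ gU := (Stk.hc_nonneg _ _ _).trans h.prW
  have haN : (R.C.a (f N) : ℝ) ≤ R.h := by
    have := hP.rA'
    exact_mod_cast (by omega : R.C.a (f N) ≤ R.h)
  have hB0 : 0 ≤ (β' + ε' - β + d) * R.h := by positivity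
  have hL00 : 0 ≤ L0 := by
    refine le_trans ?_ hL0
    have e2 : (0 : ℝ) ≤ b := Nat.cast_nonneg _
    have e3 : 0 ≤ ((R.h : ℝ) - R.C.a (f N)) + b + (β' + ε' - β + d) * R.h := by linarith
    have := mul_nonneg e3 hl2.le
    linarith
  have hco0 : 0 ≤ co := by
    refine le_trans ?_ hco
    positivity
  have hax : (a i : ℝ) ≤ a i1 := by exact_mod_cast ham i i1 hii.le hi1
  have hx0 : 0 ≤ R.m * Real.log 2 * 13 * ((a i1 : ℝ) - a i) := mul_nonneg (by positivity) (by linarith)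
  rcases xoR_le hM0 hL00 hν hii hi1 (fun j hj hjN => ham i j hj hjN) ho with hx | hx
  · left
    linarith
  · right
    have hε1 : 0 ≤ ε := (Mic.colp_nonneg R.Q _ _).trans hg.time
    have hR1 : R.C.R (f 0) b ≤ R.C.R (f i1) b := R.C.R_mono5 (hf (Nat.zero_le _)) b
    have key := hT R p c' g' gU d hh hd h hne hr0 ε b (f i) (f i1) (f N) hg hfi hf1 hfN hbz hbB ⟨hb8, hR8.trans hR1⟩ hAN hroom
      hRq (by linarith)
    have hcT := hcT_le h (n := f N) (b := b) (by omega) hb1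
    have e1 : (R.C.a (f i) : ℝ) = A0 + R.m * a i := by rw [hA i (by omega)]; push_cast; ring
    have e2 : (R.C.a (f i1) : ℝ) = A0 + R.m * a i1 := by rw [hA i1 hi1]; push_cast; ring
    have e3 : (R.C.a (f N) : ℝ) = A0 + R.m * a N := by rw [hA N le_rfl]; push_cast; ring
    have e4 : (R.C.R (f i) b : ℝ) = R0 + R.m * r i := by rw [hR i (by omega)]; push_cast; ring
    have e5 : (R.C.R (f i1) b : ℝ) = R0 + R.m * r i1 := by rw [hR i1 hi1]; push_cast; ring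
    have hpos : 0 ≤ ((a i : ℝ) + r i1 - r i - a N) * (R.m * Real.log 2) := by
      refine mul_nonneg ?_ hM0
      have : ((a N + r i : ℕ) : ℝ) < ((a i + r i1 : ℕ) : ℝ) := by exact_mod_cast ho
      push_cast at this
      linarith
    have e6 : ((R.C.a (f i) : ℝ) + R.C.R (f i1) b - R.C.R (f i) b - R.C.a (f N)) * Real.log 2 =
        ((a i : ℝ) + r i1 - r i - a N) * (R.m * Real.log 2) := by
      rw [e1, e3, e4, e5]
      ring
    have e7 : 13 * ((R.C.a (f i1) : ℝ) - R.C.a (f i)) * Real.log 2 = R.m * Real.log 2 * 13 * ((a i1 : ℝ) - a i) := by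
      rw [e1, e2]
      ring
    have e8 := mul_le_mul_of_nonneg_left (by linarith : 1 - δ ≤ 1 - 12 * ε - δ0) hpos
    rw [e6] at key
    linarith

open Vale.Agent.P127.U.CellD (q2)
open Vale.Agent.P106.U.H118 (td Zw eR nuK)

/-- **HEAVY INTERVALS OVER A RUN, WITH THE OVERHANG** : `H118.heavy_re` without the hypothesis `hov` -/
theorem heavy_ovh (lam N' k k' β β' : ℝ) (h0 : 0 ≤ lam) (h1 : lam ≤ 1) (hk : 0 ≤ k) (hkk : k ≤ k') (hk' : k' ≤ lam) (hN' : 0 ≤ N')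
    (hF : FIXA lam N' k' β') (c₀ K : ℝ) (hc₀ : 1 ≤ c₀) (hK : 1 ≤ K) (ε' : ℝ) (hε : 0 < ε') (δ0 : ℝ) (hδ0 : 0 < δ0) :
    ∃ (D : ℝ) (z : ℕ), 0 ≤ D ∧ ∀ {Ω : Type} [Fintype Ω] {τ υ : Type} (R : Run Ω τ υ) (p : Run.Num) (c' g' gU d : ℝ),
      1 ≤ R.h → 0 ≤ β' + ε' - β + d → R.Ok p K c' g' gU → NEx c₀ lam N' k β d R.Q R.ry R.t (fun _ => ()) R.L R.h R.q R.W →
      z ≤ R.r0 → ∀ {f : ℕ → ℕ} (_ : Monotone f) {N : ℕ} (_ : ∀ i k, i < k → k ≤ N → f i < f k) (_ : ∀ k ≤ N, f k ≤ R.n)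
        {A0 R0 b : ℕ} {a r : ℕ → ℕ} (_ : ∀ k ≤ N, R.C.a (f k) = A0 + R.m * a k) (_ : ∀ k ≤ N, R.C.R (f k) b = R0 + R.m * r k)
        (_ : ∀ k < N, a (k + 1) = a k ∨ a (k + 1) = a k + 1)
        (_ : ∀ k < N, a (k + 1) = a k + 1 → R.C.a (f (k + 1)) = R.C.a (f k + 1))
        {ε δ co L0 : ℝ} {ν c y c3 Kμ : ℕ}, 0 < ν → b < p.B₁ → R.m + y ≤ b → R.m + z ≤ b → R.m * R.b1 ≤ b →
        2 * K * q2 c ≤ 1 → 40 * K ^ 6 * q2 y ≤ 1 → K * q2 R.q ≤ 1 → 2 * R.m + 2 * c + 1 + y ≤ R.m * Kμ →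
        (p.s + 1) * R.m + R.m + c + y + 3 * R.C.μ ≤ R.m * c3 → (p.s + 1) * R.m + 3 * R.m + 2 * c + 8 * R.C.μ ≤ R.m * c3 →
        8 * R.C.μ ≤ b → 9 * R.C.μ ≤ R.C.R (f 0) b → 40 * K ^ 2 * q2 R.C.μ ≤ (1 / 4 : ℝ) ^ R.m →
        R.C.a (f N) ≤ p.A' → p.A' + 2 * b ≤ R.h → R.C.R (f N) b + b ≤ R.q → ∀ {u : ℕ → ℝ}
        (_ : ∀ k < N, a (k + 1) = a k + 1 → 2 * (R.m * Real.log 2) - u (a k) ≤ Stk.hc R.Q (R.C.VZ (f (k + 1)) b)
          (fun ω => (td R.C (f (k + 1)) ω, (R.C.cell (f k) b ω, R.C.VZ (f k) b ω)))), (∀ z, 0 ≤ u z) →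
        eR K (3 * ε + 2 * c') R.m R.C.μ ≤ δ * (R.m * Real.log 2) → 12 * ε + δ0 ≤ δ → 0 ≤ ε → δ ≤ 1 →
        (8 * R.C.μ + ((p.s : ℝ) + 2) * R.m) * Real.log 2 + D ≤ co →
        (((R.h : ℝ) - R.C.a (f N)) + b + (β' + ε' - β + d) * R.h) * Real.log 2 + gU ≤ L0 → ∀ M1 : ℕ,
        ∀ i i1, R.Good p ε b (f i) → i < i1 → i1 ≤ N → r i + M1 < r i1 →
          R.m * Real.log 2 * (1 - δ) * ((r i1 : ℝ) - r i) - R.m * Real.log 2 * (3 + 2 + 13) * ((a i1 : ℝ) - a i) -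
            ∑ z ∈ Icc (a i) (a i + (r i1 - r i)), u z -
            (((c3 + Kμ : ℕ) : ℝ) * (R.m * Real.log 2) + 2 * nuK K + co) -
            ∑ j ∈ Ico i i1, (H833.qc R.Q R.ry (fun i => Zw R (f i)) (fun j ω => fl1 (R.C.a (f j)) (R.C.t ω)) j +
              xoR (R.m * Real.log 2) L0 ν a r N j) ≤
          H833.psi R.Q R.ry (fun i => Zw R (f i)) (fun k => R.C.cell (f k) b) i1 -
            H833.psi R.Q R.ry (fun i => Zw R (f i)) (fun k => R.C.cell (f k) b) i := by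
  obtain ⟨D, z, hD, hov⟩ := hov_re lam N' k k' β β' h0 h1 hk hkk hk' hN' hF c₀ K hc₀ hK ε' hε δ0 hδ0
  refine ⟨D, z, hD, ?_⟩
  intro Ω _ τ υ R p c' g' gU d hh hd h hne hr0 f hf N hfs hfn A0 R0 b a r hA hR hst hf1 ε δ co L0 ν c y c3 Kμ hν hxB hbx hbz hb1
    hc hy hq hKμ h3a h3b hb8 h9 hμ hAN hroom hRq u hV hu hδ hεδ hε0 hδ1 hco hL0 M1
  have hl2 : 0 < Real.log 2 := Real.log_pos (by norm_num)
  have hgU : 0 ≤ gU := (Stk.hc_nonneg _ _ _).trans h.prW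
  have haN : (R.C.a (f N) : ℝ) ≤ R.h := by
    have := h.pth.rA'
    exact_mod_cast (by omega : R.C.a (f N) ≤ R.h)
  have hL00 : 0 ≤ L0 := by
    refine le_trans ?_ hL0
    have e1 : 0 ≤ (β' + ε' - β + d) * R.h := by positivity
    have e2 : (0 : ℝ) ≤ b := Nat.cast_nonneg _
    have e3 : 0 ≤ ((R.h : ℝ) - R.C.a (f N)) + b + (β' + ε' - β + d) * R.h := by linarith
    have := mul_nonneg e3 hl2.le
    linarith
  have hco0 : 0 ≤ co := by
    refine le_trans ?_ hco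
    positivity
  exact H118.heavy_re h hK hf hfs hfn hA hR hst hf1 hxB hbx hc hy hq hKμ h3a h3b hb8 h9 hμ hV hu (by linarith) hδ hδ1 hco0
    (fun j => xoR_nonneg (by positivity) hL00 ν a r N j) (by norm_num)
    (hov R p c' g' gU d hh hd h hne hr0 hf hfs (hfn N le_rfl) hA hR hν hbz hxB hb1 hb8 (by omega) hAN hroom hRq hεδ hδ1 hco hL0) M1

end Vale.Agent.P106.U.Top543
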