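import Vale.Agent.P106.U.S3.Props

/-!
# P106 / U / H543 : the record with the threshold `0` (helper543)

* `KnA` : the slope of the cell is the slope of the ray side to `rk` digits, at every point (true prefixes).
* `ok_zero` : then the record holds with the threshold `c' = 0` (field `kno` without exceptions).
-/

set_option autoImplicit false

namespace Vale.Agent.P106.U.S3.Run

open Finset Vale.Agent.P127 Vale.Agent.P127.Stk Vale.Agent.P127.U Vale.Agent.P106.W
open Vale.Agent.P127.U.CellD (q2 rd)

variable {Ω : Type} [Fintype Ω] {τ υ : Type} {R : Run Ω τ υ}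

/-- the slope of the cell is the slope of the ray side, at every point -/
def KnA (R : Run Ω τ υ) (p : Num) (K : ℝ) : Prop :=
  ∀ i ≤ R.n + p.J, ∀ ω, 0 < R.Q.w ω → |(R.C.F i ω).al - R.al i ω| * q2 (R.C.a i) ≤ K * q2 (R.C.rk i)

/-- **the record with the threshold `0`** -/
theorem ok_zero {p : Num} {K c' g' gU : ℝ} (h : R.Ok p K c' g' gU) (hc : 0 ≤ c') (hk : R.KnA p K) : R.Ok p K 0 g' gU := by
  refine { h with kno := fun i hi => ?_, unk := fun i hi hA hr ω hω x => ?_ }
  · refine le_of_eq ?_
    unfold prE
    refine Finset.sum_eq_zero fun ω hω => ?_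
    rw [Finset.mem_filter] at hω
    rcases (R.Q.nn ω).eq_or_lt with h0 | h0
    · exact h0.symm
    · exact absurd hω.2 (not_lt.2 (hk i hi ω h0))
  · have h1 := h.unk i hi hA hr ω hω x
    have h2 : 0 < R.Q.pr R.W' (R.W' ω) := R.Q.pr_pos R.W' hω
    nlinarith

end Vale.Agent.P106.U.S3.Run
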