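import Vale.Agent.P106.U.H118.HeavyX
import Vale.Agent.P106.U.H513.DifM
import Vale.Agent.P106.U.H543.Hov
import Vale.Agent.P106.U.H543.OkZero
import Vale.Agent.P106.U.MIC.PSat
import Vale.Agent.P106.U.H652.Ev3

/-!
# P106 / U / H543 : the heavy intervals at one scale, numbers (helper543)

* `HNum` : the numeric side conditions of the heavy intervals at the scale `x`, margin `μ = cμ x m`; `hNum_ev` : they hold for
  all large `m`, then all large `B`.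
* **`heavy_num`** : `H118.heavy_reX` with `hov_re` and `H513.y6_re` for the run `low R μ o` and the compressed path
  `ix R i0`; all path, margin, room and number conditions from `RunOk` and `HNum`; inputs: the letters only.
* `heavy_mu` : the same for a margin `μ = cμ x m`.
* `hch`, `hch_le` : the cost of a heavy interval.
-/

set_option autoImplicit false

namespace Vale.Agent.P106.U.Top543

open Finset Vale.Agent.P127 Vale.Agent.P127.Stk Vale.Agent.P127.U Vale.Agent.P106.W Vale.Agent.P106.K Vale.Agent.P106.U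
open Vale.Agent.P106.U.S3 (Run)
open Vale.Agent.P106.U.S5
open Vale.Agent.P127.U.CellD (q2)
open Vale.Agent.P106.U.H118 (td Zw nuK eSK usw)
open Vale.Agent.P106.U.H101 (lc low)
open Vale.Agent.P106.U.H833 (aN RN)
open Vale.Agent.P106.U.H823
open Vale.Agent.P106.U.MIC (bc ix nz az rz)

/-- numbers of the heavy intervals at one scale: class `K`, accuracy `eg` of the good steps, exceptional probability `η` of the
young letters, nesting `ν`, `D`, `z` of `hov_re`, margin `μ = cμ x m` -/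
structure HNum (K eg η ν δ D : ℝ) (c y z cμ x m B : ℕ) : Prop where
  cc : 2 * K * q2 c ≤ 1
  yy : 40 * K ^ 6 * q2 y ≤ 1
  ms : 2 * c + y + 2 ≤ m
  zm : z ≤ m
  Dm : D ≤ m * Real.log 2
  mμ : 40 * K ^ 2 * q2 (cμ * x * m) ≤ (1 / 4 : ℝ) ^ m
  νK : nuK K + Real.log 45 ≤ ν
  eS : eSK (3 * eg + η) m (cμ * x * m) + ν ≤ δ * (m * Real.log 2)
  B1 : 1 ≤ B
  Bx : cμ * x ≤ B

/-- **the numbers exist** : for all large `m`, then all large `B` -/
theorem hNum_ev {K eg η ν δ : ℝ} (D : ℝ) {c y : ℕ} (z : ℕ) {cμ x : ℕ} (hcc : 2 * K * q2 c ≤ 1) (hyy : 40 * K ^ 6 * q2 y ≤ 1)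
    (hν : nuK K + Real.log 45 ≤ ν) (hδ : 0 < δ) (heδ : (3 * eg + η) * (2 + 2 * (cμ * x)) ≤ δ / 2) (hx : 3 ≤ cμ * x) :
    H652.Ev3 fun m B _ => HNum K eg η ν δ D c y z cμ x m B := by
  have hl2 : 0 < Real.log 2 := Real.log_pos (by norm_num)
  refine H652.Ev3.of_B ?_
  filter_upwards [H652.ev_nat (2 * c + y + 2), H652.ev_nat z, H652.ev_con D hl2,
    H652.ev_q2' (40 * K ^ 2) 2 (cμ * x) (by omega) (κ := 1) one_pos,
    H652.ev_con (Real.log 9540 + 2 * Real.sqrt (3 * eg + η) + (3 * eg + η) * Real.log 45 + ν) (κ := δ / 2 * Real.log 2)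
      (by positivity)] with m h1 h2 h3 h4 h5
  filter_upwards [H652.ev_nat 1, H652.ev_nat (cμ * x)] with B h6 h7
  refine ⟨hcc, hyy, h1, h2, by linarith, ?_, hν, ?_, h6, h7⟩
  · have e1 : (1 / 4 : ℝ) ^ m * (2 : ℝ) ^ (2 * m) = 1 := by
      rw [pow_mul, ← mul_pow]
      norm_num
    have e2 : (0 : ℝ) < (1 / 4 : ℝ) ^ m := by positivity
    have e3 := mul_le_mul_of_nonneg_left h4 e2.le
    calc 40 * K ^ 2 * q2 (cμ * x * m) = 40 * K ^ 2 * ((1 / 4 : ℝ) ^ m * (2 : ℝ) ^ (2 * m)) * q2 (cμ * x * m) := by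
          rw [e1, mul_one]
      _ = (1 / 4 : ℝ) ^ m * (40 * K ^ 2 * 2 ^ (2 * m) * q2 (cμ * x * m)) := by ring
      _ ≤ (1 / 4 : ℝ) ^ m := by linarith
  · have e1 : 0 ≤ m * Real.log 2 := by positivity
    have e2 := mul_le_mul_of_nonneg_right heδ e1
    unfold eSK
    push_cast
    have e3 : (3 * eg + η) * (Real.log 45 + (2 * (m : ℝ) + 2 * (cμ * x * m)) * Real.log 2) =
        (3 * eg + η) * Real.log 45 + (3 * eg + η) * (2 + 2 * (cμ * x)) * (m * Real.log 2) := by ring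
    rw [e3]
    linarith

/-- cost of a heavy interval -/
noncomputable def hch (K jm D : ℝ) (cμ x s m : ℕ) : ℝ :=
  ((18 + 9 * (cμ * x) : ℕ) : ℝ) * (m * Real.log 2) + (2 * nuK K + 2 * jm) +
    ((8 * ((cμ * x * m : ℕ) : ℝ) + ((s : ℝ) + 2) * m) * Real.log 2 + D)

theorem hch_nonneg {K jm D : ℝ} (hjm : 0 ≤ jm) (hD : 0 ≤ D) (cμ x s m : ℕ) : 0 ≤ hch K jm D cμ x s m := by
  have hl2 : 0 < Real.log 2 := Real.log_pos (by norm_num)
  have := H118.nuK_nonneg K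
  unfold hch
  positivity

/-- **the cost of a heavy interval is `≤ m log 2 (35 + 17 cμ x + 2 jx)`** -/
theorem hch_le {K eg η ν δ D jm jx : ℝ} {c y z cμ x m B s : ℕ} (H : HNum K eg η ν δ D c y z cμ x m B) (he : 0 ≤ eg) (hη : 0 ≤ η)
    (hδ : δ ≤ 1) (hs : s ≤ 10) (hj : jm ≤ m * Real.log 2 * jx) :
    hch K jm D cμ x s m ≤ m * Real.log 2 * (33 + 17 * (cμ * x) + 2 * jx) := by
  have hl2 : 0 < Real.log 2 := Real.log_pos (by norm_num)
  have h45 : 0 ≤ Real.log 45 := Real.log_nonneg (by norm_num)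
  have h95 : 0 ≤ Real.log 9540 := Real.log_nonneg (by norm_num)
  have hm0 : 0 ≤ m * Real.log 2 := by positivity
  have h1 : 0 ≤ eSK (3 * eg + η) m (cμ * x * m) := by
    unfold eSK
    positivity
  have h2 := H.νK
  have h3 := H.eS
  have h4 : δ * (m * Real.log 2) ≤ 1 * (m * Real.log 2) := mul_le_mul_of_nonneg_right hδ hm0
  have h5 : nuK K ≤ m * Real.log 2 := by linarith
  have h6 := H.Dm
  have h7 : (s : ℝ) ≤ 10 := by exact_mod_cast hs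
  have h8 : (s : ℝ) * (m * Real.log 2) ≤ 10 * (m * Real.log 2) := mul_le_mul_of_nonneg_right h7 hm0
  unfold hch
  push_cast
  nlinarith

/-- **the heavy intervals of a run at one scale** -/
theorem heavy_num {σ : Cst} (hσ : σ.Ok) {ε : ℝ} (hε : 0 < ε) (h8 : 8 * ε ≤ σ.lam) {ρ : Thr} (hρ : ρ.Ok) {g : Gv}
    (hg : g.Ok σ ε) {δ0 : ℝ} (hδ0 : 0 < δ0) :
    ∃ (D : ℝ) (z : ℕ), 0 ≤ D ∧ ∀ {m B : ℕ} {Ω : Type} [Fintype Ω] {Q : Law Ω} {l : Ω → Ry} {t : Ω → ℝ}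
      {L h q r0 Rn : ℕ} {W : Ω → Cbx} {τ υ : Type} {R : Run Ω τ υ} {pn : Run.Num} {g' gU e κ₀ : ℝ} {a1 r1 : ℕ},
      NEx 100 σ.lam σ.N g.k g.β ε Q l t (fun _ => ()) L h q W →
      RunOk σ ε ρ m B Q l t L h q r0 Rn W R pn g' gU e κ₀ a1 r1 →
      ∀ {eg η ν δ : ℝ} {c y cμ x : ℕ}, HNum (32 * ρ.K) eg η ν δ D c y z cμ x m B → 0 ≤ eg → 0 ≤ η → 12 * eg + δ0 ≤ δ → δ ≤ 1 →
      ∀ (o : Fin 7 → ℝ) {i0 : ℕ}, i0 ≤ Cmp.Nc R R.b1 → ∀ {ν₀ : ℕ}, 0 < ν₀ →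
      -- the letters
      ∀ (V S : Set ℕ) {ζ : Type} (M : ℕ → Ω → ζ),
      (∀ k ≤ nz R i0, az R i0 k ∈ V → Fn R.Q (td (lc R.C (cμ * x * m) o) (ix R i0 k)) (M k)) →
      ∀ {u xx : ℕ → ℝ} {jm : ℝ},
      (∀ k < nz R i0, az R i0 (k + 1) = az R i0 k + 1 → az R i0 k ∉ V → 2 * (m * Real.log 2) - u (az R i0 k) ≤
        Stk.hc R.Q ((lc R.C (cμ * x * m) o).VZ (ix R i0 (k + 1)) (bc R))
          (fun ω => (td (lc R.C (cμ * x * m) o) (ix R i0 (k + 1)) ω,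
            ((lc R.C (cμ * x * m) o).cell (ix R i0 k) (bc R) ω, (lc R.C (cμ * x * m) o).VZ (ix R i0 k) (bc R) ω)))) →
      (∀ k < nz R i0, az R i0 (k + 1) = az R i0 k + 1 → az R i0 k ∈ V → 2 * (m * Real.log 2) - u (az R i0 k) ≤
        Stk.hc R.Q ((lc R.C (cμ * x * m) o).VZ (ix R i0 (k + 1)) (bc R))
          (fun ω => (td (lc R.C (cμ * x * m) o) (ix R i0 (k + 1)) ω,
            (M k ω, (lc R.C (cμ * x * m) o).VZ (ix R i0 k) (bc R) ω)))) →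
      (∀ z, 0 ≤ u z) → (∀ z, 0 ≤ xx z) → (∀ z, z ∉ S → (z ∈ V ↔ z + 1 ∈ V)) →
      (∀ k k2, k < nz R i0 → az R i0 (k + 1) = az R i0 k + 1 → k < k2 → k2 ≤ nz R i0 → az R i0 k2 = az R i0 k + 1 →
        (k2 = nz R i0 ∨ az R i0 (k2 + 1) = az R i0 k2 + 1) → az R i0 k ∈ V → az R i0 k2 ∈ V → az R i0 k ∉ S →
        Stk.hc R.Q (fun ω => (M k ω, (lc R.C (cμ * x * m) o).VZ (ix R i0 k) (bc R) ω))
          (fun ω => (M k2 ω, (lc R.C (cμ * x * m) o).VZ (ix R i0 k2) (bc R) ω)) ≤ ν) →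
      0 ≤ jm →
      (∀ k ≤ nz R i0, az R i0 k ∈ V → (k = nz R i0 ∨ az R i0 (k + 1) = az R i0 k + 1) →
        Stk.hc R.Q ((lc R.C (cμ * x * m) o).cell (ix R i0 k) (bc R)) (M k) ≤ jm + xx (az R i0 k)) →
      (∀ k ≤ nz R i0, az R i0 k ∈ V → (k = nz R i0 ∨ az R i0 (k + 1) = az R i0 k + 1) →
        Stk.hc R.Q (M k) ((lc R.C (cμ * x * m) o).cell (ix R i0 k) (bc R)) ≤ jm) →
      (∀ k < nz R i0, az R i0 (k + 1) = az R i0 k + 1 → az R i0 k ∈ V →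
        H513.YMod (low R (cμ * x * m) o) (32 * ρ.K) (bc R) (2 * m) (ix R i0 k) (M k) η) →
      ∀ (M1 i i1 : ℕ), R.Good pn eg (bc R) (ix R i0 i) → i < i1 → i1 ≤ nz R i0 → rz R i0 i + M1 < rz R i0 i1 →
        m * Real.log 2 * (1 - δ) * ((rz R i0 i1 : ℝ) - rz R i0 i) - m * Real.log 2 * 18 * ((az R i0 i1 : ℝ) - az R i0 i) -
          ∑ z ∈ Icc (az R i0 i) (az R i0 i + (rz R i0 i1 - rz R i0 i)), (u z + usw S jm xx z + xx z) -
          hch (32 * ρ.K) jm D cμ x pn.s m -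
          ∑ j ∈ Ico i i1, (H833.qc R.Q R.ry (fun i => Zw R (ix R i0 i)) (fun j ω => fl1 (R.C.a (ix R i0 j)) (R.C.t ω)) j +
            xoR (m * Real.log 2) ((σ.θ + σ.δ1 + 4 * ε) * h) ν₀ (az R i0) (rz R i0) (nz R i0) j) ≤
        H833.psi R.Q R.ry (fun i => Zw R (ix R i0 i)) (fun k => (lc R.C (cμ * x * m) o).cell (ix R i0 k) (bc R)) i1 -
          H833.psi R.Q R.ry (fun i => Zw R (ix R i0 i)) (fun k => (lc R.C (cμ * x * m) o).cell (ix R i0 k) (bc R)) i := by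
  have hbs := hσ.bs
  have hl2 : 0 < Real.log 2 := Real.log_pos (by norm_num)
  have hl21 : Real.log 2 ≤ 1 := by
    have := Real.log_two_lt_d9
    linarith
  have hK1 := hρ.K1
  have hK : (1 : ℝ) ≤ 32 * ρ.K := by linarith
  obtain ⟨D, z, hD, hov⟩ := hov_re σ.lam σ.N g.k (8 * g.k) g.β g.b' hbs.lam0.le hbs.lam1.le hg.k0.le (by linarith [hg.k0])
    (by linarith [hg.kε]) (by linarith [hbs.N2]) hg.fix 100 (32 * ρ.K) (by norm_num) hK ε hε δ0 hδ0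
  refine ⟨D, z, hD, ?_⟩
  intro m B Ω _ Q l t L h q r0 Rn W τ υ R pn g' gU e κ₀ a1 r1 hne hR eg η ν δ c y cμ x H he hη heδ hδ1 o i0 hi0 ν₀ hν₀ V S ζ M
    hMt u xx jm hVO hVY hu hx hVS hMM hjm J1 J2 hYM M1 i i1 hgi hi hi1 hM
  obtain ⟨e1, e2, e3, e4, e5, e6, e7, e8, e9⟩ : R.m = m ∧ R.L = L ∧ R.h = h ∧ R.q = q ∧ R.r0 = r0 ∧ R.Q = Q ∧ R.ry = l ∧
    R.t = t ∧ R.W = W := ⟨hR.hm, hR.hL, hR.hh, hR.hq, hR.hr0, hR.hQ, hR.hry, hR.ht, hR.hW⟩
  subst e1 e2 e3 e4 e5 e6 e7 e8 e9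
  set μ : ℕ := cμ * x * R.m with hμd
  have hP := hR.ok.pth
  have hm1 := hP.m1
  have hcap := hR.cap
  -- margin
  have hμB : μ ≤ R.m * B := by
    have := Nat.mul_le_mul_right R.m H.Bx
    rw [hμd]
    linarith
  have hμC : μ ≤ R.C.μ := by
    rw [hR.hμ]
    exact hμB
  have hb8B : 8 * (R.m * B) + R.m ≤ bc R := by
    have h1 := Nat.mul_le_mul_left R.m (show 8 * B + 1 ≤ R.b1 from hcap.low)
    unfold bc
    linarith
  have hmB : R.m ≤ R.m * B := Nat.le_mul_of_pos_right _ H.B1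
  have hbB : bc R + R.m * B ≤ pn.B₁ := by
    have := hcap.top
    rw [Nat.mul_add] at this
    exact this
  have hms := H.ms
  have hzm := H.zm
  have hrm := hR.rm
  -- the record
  have h0 : R.Ok pn ρ.K 0 g' gU := S3.Run.ok_zero hR.ok hρ.c'0.le hR.kn0
  have hok : (low R μ o).Ok pn (32 * ρ.K) 0 g' gU :=
    H101.low_ok o hμC (H513.run_mono (by linarith) (by linarith) h0)
  have hne' : NEx 100 σ.lam σ.N g.k g.β ε (low R μ o).Q (low R μ o).ry (low R μ o).t (fun _ => ()) (low R μ o).L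
      (low R μ o).h (low R μ o).q (low R μ o).W := hne
  -- the path
  set f : ℕ → ℕ := ix R i0 with hf
  set N : ℕ := nz R i0 with hN
  have hNc : i0 + N = Cmp.Nc R R.b1 := by
    rw [hN]
    unfold nz
    omega
  have fmono : Monotone f := MIC.ix_mono R i0
  have hfs : ∀ i k, i < k → k ≤ N → f i < f k := fun i k hik hk =>
    Cmp.idx_strict hP (by omega) (by omega)
  have hfn : ∀ k ≤ N, f k ≤ R.n := fun k _ => Cmp.idx_le _
  have hfN : f N = R.n := by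
    rw [hf]
    unfold ix
    rw [hNc]
    exact Cmp.idx_top
  have hA : ∀ k ≤ N, (low R μ o).C.a (f k) = 0 + (low R μ o).m * az R i0 k := fun k hk => by
    rw [Nat.zero_add]
    exact H833.lev_a hP ((hfn k hk).trans (Nat.le_add_right _ _))
  have hlR : ∀ i b, (low R μ o).C.R i b = R.C.R i b := fun i b => by
    show (lc R.C μ o).R i b = R.C.R i b
    rw [H101.lc_R]
  have hRR : ∀ k ≤ N, (low R μ o).C.R (f k) (bc R) = R.r0 + (low R μ o).m * rz R i0 k := fun k hk => by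
    rw [hlR]
    exact H833.lev_R hP R.b1 ((hfn k hk).trans (Nat.le_add_right _ _))
  have hst : ∀ k < N, az R i0 (k + 1) = az R i0 k ∨ az R i0 (k + 1) = az R i0 k + 1 := fun k hk => by
    rcases Cmp.step2 (x := R.b1) hP (j := i0 + k) (by omega) with ⟨_, h2, _⟩ | ⟨_, h2, _⟩
    · exact Or.inr h2
    · exact Or.inl h2
  have hf1 : ∀ k < N, az R i0 (k + 1) = az R i0 k + 1 → (low R μ o).C.a (f (k + 1)) = (low R μ o).C.a (f k + 1) :=
    fun k hk _ => (Cmp.dig (x := R.b1) hP (j := i0 + k) (by omega)).1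
  -- numbers
  have hKq : 32 * ρ.K * q2 R.q ≤ 1 := by
    have h1 : y ≤ R.q := by
      have h2 := hP.rK
      have h3 := hP.rF
      omega
    have h2 : q2 R.q ≤ q2 y := CellD.q2_le h1
    have h3 := CellD.q2_pos y
    have h4 : (1 : ℝ) ≤ (32 * ρ.K) ^ 5 := one_le_pow₀ hK
    have h5 := H.yy
    have h6 : 32 * ρ.K * q2 y ≤ 40 * (32 * ρ.K) ^ 6 * q2 y := by
      refine mul_le_mul_of_nonneg_right ?_ h3.le
      have h7 : 32 * ρ.K ≤ (32 * ρ.K) ^ 6 := by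
        calc 32 * ρ.K = 32 * ρ.K * 1 := (mul_one _).symm
          _ ≤ 32 * ρ.K * (32 * ρ.K) ^ 5 := mul_le_mul_of_nonneg_left h4 (by linarith)
          _ = (32 * ρ.K) ^ 6 := by ring
      have h8 : 0 ≤ (32 * ρ.K) ^ 6 := by positivity
      linarith
    have h7 : 32 * ρ.K * q2 R.q ≤ 32 * ρ.K * q2 y := mul_le_mul_of_nonneg_left h2 (by linarith)
    linarith
  have hs := hR.hs.2
  set c3 : ℕ := pn.s + 5 + 9 * (cμ * x) with hc3
  have em : R.m * c3 = (pn.s + 1) * R.m + 4 * R.m + 9 * μ := by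
    rw [hc3, hμd]
    ring
  have em3 : R.m * 3 = 3 * R.m := Nat.mul_comm _ _
  have hKμ : 2 * R.m + 2 * c + 1 + y ≤ R.m * 3 := by omega
  have h3a : (pn.s + 1) * R.m + R.m + c + (y + 1) + 4 * μ ≤ R.m * c3 := by
    rw [em]
    omega
  have h3b : (pn.s + 1) * R.m + 3 * R.m + 2 * c + 9 * μ ≤ R.m * c3 := by
    rw [em]
    omega
  have h3a' : (pn.s + 1) * R.m + R.m + c + y + 3 * μ ≤ R.m * c3 := by
    rw [em]
    omega
  have h3b' : (pn.s + 1) * R.m + 3 * R.m + 2 * c + 8 * μ ≤ R.m * c3 := by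
    rw [em]
    omega
  have hcY : c3 + 3 ≤ 18 + 9 * (cμ * x) := by omega
  have hb8 : 8 * μ ≤ bc R := by omega
  have hR0 : 9 * μ ≤ (low R μ o).C.R (f 0) (bc R) := by
    have h1 := hRR 0 (Nat.zero_le _)
    rw [h1]
    omega
  have hδ00 : 0 ≤ δ := by linarith
  have hη2 : (3 * eg + 2 * 0 + η : ℝ) = 3 * eg + η := by ring
  have heS : eSK (3 * eg + 2 * 0) R.m μ ≤ eSK (3 * eg + η) R.m μ := by
    have g1 := Real.sqrt_le_sqrt (show 3 * eg + 2 * 0 ≤ 3 * eg + η by linarith)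
    have g2 : 0 ≤ Real.log 45 + (2 * (R.m : ℝ) + 2 * μ) * Real.log 2 := by
      have : 0 ≤ Real.log 45 := Real.log_nonneg (by norm_num)
      positivity
    have g3 := mul_le_mul_of_nonneg_right (show 3 * eg + 2 * 0 ≤ 3 * eg + η by linarith) g2
    unfold eSK
    linarith
  -- room
  have haN : (low R μ o).C.a (f N) ≤ pn.A' := by
    rw [hfN]
    exact hR.aA
  have hroom : pn.A' + 2 * bc R ≤ (low R μ o).h := by
    have h1 := hcap.room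
    have h2 : (low R μ o).h = R.h := rfl
    rw [h2]
    unfold bc
    rw [Nat.mul_add] at h1
    omega
  have hC1 : 1 ≤ σ.C1 := by
    unfold Bs.C1
    have : 0 ≤ 1000 / σ.lam := div_nonneg (by norm_num) hbs.lam0.le
    linarith
  have hhR : (0 : ℝ) ≤ R.h := Nat.cast_nonneg _
  have hRq : (low R μ o).C.R (f N) (bc R) + bc R ≤ (low R μ o).q := by
    rw [hlR, hfN]
    have h1 : R.C.R R.n (bc R) ≤ R.C.rk R.n + bc R := by
      unfold Cell.Pth.R Cell.Pth.bs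
      omega
    have h2 : R.C.rk R.n ≤ pn.QK + R.m := by
      rcases Nat.eq_zero_or_pos R.n with h3 | h3
      · rw [h3, hP.k0]
        have := hP.rK
        omega
      · obtain ⟨n', hn'⟩ : ∃ n', R.n = n' + 1 := ⟨R.n - 1, by omega⟩
        have h4 := (hP.stop n' (by omega)).2
        have h5 := hP.stp n' (by omega)
        rw [hn']
        rcases h5 with ⟨_, _, h6⟩ | ⟨_, _, h6⟩ | ⟨_, _, h6⟩ <;> omega
    have h3 : ((pn.QK + R.m + 2 * bc R : ℕ) : ℝ) ≤ R.q := by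
      have g1 := hR.QK1
      have g2 := hR.B1
      have g3 : ((R.m + 2 * bc R : ℕ) : ℝ) ≤ ((2 * pn.B₁ : ℕ) : ℝ) := by
        exact_mod_cast (by omega : R.m + 2 * bc R ≤ 2 * pn.B₁)
      push_cast at g3 ⊢
      have g4 : 1 * (σ.δ1 * R.h) ≤ σ.C1 * (σ.δ1 * R.h) :=
        mul_le_mul_of_nonneg_right hC1 (mul_nonneg hσ.δ0.le hhR)
      linarith
    have h4 : pn.QK + R.m + 2 * bc R ≤ R.q := by exact_mod_cast h3
    show R.C.R R.n (bc R) + bc R ≤ R.q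
    omega
  have hh1 : 1 ≤ R.h := by
    have h1 := hcap.room
    rw [Nat.mul_add] at h1
    omega
  -- the overhang
  set L0 : ℝ := (σ.θ + σ.δ1 + 4 * ε) * R.h with hL0d
  have hd0 : 0 ≤ g.b' + ε - g.β + ε := by
    have := hg.βb
    linarith
  have hL0 : (((low R μ o).h - (low R μ o).C.a (f N) : ℝ) + bc R + (g.b' + ε - g.β + ε) * (low R μ o).h) * Real.log 2 + gU ≤
      L0 := by
    have g1 : (((R.h : ℝ) - R.C.a R.n) + bc R + (g.b' + ε - g.β + ε) * R.h) ≤ (σ.θ + σ.δ1 + 3 * ε) * R.h := by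
      have g2 := hR.ex
      have g3 := hR.B1
      have g4 : (bc R : ℝ) ≤ pn.B₁ := by exact_mod_cast (by omega : bc R ≤ pn.B₁)
      have g5 := mul_le_mul_of_nonneg_right (show g.b' + ε - g.β + ε ≤ 3 * ε by linarith [hg.bε]) hhR
      linarith
    have g6 : 0 ≤ (σ.θ + σ.δ1 + 3 * ε) * R.h := by
      have := hσ.θ0
      have := hσ.δ0
      positivity
    have g7 := hR.gU1
    have g8 : (((R.h : ℝ) - R.C.a R.n) + bc R + (g.b' + ε - g.β + ε) * R.h) * Real.log 2 ≤ (σ.θ + σ.δ1 + 3 * ε) * R.h := by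
      have g9 := mul_le_mul_of_nonneg_right g1 hl2.le
      have g10 := mul_le_mul_of_nonneg_left hl21 g6
      linarith
    rw [hfN]
    show (((R.h : ℝ) - R.C.a R.n) + bc R + (g.b' + ε - g.β + ε) * R.h) * Real.log 2 + gU ≤ L0
    rw [hL0d]
    linarith
  have hL00 : 0 ≤ L0 := by
    have := hσ.θ0
    have := hσ.δ0
    rw [hL0d]
    positivity
  set co : ℝ := (8 * (μ : ℝ) + ((pn.s : ℝ) + 2) * R.m) * Real.log 2 + D with hco
  have hco0 : 0 ≤ co := by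
    rw [hco]
    positivity
  have hbB' : bc R < pn.B₁ := by omega
  have hbx : (low R μ o).m + y ≤ bc R := by
    show R.m + y ≤ bc R
    omega
  have ho := hov (low R μ o) pn 0 g' gU ε hh1 hd0 hok hne' (by show z ≤ R.r0; omega) fmono hfs (hfn N le_rfl) hA hRR
    (ε := eg) (δ := δ) (co := co) (L0 := L0) hν₀ (by show R.m + z ≤ bc R; omega) hbB' (by show R.m * R.b1 ≤ bc R; exact le_rfl)
    (by show 8 * μ ≤ bc R; exact hb8) (by show 8 * μ ≤ _; omega) haN hroom hRq heδ hδ1 le_rfl hL0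
  have hSY := H513.y6_re hok hK hfs hfn hA hRR hf1 (ε := eg) (η := η) (c := c) (y := y) (z := 2 * R.m) (c3 := c3)
    (cY := 18 + 9 * (cμ * x)) (Kμ := 3) hbB' hbx H.cc H.yy hKq hKμ h3a h3b hcY (by show R.m + c + y ≤ 2 * R.m; omega) hb8 hR0
    H.mμ M (fun k => az R i0 k ∉ V) (fun k hk hak hO => hYM k hk hak (not_not.1 hO))
  have key := H118.heavy_reX hok hK fmono hfs hfn hA hRR hst hf1 (ε := eg) (δ := δ) (co := co) (c := c) (y := y)
    (c3 := c3) (cY := 18 + 9 * (cμ * x)) (Kμ := 3) hbB' hbx H.cc H.yy hKq hKμ h3a' h3b' hb8 hR0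
    H.mμ V S M hMt (u := u) (x := xx) (ν := ν) (eS := eSK (3 * eg + η) R.m μ) (jm := jm) hVO hVY hu hx H.νK hVS hMM hjm J1 J2 hδ00
    heS H.eS hδ1 hco0 hcY
    (fun i i1 g1 g2 g3 g4 => by
      obtain ⟨Kc, k1, k2⟩ := hSY i i1 g1 g2 g3 g4
      refine ⟨Kc, k1, fun k c1 c2 c3 c4 c5 c6 => ?_⟩
      have := k2 k c1 c2 c3 c4 c5 (not_not.2 c6)
      rw [hη2] at this
      exact this)
    (xo := xoR (R.m * Real.log 2) L0 ν₀ (az R i0) (rz R i0) N)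
    (fun j => xoR_nonneg (by positivity) hL00 ν₀ (az R i0) (rz R i0) N j) (cx := 13) (by norm_num) ho M1 i i1
    ((H101.good_low h0 hμC o (bc R) (bc R) ((hfn i (by omega)).trans (Nat.le_add_right _ _))).2 hgi) hi hi1 hM
  refine le_trans (le_of_eq ?_) key
  unfold hch
  show _ = R.m * Real.log 2 * (1 - δ) * ((rz R i0 i1 : ℝ) - rz R i0 i) - R.m * Real.log 2 * (3 + 2 + 13) * ((az R i0 i1 : ℝ) - az R i0 i) -
        ∑ z ∈ Icc (az R i0 i) (az R i0 i + (rz R i0 i1 - rz R i0 i)), (u z + usw S jm xx z + xx z) -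
        (((18 + 9 * (cμ * x) : ℕ) : ℝ) * (R.m * Real.log 2) + (2 * nuK (32 * ρ.K) + 2 * jm) + co) -
        ∑ j ∈ Ico i i1, (H833.qc R.Q R.ry (fun i => Zw R (ix R i0 i)) (fun j ω => fl1 (R.C.a (ix R i0 j)) (R.C.t ω)) j +
          xoR (R.m * Real.log 2) L0 ν₀ (az R i0) (rz R i0) (nz R i0) j)
  rw [hco]
  ring

/-- `heavy_num` for a margin `μ` with `μ = cμ x m` -/
theorem heavy_mu {σ : Cst} (hσ : σ.Ok) {ε : ℝ} (hε : 0 < ε) (h8 : 8 * ε ≤ σ.lam) {ρ : Thr} (hρ : ρ.Ok) {g : Gv}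
    (hg : g.Ok σ ε) {δ0 : ℝ} (hδ0 : 0 < δ0) :
    ∃ (D : ℝ) (z : ℕ), 0 ≤ D ∧ ∀ {m B : ℕ} {Ω : Type} [Fintype Ω] {Q : Law Ω} {l : Ω → Ry} {t : Ω → ℝ}
      {L h q r0 Rn : ℕ} {W : Ω → Cbx} {τ υ : Type} {R : Run Ω τ υ} {pn : Run.Num} {g' gU e κ₀ : ℝ} {a1 r1 : ℕ},
      NEx 100 σ.lam σ.N g.k g.β ε Q l t (fun _ => ()) L h q W →
      RunOk σ ε ρ m B Q l t L h q r0 Rn W R pn g' gU e κ₀ a1 r1 →
      ∀ {eg η ν δ : ℝ} {c y cμ x : ℕ}, HNum (32 * ρ.K) eg η ν δ D c y z cμ x m B → ∀ {μ : ℕ}, μ = cμ * x * m → 0 ≤ eg → 0 ≤ η → 12 * eg + δ0 ≤ δ → δ ≤ 1 →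
      ∀ (o : Fin 7 → ℝ) {i0 : ℕ}, i0 ≤ Cmp.Nc R R.b1 → ∀ {ν₀ : ℕ}, 0 < ν₀ →
      -- the letters
      ∀ (V S : Set ℕ) {ζ : Type} (M : ℕ → Ω → ζ),
      (∀ k ≤ nz R i0, az R i0 k ∈ V → Fn R.Q (td (lc R.C μ o) (ix R i0 k)) (M k)) →
      ∀ {u xx : ℕ → ℝ} {jm : ℝ},
      (∀ k < nz R i0, az R i0 (k + 1) = az R i0 k + 1 → az R i0 k ∉ V → 2 * (m * Real.log 2) - u (az R i0 k) ≤
        Stk.hc R.Q ((lc R.C μ o).VZ (ix R i0 (k + 1)) (bc R))
          (fun ω => (td (lc R.C μ o) (ix R i0 (k + 1)) ω,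
            ((lc R.C μ o).cell (ix R i0 k) (bc R) ω, (lc R.C μ o).VZ (ix R i0 k) (bc R) ω)))) →
      (∀ k < nz R i0, az R i0 (k + 1) = az R i0 k + 1 → az R i0 k ∈ V → 2 * (m * Real.log 2) - u (az R i0 k) ≤
        Stk.hc R.Q ((lc R.C μ o).VZ (ix R i0 (k + 1)) (bc R))
          (fun ω => (td (lc R.C μ o) (ix R i0 (k + 1)) ω,
            (M k ω, (lc R.C μ o).VZ (ix R i0 k) (bc R) ω)))) →
      (∀ z, 0 ≤ u z) → (∀ z, 0 ≤ xx z) → (∀ z, z ∉ S → (z ∈ V ↔ z + 1 ∈ V)) →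
      (∀ k k2, k < nz R i0 → az R i0 (k + 1) = az R i0 k + 1 → k < k2 → k2 ≤ nz R i0 → az R i0 k2 = az R i0 k + 1 →
        (k2 = nz R i0 ∨ az R i0 (k2 + 1) = az R i0 k2 + 1) → az R i0 k ∈ V → az R i0 k2 ∈ V → az R i0 k ∉ S →
        Stk.hc R.Q (fun ω => (M k ω, (lc R.C μ o).VZ (ix R i0 k) (bc R) ω))
          (fun ω => (M k2 ω, (lc R.C μ o).VZ (ix R i0 k2) (bc R) ω)) ≤ ν) →
      0 ≤ jm →
      (∀ k ≤ nz R i0, az R i0 k ∈ V → (k = nz R i0 ∨ az R i0 (k + 1) = az R i0 k + 1) →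
        Stk.hc R.Q ((lc R.C μ o).cell (ix R i0 k) (bc R)) (M k) ≤ jm + xx (az R i0 k)) →
      (∀ k ≤ nz R i0, az R i0 k ∈ V → (k = nz R i0 ∨ az R i0 (k + 1) = az R i0 k + 1) →
        Stk.hc R.Q (M k) ((lc R.C μ o).cell (ix R i0 k) (bc R)) ≤ jm) →
      (∀ k < nz R i0, az R i0 (k + 1) = az R i0 k + 1 → az R i0 k ∈ V →
        H513.YMod (low R μ o) (32 * ρ.K) (bc R) (2 * m) (ix R i0 k) (M k) η) →
      ∀ (M1 i i1 : ℕ), R.Good pn eg (bc R) (ix R i0 i) → i < i1 → i1 ≤ nz R i0 → rz R i0 i + M1 < rz R i0 i1 →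
        m * Real.log 2 * (1 - δ) * ((rz R i0 i1 : ℝ) - rz R i0 i) - m * Real.log 2 * 18 * ((az R i0 i1 : ℝ) - az R i0 i) -
          ∑ z ∈ Icc (az R i0 i) (az R i0 i + (rz R i0 i1 - rz R i0 i)), (u z + usw S jm xx z + xx z) -
          hch (32 * ρ.K) jm D cμ x pn.s m -
          ∑ j ∈ Ico i i1, (H833.qc R.Q R.ry (fun i => Zw R (ix R i0 i)) (fun j ω => fl1 (R.C.a (ix R i0 j)) (R.C.t ω)) j +
            xoR (m * Real.log 2) ((σ.θ + σ.δ1 + 4 * ε) * h) ν₀ (az R i0) (rz R i0) (nz R i0) j) ≤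
        H833.psi R.Q R.ry (fun i => Zw R (ix R i0 i)) (fun k => (lc R.C μ o).cell (ix R i0 k) (bc R)) i1 -
          H833.psi R.Q R.ry (fun i => Zw R (ix R i0 i)) (fun k => (lc R.C μ o).cell (ix R i0 k) (bc R)) i := by
  obtain ⟨D, z, hD, H⟩ := heavy_num hσ hε h8 hρ hg hδ0
  refine ⟨D, z, hD, ?_⟩
  intro m B Ω _ Q l t L h q r0 Rn W τ υ R pn g' gU e κ₀ a1 r1 hne hR eg η ν δ c y cμ x Hn μ hμ
  subst hμ
  exact H hne hR Hn

end Vale.Agent.P106.U.Top543
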