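import Vale.Agent.P106.U.H543.HNum
import Vale.Agent.P106.U.H425.QS
import Vale.Agent.P106.U.H118.HeavyPar
import Vale.Agent.P106.U.MIC.Stage

/-!
# P106 / U / H543 : the row of the heavy intervals from the letters (helper543)

* `HLet s ν V S M u xx jm η` : the letter part of the heavy intervals at the situation `s`: young levels `V`, levels `S` where the
  kind may change, letters `M k`, errors `u`, excesses `xx`, junction `jm`, nesting `ν`, exceptional probability `η`.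
* `HCore` : the letters exist, with the sum of the errors `≤ e3 h`.
* **`rowH_of : HCore → RowH`**.
-/

set_option autoImplicit false

namespace Vale.Agent.P106.U.Top543

open Finset Vale.Agent.P127 Vale.Agent.P127.Stk Vale.Agent.P127.U Vale.Agent.P106.W Vale.Agent.P106.K Vale.Agent.P106.U
open Vale.Agent.P106.U.S3 (Run)
open Vale.Agent.P106.U.S5
open Vale.Agent.P127.U.CellD (q2)
open Vale.Agent.P106.U.H118 (td Zw nuK eSK usw)
open Vale.Agent.P106.U.H101 (lc low)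
open Vale.Agent.P106.U.H833 (aN RN)
open Vale.Agent.P106.U.H823
open Vale.Agent.P106.U.MIC (bc ix nz az rz St Pre Suf RowH eG μS xS)

/-- **the letters of the heavy intervals** -/
structure HLet {η₀ : ℝ} {x : ℕ} {σ : Cst} {ε : ℝ} {ρ : Thr} {g : Gv} {m B h : ℕ} (s : St η₀ x σ ε ρ g m B h) (ν : ℝ)
    {ζ : Type} (V S : Set ℕ) (M : ℕ → s.Ω → ζ) (u xx : ℕ → ℝ) (jm η : ℝ) : Prop where
  Mt : ∀ k ≤ nz s.R s.i0, az s.R s.i0 k ∈ V → Fn s.R.Q (td (lc s.R.C (μS x m) s.o) (ix s.R s.i0 k)) (M k)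
  VO : ∀ k < nz s.R s.i0, az s.R s.i0 (k + 1) = az s.R s.i0 k + 1 → az s.R s.i0 k ∉ V →
    2 * (m * Real.log 2) - u (az s.R s.i0 k) ≤
      Stk.hc s.R.Q ((lc s.R.C (μS x m) s.o).VZ (ix s.R s.i0 (k + 1)) (bc s.R))
        (fun ω => (td (lc s.R.C (μS x m) s.o) (ix s.R s.i0 (k + 1)) ω,
          ((lc s.R.C (μS x m) s.o).cell (ix s.R s.i0 k) (bc s.R) ω, (lc s.R.C (μS x m) s.o).VZ (ix s.R s.i0 k) (bc s.R) ω)))
  VY : ∀ k < nz s.R s.i0, az s.R s.i0 (k + 1) = az s.R s.i0 k + 1 → az s.R s.i0 k ∈ V →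
    2 * (m * Real.log 2) - u (az s.R s.i0 k) ≤
      Stk.hc s.R.Q ((lc s.R.C (μS x m) s.o).VZ (ix s.R s.i0 (k + 1)) (bc s.R))
        (fun ω => (td (lc s.R.C (μS x m) s.o) (ix s.R s.i0 (k + 1)) ω,
          (M k ω, (lc s.R.C (μS x m) s.o).VZ (ix s.R s.i0 k) (bc s.R) ω)))
  u0 : ∀ z, 0 ≤ u z
  x0 : ∀ z, 0 ≤ xx z
  VS : ∀ z, z ∉ S → (z ∈ V ↔ z + 1 ∈ V)
  MM : ∀ k k2, k < nz s.R s.i0 → az s.R s.i0 (k + 1) = az s.R s.i0 k + 1 → k < k2 → k2 ≤ nz s.R s.i0 →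
    az s.R s.i0 k2 = az s.R s.i0 k + 1 → (k2 = nz s.R s.i0 ∨ az s.R s.i0 (k2 + 1) = az s.R s.i0 k2 + 1) →
    az s.R s.i0 k ∈ V → az s.R s.i0 k2 ∈ V → az s.R s.i0 k ∉ S →
    Stk.hc s.R.Q (fun ω => (M k ω, (lc s.R.C (μS x m) s.o).VZ (ix s.R s.i0 k) (bc s.R) ω))
      (fun ω => (M k2 ω, (lc s.R.C (μS x m) s.o).VZ (ix s.R s.i0 k2) (bc s.R) ω)) ≤ ν
  jm0 : 0 ≤ jm
  J1 : ∀ k ≤ nz s.R s.i0, az s.R s.i0 k ∈ V → (k = nz s.R s.i0 ∨ az s.R s.i0 (k + 1) = az s.R s.i0 k + 1) →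
    Stk.hc s.R.Q ((lc s.R.C (μS x m) s.o).cell (ix s.R s.i0 k) (bc s.R)) (M k) ≤ jm + xx (az s.R s.i0 k)
  J2 : ∀ k ≤ nz s.R s.i0, az s.R s.i0 k ∈ V → (k = nz s.R s.i0 ∨ az s.R s.i0 (k + 1) = az s.R s.i0 k + 1) →
    Stk.hc s.R.Q (M k) ((lc s.R.C (μS x m) s.o).cell (ix s.R s.i0 k) (bc s.R)) ≤ jm
  YM : ∀ k < nz s.R s.i0, az s.R s.i0 (k + 1) = az s.R s.i0 k + 1 → az s.R s.i0 k ∈ V →
    H513.YMod (low s.R (μS x m) s.o) (32 * ρ.K) (bc s.R) (2 * m) (ix s.R s.i0 k) (M k) η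

/-- **the letters exist** (helper118, helper357, helper471, helper459) -/
def HCore : Prop :=
  ∃ jx : ℕ → ℝ, (∀ x, 0 ≤ jx x) ∧ Pre fun _ η x _ e3 σ ε ρ => ∃ ν : ℝ, nuK (32 * ρ.K) + Real.log 45 ≤ ν ∧
    Suf σ ε fun g m B h => ∀ s : St η x σ ε ρ g m B h,
      ∃ (ζ : Type) (V S : Set ℕ) (M : ℕ → s.Ω → ζ) (u xx : ℕ → ℝ) (jm : ℝ) (T : Finset ℕ), jm ≤ m * Real.log 2 * jx x ∧
        (∀ z, z ∉ T → u z + usw S jm xx z + xx z = 0) ∧ ∑ z ∈ T, (u z + usw S jm xx z + xx z) ≤ e3 * h ∧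
        HLet s ν V S M u xx jm ρ.c'

theorem xoR_mono {M L0 L0' : ℝ} (h : L0 ≤ L0') (ν : ℕ) (a r : ℕ → ℕ) (N j : ℕ) : xoR M L0 ν a r N j ≤ xoR M L0' ν a r N j := by
  unfold xoR
  refine mul_le_mul_of_nonneg_left ?_ (Nat.cast_nonneg _)
  have h1 := div_le_div_of_nonneg_right h (Nat.cast_nonneg ν : (0 : ℝ) ≤ ν)
  linarith

/-- **the row of the heavy intervals** -/
theorem rowH_of (HC : HCore) : RowH := by
  obtain ⟨jx, hjx, HC⟩ := HC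
  have hl2 : 0 < Real.log 2 := Real.log_pos (by norm_num)
  refine ⟨18, fun x => 33 + 17 * (MIC.cμ * xS x) + 2 * jx x, by norm_num, fun x => by have := hjx x; positivity, ?_⟩
  intro b hb η hη x δh e3 hx hδh he3
  obtain ⟨θa, hθa, HC⟩ := HC b hb η hη x δh e3 hx hδh he3
  obtain ⟨θb, hθb, HQ⟩ := H425.qcst_ex hb (κ := η / 400) (by positivity)
  refine ⟨min θa θb, lt_min hθa hθb, fun θ hθ hθ' => ?_⟩
  obtain ⟨δa, hδa, HC⟩ := HC θ hθ (hθ'.trans (min_le_left _ _))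
  obtain ⟨δb, hδb, HQ⟩ := HQ θ hθ (hθ'.trans (min_le_right _ _))
  refine ⟨min δa δb, lt_min hδa hδb, fun δ1 hδ1 hδ1' σ hσ hσo => ?_⟩
  obtain ⟨εa, hεa, HC⟩ := HC δ1 hδ1 (hδ1'.trans (min_le_left _ _)) σ hσ hσo
  obtain ⟨εb, hεb, HQ⟩ := HQ δ1 hδ1 (hδ1'.trans (min_le_right _ _))
  set δ : ℝ := min δh 1 with hδd
  have hδ0 : 0 < δ := lt_min hδh one_pos
  set cx : ℝ := 2 + 2 * (MIC.cμ * xS x : ℝ) with hcx
  have hcx0 : 0 < cx := by rw [hcx]; positivity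
  have hlam := hσo.bs.lam0
  refine ⟨min (min εa εb) (min (σ.lam / 8) (min (δ / 24) (δ / (8 * cx)))), by positivity, fun ε hε hε' ρ hρ => ?_⟩
  obtain ⟨ν, hν, HC⟩ := HC ε hε (hε'.trans ((min_le_left _ _).trans (min_le_left _ _))) ρ hρ
  have hQ : H425.QCst σ ε (η / 400) := by
    rw [hσ]
    exact HQ ε hε (hε'.trans ((min_le_left _ _).trans (min_le_right _ _)))
  have hε2 := hε'.trans (min_le_right _ _)
  have hε8 : 8 * ε ≤ σ.lam := by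
    have := hε2.trans (min_le_left _ _)
    linarith
  have hε24 : ε ≤ δ / 24 := (hε2.trans (min_le_right _ _)).trans (min_le_left _ _)
  have hεx : ε * cx ≤ δ / 8 := by
    have h1 : ε ≤ δ / (8 * cx) := (hε2.trans (min_le_right _ _)).trans (min_le_right _ _)
    have h2 := mul_le_mul_of_nonneg_right h1 hcx0.le
    refine h2.trans (le_of_eq ?_)
    field_simp
  -- the accuracy of the good steps
  have hK1 := hρ.K1
  have hc'0 := hρ.c'0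
  have hK8 : (1 : ℝ) ≤ ρ.K ^ 8 := one_le_pow₀ hK1
  have he0 : 0 ≤ eG ε ρ := by
    unfold eG
    positivity
  have he1 : eG ε ρ ≤ ε := by
    unfold eG
    rw [div_le_iff₀ (by linarith)]
    have h1 : ρ.c' ≤ 1 := by linarith [hρ.c'1]
    have h2 : ε * ρ.c' ≤ ε * 1 := mul_le_mul_of_nonneg_left h1 hε.le
    have h3 : ε * 1 ≤ ε * ρ.K ^ 8 := mul_le_mul_of_nonneg_left hK8 hε.le
    linarith
  by_cases hcε : ρ.c' ≤ ε
  swap
  · -- no run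
    intro g hg
    refine ⟨0, fun m _ => ⟨0, fun B _ => ⟨0, fun h _ s => ?_⟩⟩⟩
    exact absurd s.run.c'e hcε
  obtain ⟨c, hc⟩ := H118.exists_q2 (A := 2 * (32 * ρ.K))
  obtain ⟨y, hy⟩ := H118.exists_q2 (A := 40 * (32 * ρ.K) ^ 6)
  intro g hg
  obtain ⟨D, z, hD, HH⟩ := heavy_mu hσo hε hε8 hρ hg (δ0 := δ / 2) (by positivity)
  obtain ⟨m1, HC⟩ := HC g hg
  have hx3 : 3 ≤ MIC.cμ * xS x := by
    have h1 : 800 ≤ MIC.cN := le_max_left _ _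
    have h2 : 12 ≤ xS x := by
      unfold xS
      omega
    have h3 : 8000 * 800 ≤ MIC.cμ := by
      unfold MIC.cμ
      exact Nat.mul_le_mul_left _ h1
    calc 3 ≤ 8000 * 800 * 12 := by norm_num
      _ ≤ MIC.cμ * xS x := Nat.mul_le_mul h3 h2
  have hev := (hNum_ev (K := 32 * ρ.K) (eg := eG ε ρ) (η := ρ.c') (ν := ν) (δ := δ) D (c := c) (y := y) z (cμ := MIC.cμ)
    (x := xS x) hc hy hν hδ0 (by
      have h1 : (3 * eG ε ρ + ρ.c') ≤ 4 * ε := by linarith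
      have h2 := mul_le_mul_of_nonneg_right h1 hcx0.le
      rw [hcx] at h2 hεx
      linarith) hx3).and
    (H425.ev_QNum hσo.θ0 (κ := η / 400) (by positivity) ρ)
  obtain ⟨m2, HN⟩ := hev.out
  refine ⟨max m1 m2, fun m hm => ?_⟩
  obtain ⟨B1, HC⟩ := HC m ((le_max_left _ _).trans hm)
  obtain ⟨B2, HN⟩ := HN m ((le_max_right _ _).trans hm)
  refine ⟨max B1 B2, fun B hB => ?_⟩
  obtain ⟨h1, HC⟩ := HC B ((le_max_left _ _).trans hB)
  obtain ⟨h2, HN⟩ := HN B ((le_max_right _ _).trans hB)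
  refine ⟨max h1 h2, fun h hh s => ?_⟩
  obtain ⟨ζ, V, S, M, u, xx, jm, T, hjm, hT0, hTs, L⟩ := HC h ((le_max_left _ _).trans hh) s
  obtain ⟨Hn, Hq⟩ := HN h ((le_max_right _ _).trans hh)
  have hmm : s.mm = m * Real.log 2 := by
    unfold MIC.St.mm
    rw [s.run.hm]
  obtain ⟨hν0, hxo⟩ := H425.xo_rec hσo hρ s.run hε.le hQ Hq s.hi0
  set ν₀ : ℕ := H425.nuE (Real.sqrt σ.θ) h m with hν₀
  have hL0 : (σ.θ + σ.δ1 + 4 * ε) * (h : ℝ) ≤ 2 * σ.θ * h :=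
    mul_le_mul_of_nonneg_right (by linarith [hQ.L0]) (Nat.cast_nonneg _)
  have hL00 : 0 ≤ (σ.θ + σ.δ1 + 4 * ε) * (h : ℝ) := by
    have := hσo.θ0
    have := hσo.δ0
    positivity
  have hms : m * Real.log 2 = s.R.m * Real.log 2 := by rw [s.run.hm]
  have hcH := hch_le Hn he0 hc'0.le (min_le_right _ _) (s := s.pn.s) s.run.hs.2 hjm
  refine ⟨fun j => xoR (m * Real.log 2) ((σ.θ + σ.δ1 + 4 * ε) * h) ν₀ (az s.R s.i0) (rz s.R s.i0) (nz s.R s.i0) j,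
    fun z => u z + usw S jm xx z + xx z, T, hch (32 * ρ.K) jm D MIC.cμ (xS x) s.pn.s m, δ,
    hch_nonneg L.jm0 hD _ _ _ _, hδ0.le, ?_, min_le_left _ _, fun j => xoR_nonneg (by positivity) hL00 _ _ _ _ _, ?_,
    fun z => add_nonneg (add_nonneg (L.u0 z) (H118.usw_nonneg L.jm0 L.x0 z)) (L.x0 z), hT0, hTs, ?_⟩
  · rw [hmm]
    refine hcH.trans (le_of_eq ?_)
    push_cast
    ring
  · refine (Finset.sum_le_sum fun j _ => xoR_mono hL0 ν₀ _ _ _ j).trans ?_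
    rw [hms]
    refine hxo.trans ?_
    have h3 := hQ.tot
    have h4 := Hq.h12
    have h5 : ((8 * (σ.K1 + 1) + 10 * σ.C1) * Real.sqrt σ.θ + σ.C1 * σ.δ1) * (h : ℝ) ≤ η / 400 * h :=
      mul_le_mul_of_nonneg_right (by linarith) (Nat.cast_nonneg _)
    linarith
  · intro i i1 hgi hi hi1 hr
    have key := HH s.nex s.run Hn (μ := μS x m) rfl he0 hc'0.le (by linarith) (min_le_right _ _) s.o s.hi0 hν0 V S M L.Mt
      L.VO L.VY L.u0 L.x0 L.VS L.MM L.jm0 L.J1 L.J2 L.YM 0 i i1 hgi hi hi1 hr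
    rw [hmm]
    exact key

end Vale.Agent.P106.U.Top543
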