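import Vale.Agent.P106.U.H480.Gro
import Vale.Agent.P106.U.H875.XX
import Vale.Agent.P106.U.H489.Cls

/-!
# P106 / U / H543 : LAB and GROW for labels of RANDOM shape, the shape being a function of a letter `G` (helper543)

* `fixR` : `FIX` for random shapes.
* `labR` : LAB for random shapes (class `c`), `labRC` (class `c' ≥ c`).
* `growR` : `(3 + lam) E[b] ≤ H(plb b h (l, t) | W, t_h, C, G) + k' E[b] + small h + ...`, `b` a function of `G`.
-/

set_option autoImplicit false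

namespace Vale.Agent.P106.U.GR543

open Finset Vale.Agent.P127 Vale.Agent.P127.Stk Vale.Agent.P127.U Vale.Agent.P106.W Vale.Agent.P106.K Vale.Agent.P106.U
open Vale.Agent.P106.U.H523 Vale.Agent.P106.U.G480

section finite

variable {Ω : Type} [Fintype Ω] {γ δ : Type}

/-- **FIX** for random shapes which are functions of the letter `G` -/
theorem fixR {c lam N k : ℝ} (hc : 1 ≤ c) (h0 : 0 ≤ lam) (h1 : lam ≤ 1) (hk : 0 ≤ k) {v : ℝ} {K : ℝ} {s L : ℕ}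
    (P : Law Ω) (l : Ω → Ry) (t : Ω → ℝ) (C : Ω → γ) (G : Ω → δ) (e : δ → ℕ × ℕ) (W : Ω → Cbx)
    (hok : SyOk P l t)
    (hW : ∀ ω, 0 < P.w ω → LbOk c L s (W ω) (l ω) (t ω) ∧ (W ω).u2 = (1 / 2 : ℝ) ^ (e (G ω)).1 ∧
      (W ω).u1 = (1 / 2 : ℝ) ^ (e (G ω)).2)
    (hF : ∀ (Q : Law Ω) (e0 : ℕ × ℕ), SyOk Q l t →
      (∀ ω, 0 < Q.w ω → LbOk c L s (W ω) (l ω) (t ω) ∧ (W ω).u2 = (1 / 2 : ℝ) ^ e0.1 ∧ (W ω).u1 = (1 / 2 : ℝ) ^ e0.2) →
      val lam Q l t C s W ≤ XX c lam k 0 Q l t C (fun _ => e0) L 0 + v + K + N * Dd Q l t C s) :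
    val lam P l t (fun ω => (C ω, G ω)) s W ≤
      XX c lam k 0 P l t (fun ω => (C ω, G ω)) (fun ω => e (G ω)) L 0 + v + K +
        N * Dd P l t (fun ω => (C ω, G ω)) s := by
  have hc0 : 0 ≤ c := by linarith
  rw [val_mix G W, H875.XX_mix hc0 (Nat.zero_le L) h0 h1 hk le_rfl G, Dd_mix G]
  have hv : v = ∑ z ∈ img G, P.pr G z * v := by
    rw [← Finset.sum_mul, P.sum_pr_image G, one_mul]
  have hK : K = ∑ z ∈ img G, P.pr G z * K := by
    rw [← Finset.sum_mul, P.sum_pr_image G, one_mul]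
  rw [hv, hK, Finset.mul_sum, ← Finset.sum_add_distrib, ← Finset.sum_add_distrib, ← Finset.sum_add_distrib]
  refine Finset.sum_le_sum fun z _ => ?_
  rcases (P.pr_nonneg G z).eq_or_lt with hz | hz
  · rw [← hz]
    simp
  · have hsu : ∀ ω, 0 < (P.cond G z).w ω → 0 < P.w ω ∧ G ω = z := fun ω hω =>
      ⟨JSB.cond_supp P G z hω, JSB.cond_supp' P G z hz hω⟩
    have key := hF (P.cond G z) (e z) (fun ω hω => hok ω (hsu ω hω).1) (fun ω hω => by
      have := hW ω (hsu ω hω).1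
      rwa [(hsu ω hω).2] at this)
    have e1 : XX c lam k 0 (P.cond G z) l t C (fun ω => e (G ω)) L 0 =
        XX c lam k 0 (P.cond G z) l t C (fun _ => e z) L 0 :=
      H875.XX_congr_e fun ω hω => by rw [(hsu ω hω).2]
    rw [e1]
    have := mul_le_mul_of_nonneg_left key hz.le
    linarith

end finite

/-- **LAB** for random shapes -/
theorem labR (lam N k k' β β' : ℝ) (h0 : 0 ≤ lam) (h1 : lam ≤ 1) (hk : 0 ≤ k) (hkk : k ≤ k') (hN : 0 ≤ N)
    (hF : FIXA lam N k' β') (c : ℝ) (hc : 1 ≤ c) (ε : ℝ) (hε : 0 < ε) : ∃ K : ℝ, 0 ≤ K ∧ ∀ (d : ℝ) (Ω : Type) [Fintype Ω]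
      (γ : Type) (P : Law Ω) (l : Ω → Ry) (t : Ω → ℝ) (C : Ω → γ) (L h q : ℕ) (W : Ω → Cbx),
      NEx c lam N k β d P l t C L h q W →
      ∀ (Ω' : Type) [Fintype Ω'] (P' : Law Ω') (π : Ω' → Ω), (∀ ω, P'.pr π ω = P.w ω) →
      ∀ (δ : Type) (G : Ω' → δ) (a : ℕ) (e : δ → ℕ × ℕ) (A : Ω' → Cbx), a ≤ L →
      (∀ ω, 0 < P'.w ω → LbOk c L a (A ω) (l (π ω)) (t (π ω)) ∧ (A ω).u2 = (1 / 2 : ℝ) ^ (e (G ω)).1 ∧
        (A ω).u1 = (1 / 2 : ℝ) ^ (e (G ω)).2) →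
      val lam P' (fun ω => l (π ω)) (fun ω => t (π ω)) (fun ω => (C (π ω), G ω)) a A ≤
        val lam P' (fun ω => l (π ω)) (fun ω => t (π ω)) (fun ω => (C (π ω), G ω)) h (fun ω => W (π ω)) -
        (β - d) * h * Real.log 2 + (β' + ε) * a * Real.log 2 -
        N * (Dd P' (fun ω => l (π ω)) (fun ω => t (π ω)) (fun ω => (C (π ω), G ω)) h -
          Dd P' (fun ω => l (π ω)) (fun ω => t (π ω)) (fun ω => (C (π ω), G ω)) a) +
        k' * P'.ex (fun ω => (((e (G ω)).1 : ℝ) + |((e (G ω)).2 : ℝ) - q|) * Real.log 2) +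
        Stk.hc P' G (fun ω => (W (π ω), fl1 h (t (π ω)), C (π ω))) +
        N * Stk.hc P' G (fun ω => (l (π ω), C (π ω))) + K := by
  obtain ⟨K, hK⟩ := hF c hc ε hε
  refine ⟨max K 0, le_max_right _ _, ?_⟩
  intro d Ω _ γ P l t C L h q W hne Ω' _ P' π g1 δ G a e A haL hA
  have hpos : ∀ ω, 0 < P'.w ω → 0 < P.w (π ω) := fun ω hω => by
    rw [← g1]
    exact P'.pr_pos π hω
  have s1 := fixR (v := (β' + ε) * a * Real.log 2) (K := K) (N := N) hc h0 h1 (hk.trans hkk) P' (fun ω => l (π ω))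
    (fun ω => t (π ω)) (fun ω => C (π ω)) G e A (fun ω hω => hne.ok (π ω) (hpos ω hω)) hA
    (fun Q e0 hQ hQW => hK Ω' γ Q (fun ω => l (π ω)) (fun ω => t (π ω)) (fun ω => C (π ω)) L a e0 A haL hQ hQW)
  have s2a := H875.XX_le_target (c := c) (lam := lam) (k := k') (La := 0) (P := P') (l := fun ω => l (π ω))
    (t := fun ω => t (π ω)) (C := fun ω => (C (π ω), G ω)) (e := fun ω => e (G ω)) (e' := fun _ => (0, q)) (L := L) (a := 0)
    (by linarith) (Nat.zero_le L) h0 h1 (hk.trans hkk) le_rfl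
  have s2 := XX_change (c := c) h0 h1 hk hkk hc (l := l) (t := t) (C := C) (Nat.zero_le L) g1 G (0, q) (0, q)
  have s3 := hne.ex
  have s4 : val lam P l t C h W = val lam P' (fun ω => l (π ω)) (fun ω => t (π ω)) (fun ω => C (π ω)) h (fun ω => W (π ω)) := by
    unfold val
    have e1 := Stk.hc_of_law P' P π g1 l (fun ω => (W ω, fl1 h (t ω), C ω))
    have e2 := Stk.ex_law_aux P' P π g1 (fun ω => (3 + lam) * Real.log (W ω).u2 + (1 - lam) * Real.log (W ω).u1)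
    rw [← e1, ← e2]
    rfl
  have s5 : val lam P' (fun ω => l (π ω)) (fun ω => t (π ω)) (fun ω => C (π ω)) h (fun ω => W (π ω)) ≤
      val lam P' (fun ω => l (π ω)) (fun ω => t (π ω)) (fun ω => (C (π ω), G ω)) h (fun ω => W (π ω)) +
        Stk.hc P' G (fun ω => (W (π ω), fl1 h (t (π ω)), C (π ω))) := by
    unfold val
    have e1 := Stk.hc_le_add' P' (fun ω => l (π ω)) G (fun ω => (W (π ω), fl1 h (t (π ω)), C (π ω)))
    have e2 := Stk.hc_mono_right P' (fun ω => l (π ω)) (Y := fun ω => (G ω, (W (π ω), fl1 h (t (π ω)), C (π ω))))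
      (Y' := fun ω => (W (π ω), fl1 h (t (π ω)), (C (π ω), G ω))) (fun ω ω' _ _ e => by
        simp only [Prod.mk.injEq] at e ⊢
        exact ⟨e.2.2.2, e.1, e.2.1, e.2.2.1⟩)
    have e3 := Stk.hc_mono_right P' (fun ω => l (π ω)) (Y := fun ω => (W (π ω), fl1 h (t (π ω)), (C (π ω), G ω)))
      (Y' := fun ω => (G ω, (W (π ω), fl1 h (t (π ω)), C (π ω)))) (fun ω ω' _ _ e => by
        simp only [Prod.mk.injEq] at e ⊢
        exact ⟨e.2.1, e.2.2.1, e.2.2.2, e.1⟩)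
    linarith
  have s6 : Dd P' (fun ω => l (π ω)) (fun ω => t (π ω)) (fun ω => (C (π ω), G ω)) h ≤
      Dd P l t C h + Stk.hc P' G (fun ω => (l (π ω), C (π ω))) := by
    unfold Dd
    have e0 := Stk.hc_of_law P' P π g1 (fun ω => fl1 h (t ω)) (fun ω => (l ω, C ω))
    have e1 := Stk.hc_le_add' P' (fun ω => fl1 h (t (π ω))) G (fun ω => (l (π ω), C (π ω)))
    have e2 := Stk.hc_mono_right P' (fun ω => fl1 h (t (π ω))) (Y := fun ω => (l (π ω), (C (π ω), G ω)))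
      (Y' := fun ω => (G ω, (l (π ω), C (π ω)))) (fun ω ω' _ _ e => by
        simp only [Prod.mk.injEq] at e ⊢
        exact ⟨e.2.1, e.2.2, e.1⟩)
    have e3 : Stk.hc P (fun ω => fl1 h (t ω)) (fun ω => (l ω, C ω)) =
      Stk.hc P' (fun ω => fl1 h (t (π ω))) (fun ω => (l (π ω), C (π ω))) := e0.symm
    rw [e3]
    linarith
  have s7 := mul_le_mul_of_nonneg_left s6 hN
  have s8 : P'.ex (fun ω => (|((e (G ω)).1 : ℝ) - ((0 : ℕ) : ℝ)| + |((e (G ω)).2 : ℝ) - (q : ℝ)|) * Real.log 2) =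
      P'.ex (fun ω => (((e (G ω)).1 : ℝ) + |((e (G ω)).2 : ℝ) - q|) * Real.log 2) :=
    P'.ex_congr fun ω _ => by simp
  have s9 := le_max_left K 0
  simp only [sub_self, abs_zero, add_zero, mul_zero, zero_mul] at s2
  rw [s8] at s2a
  linarith

/-- **LAB** for random shapes and labels of a larger class -/
theorem labRC (lam N k k' β β' : ℝ) (h0 : 0 ≤ lam) (h1 : lam ≤ 1) (hk : 0 ≤ k) (hkk : k ≤ k') (hN : 0 ≤ N)
    (hF : FIXA lam N k' β') (c c' : ℝ) (hc : 1 ≤ c) (hcc : c ≤ c') (ε : ℝ) (hε : 0 < ε) : ∃ K : ℝ, 0 ≤ K ∧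
      ∀ (d : ℝ) (Ω : Type) [Fintype Ω]
      (γ : Type) (P : Law Ω) (l : Ω → Ry) (t : Ω → ℝ) (C : Ω → γ) (L h q : ℕ) (W : Ω → Cbx), 1 ≤ h →
      NEx c lam N k β d P l t C L h q W →
      ∀ (Ω' : Type) [Fintype Ω'] (P' : Law Ω') (π : Ω' → Ω), (∀ ω, P'.pr π ω = P.w ω) →
      ∀ (δ : Type) (G : Ω' → δ) (a : ℕ) (e : δ → ℕ × ℕ) (A : Ω' → Cbx), a ≤ L →
      (∀ ω, 0 < P'.w ω → LbOk c' L a (A ω) (l (π ω)) (t (π ω)) ∧ (A ω).u2 = (1 / 2 : ℝ) ^ (e (G ω)).1 ∧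
        (A ω).u1 = (1 / 2 : ℝ) ^ (e (G ω)).2) →
      val lam P' (fun ω => l (π ω)) (fun ω => t (π ω)) (fun ω => (C (π ω), G ω)) a A ≤
        val lam P' (fun ω => l (π ω)) (fun ω => t (π ω)) (fun ω => (C (π ω), G ω)) h (fun ω => W (π ω)) -
        (β - d) * h * Real.log 2 + (β' + ε) * a * Real.log 2 -
        N * (Dd P' (fun ω => l (π ω)) (fun ω => t (π ω)) (fun ω => (C (π ω), G ω)) h -
          Dd P' (fun ω => l (π ω)) (fun ω => t (π ω)) (fun ω => (C (π ω), G ω)) a) +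
        k' * P'.ex (fun ω => (((e (G ω)).1 : ℝ) + |((e (G ω)).2 : ℝ) - q|) * Real.log 2) +
        Stk.hc P' G (fun ω => (W (π ω), fl1 h (t (π ω)), C (π ω))) +
        N * Stk.hc P' G (fun ω => (l (π ω), C (π ω))) + K := by
  obtain ⟨K0, -, hK0⟩ := H489.clsX c c' hc (by linarith)
  set K1 : ℝ := (1 + k + 0) * K0 with hK1d
  obtain ⟨K2, hK20, hK2⟩ := labR lam N k k' β β' h0 h1 hk hkk hN hF c' (hc.trans hcc) ε hε
  refine ⟨max (K1 + K2) 0, le_max_right _ _, ?_⟩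
  intro d Ω _ γ P l t C L h q W hh hne Ω' _ P' π g1 δ G a e A haL hA
  have hl2 : 0 < Real.log 2 := Real.log_pos (by norm_num)
  have hh' : (0 : ℝ) < h := by exact_mod_cast hh
  have hne' : NEx c' lam N k β (d + K1 / (h * Real.log 2)) P l t C L h q W := by
    refine ⟨hne.ok, hne.hL, fun ω hω => ⟨LbOk.cls hcc (hne.lb ω hω).1, (hne.lb ω hω).2⟩, ?_⟩
    have e1 := hK0 Ω γ P l t C (fun _ => (0, q)) L 0 lam k 0 h0 h1 hk le_rfl (Nat.zero_le L)
    rw [← hK1d] at e1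
    have e2 := hne.ex
    have e3 : (β - (d + K1 / (h * Real.log 2))) * h * Real.log 2 = (β - d) * h * Real.log 2 - K1 := by
      field_simp
      ring
    rw [e3]
    linarith
  have key := hK2 (d + K1 / (h * Real.log 2)) Ω γ P l t C L h q W hne' Ω' P' π g1 δ G a e A haL hA
  have e3 : (β - (d + K1 / (h * Real.log 2))) * h * Real.log 2 = (β - d) * h * Real.log 2 - K1 := by
    field_simp
    ring
  rw [e3] at key
  have := le_max_left (K1 + K2) 0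
  linarith

section

variable {Ω : Type} [Fintype Ω] {γ : Type}

/-- the value of a label of random shape -/
theorem val_rnd {lam : ℝ} {P : Law Ω} {l : Ω → Ry} {t : Ω → ℝ} {C : Ω → γ} {a : ℕ} {b R : Ω → ℕ} {W : Ω → Cbx}
    (h : ∀ ω, 0 < P.w ω → (W ω).u2 = (1 / 2 : ℝ) ^ b ω ∧ (W ω).u1 = (1 / 2 : ℝ) ^ R ω) :
    val lam P l t C a W = Stk.hc P l (fun ω => (W ω, fl1 a (t ω), C ω)) + 3 * a * Real.log 2 +
      P.ex (fun ω => ((3 + lam) * b ω + (1 - lam) * R ω) * Real.log 2) := by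
  unfold val
  have e : (P.ex fun ω => (3 + lam) * Real.log (W ω).u2 + (1 - lam) * Real.log (W ω).u1) =
      -P.ex fun ω => ((3 + lam) * b ω + (1 - lam) * R ω) * Real.log 2 := by
    rw [← P.ex_neg]
    refine P.ex_congr fun ω hω => ?_
    obtain ⟨h1, h2⟩ := h ω hω
    rw [h1, h2, Real.log_pow, Real.log_pow, one_div, Real.log_inv]
    ring
  rw [e]
  ring

end

/-- **GROW** with a random cap `b (G ω)` -/
theorem growR (lam N k k' β β' : ℝ) (h0 : 0 ≤ lam) (h1 : lam ≤ 1) (hk : 0 ≤ k) (hkk : k ≤ k') (hN : 0 ≤ N)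
    (hF : FIXA lam N k' β') (c : ℝ) (hc : 1 ≤ c) (ε : ℝ) (hε : 0 < ε) : ∃ K : ℝ, 0 ≤ K ∧ ∀ (d : ℝ) (Ω : Type) [Fintype Ω]
      (γ : Type) (P : Law Ω) (l : Ω → Ry) (t : Ω → ℝ) (C : Ω → γ) (L h q : ℕ) (W : Ω → Cbx), 1 ≤ h →
      NEx c lam N k β d P l t C L h q W →
      ∀ (Ω' : Type) [Fintype Ω'] (P' : Law Ω') (π : Ω' → Ω), (∀ ω, P'.pr π ω = P.w ω) →
      ∀ (δ : Type) (G : Ω' → δ) (b : δ → ℕ), (∀ z, b z ≤ q) →
      (3 + lam) * P'.ex (fun ω => (b (G ω) : ℝ)) * Real.log 2 ≤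
        Stk.hc P' (fun ω => plb (b (G ω)) h (l (π ω)) (t (π ω)))
          (fun ω => (W (π ω), fl1 h (t (π ω)), C (π ω), G ω)) +
        k' * P'.ex (fun ω => (b (G ω) : ℝ)) * Real.log 2 + (β' + ε - β + d) * h * Real.log 2 +
        Stk.hc P' G (fun ω => (W (π ω), fl1 h (t (π ω)), C (π ω))) +
        N * Stk.hc P' G (fun ω => (l (π ω), C (π ω))) + K := by
  classical
  have h16 : c ≤ 16 * c ^ 2 := by nlinarith
  obtain ⟨K, hK0, hK⟩ := labRC lam N k k' β β' h0 h1 hk hkk hN hF c (16 * c ^ 2) hc h16 ε hε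
  refine ⟨K, hK0, ?_⟩
  intro d Ω _ γ P l t C L h q W hh hne Ω' _ P' π g1 δ G b hb
  have hpos : ∀ ω, 0 < P'.w ω → 0 < P.w (π ω) := fun ω hω => by
    rw [← g1]
    exact P'.pr_pos π hω
  have hex : ∀ n : ℕ, n ≤ q → ∃ A : Ω' → Cbx, (∀ ω, 0 < P'.w ω → LbOk (16 * c ^ 2) L h (A ω) (l (π ω)) (t (π ω)) ∧
      (A ω).u2 = (1 / 2 : ℝ) ^ n ∧ (A ω).u1 = (1 / 2 : ℝ) ^ q) ∧
      ∀ ω ω', W (π ω) = W (π ω') → plb n h (l (π ω)) (t (π ω)) = plb n h (l (π ω')) (t (π ω')) → A ω = A ω' := fun n hn =>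
    exists_sub hc (fun ω => 0 < P'.w ω) (l := fun ω => l (π ω)) (t := fun ω => t (π ω))
      (L := L) (a := h) (b0 := 0) (b := n) (R := q) (W := fun ω => W (π ω)) (fun ω hω => by
        obtain ⟨w1, w2, w3⟩ := hne.lb (π ω) (hpos ω hω)
        exact ⟨w1, by rw [w2, pow_zero], w3⟩) (Nat.zero_le n) hn hne.hL
  choose A hA hfn using hex
  have key := hK d Ω γ P l t C L h q W hh hne Ω' P' π g1 δ G h (fun z => (b z, q)) (fun ω => A (b (G ω)) (hb _) ω)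
    (by have := hne.hL; omega) (fun ω hω => hA _ (hb _) ω hω)
  have v1 := val_rnd (lam := lam) (P := P') (l := fun ω => l (π ω)) (t := fun ω => t (π ω))
    (C := fun ω => (C (π ω), G ω)) (a := h) (b := fun ω => b (G ω)) (R := fun _ => q)
    (W := fun ω => A (b (G ω)) (hb _) ω) (fun ω hω => (hA _ (hb _) ω hω).2)
  have v2 := val_rnd (lam := lam) (P := P') (l := fun ω => l (π ω)) (t := fun ω => t (π ω))
    (C := fun ω => (C (π ω), G ω)) (a := h) (b := fun _ => 0) (R := fun _ => q) (W := fun ω => W (π ω)) (fun ω hω => by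
      obtain ⟨-, w2, w3⟩ := hne.lb (π ω) (hpos ω hω)
      exact ⟨by rw [w2, pow_zero], w3⟩)
  have x1 : P'.ex (fun ω => ((3 + lam) * (b (G ω) : ℝ) + (1 - lam) * (q : ℝ)) * Real.log 2) =
      (3 + lam) * P'.ex (fun ω => (b (G ω) : ℝ)) * Real.log 2 + (1 - lam) * q * Real.log 2 := by
    have e : (fun ω => ((3 + lam) * (b (G ω) : ℝ) + (1 - lam) * (q : ℝ)) * Real.log 2) =
        fun ω => ((3 + lam) * Real.log 2) * (b (G ω) : ℝ) + (1 - lam) * q * Real.log 2 := by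
      funext ω
      ring
    rw [e, P'.ex_add, P'.ex_const_mul, P'.ex_const]
    ring
  have x2 : P'.ex (fun _ => ((3 + lam) * ((0 : ℕ) : ℝ) + (1 - lam) * (q : ℝ)) * Real.log 2) =
      (1 - lam) * q * Real.log 2 := by
    rw [P'.ex_const]
    push_cast
    ring
  have x3 : P'.ex (fun ω => (((b (G ω) : ℕ) : ℝ) + |(q : ℝ) - q|) * Real.log 2) =
      P'.ex (fun ω => (b (G ω) : ℝ)) * Real.log 2 := by
    have e : (fun ω => (((b (G ω) : ℕ) : ℝ) + |(q : ℝ) - q|) * Real.log 2) = fun ω => Real.log 2 * (b (G ω) : ℝ) := by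
      funext ω
      rw [sub_self, abs_zero]
      ring
    rw [e, P'.ex_const_mul]
    ring
  rw [v1, v2] at key
  simp only [] at key
  rw [x1, x2, x3] at key
  have e1 := Stk.hc_le_add' P' (fun ω => l (π ω)) (fun ω => plb (b (G ω)) h (l (π ω)) (t (π ω)))
    (fun ω => (W (π ω), fl1 h (t (π ω)), C (π ω), G ω))
  have e2 := Stk.hc_mono_right P' (fun ω => l (π ω))
    (Y := fun ω => (A (b (G ω)) (hb _) ω, fl1 h (t (π ω)), C (π ω), G ω))
    (Y' := fun ω => (plb (b (G ω)) h (l (π ω)) (t (π ω)), (W (π ω), fl1 h (t (π ω)), C (π ω), G ω))) (fun ω ω' _ _ e => by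
      simp only [Prod.mk.injEq] at e ⊢
      obtain ⟨i1, i2, i3, i4, i5⟩ := e
      refine ⟨?_, i3, i4, i5⟩
      have hg : b (G ω) = b (G ω') := by rw [i5]
      rw [hg] at i1
      have := hfn (b (G ω')) (hb _) ω ω' i2 i1
      rw [← this]
      congr 1)
  nlinarith

end Vale.Agent.P106.U.GR543
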