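import Vale.Agent.P106.U.H543.Two5
import Vale.Agent.P106.U.Cov
import Vale.Agent.P127.Stk.BaseF

/-!
# P106 / U / H543 : the covering lemma for two slabs around light rays of `ℝ^{3+1}` (helper543)

`cov5` : the rays of `KK B ρ f g h0 h1` (both slabs known up to `B ρ`) meet at most `C ρ 2^(3 p)` natural planks `K.pl p`,
`2^-p ~ min (ρ / √Δ) √ρ`, `Δ = Del f g h0 h1` (square of the own slope of `g` with respect to `f`).
-/

set_option autoImplicit false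

namespace Vale.Agent.P106.U.Cov5

open Finset Vale.Agent.P106.K Vale.Agent.P127.Stk Vale.Agent.P127.Stk.Bs Vale.Agent.P127.U
open Vale.Agent.P106.U.Cov (qa_close)

/-- third coordinate of the plank -/
noncomputable def tz (p : ℕ) (l : Ry) : ℝ := l.z + ∑ k, l.y k * (l.s k - (fl p l.s k : ℝ) / 2 ^ p)

theorem pl_eq (p : ℕ) (l : Ry) : pl p l = (fl p l.s, fl p l.y, fl1 (2 * p) (tz p l)) := rfl

/-- counting of the planks, with a free index -/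
theorem cover5 {ι : Type} [DecidableEq ι] {K : Set Ry} {p N M : ℕ} (I : Finset ι) (i : Ry → ι)
    (hi : ∀ l ∈ K, i l ∈ I)
    (hx : ∀ l ∈ K, ∀ l' ∈ K, i l = i l' → (∀ k, |l.y k - l'.y k| ≤ N * (1 / 2 : ℝ) ^ p) ∧
      ∀ k, |l.s k - l'.s k| ≤ N * (1 / 2 : ℝ) ^ p)
    (hz : ∀ l ∈ K, ∀ l' ∈ K, i l = i l' → fl p l.s = fl p l'.s → fl p l.y = fl p l'.y →
      |tz p l - tz p l'| ≤ M * (1 / 2 : ℝ) ^ (2 * p)) :
    ∃ U : Finset ((Fin 2 → ℤ) × (Fin 2 → ℤ) × ℤ),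
      U.card ≤ I.card * (((2 * N + 3) ^ 2 * (2 * N + 3) ^ 2) * (2 * M + 3)) ∧ ∀ l ∈ K, pl p l ∈ U := by
  classical
  let r0 : Ry := ⟨0, 0, 0⟩
  have hb : ∀ j : ι, ∃ b : Ry, ∀ l ∈ K, i l = j → b ∈ K ∧ i b = j := by
    intro j
    by_cases h : ∃ l ∈ K, i l = j
    · obtain ⟨b, hb, hb'⟩ := h
      exact ⟨b, fun _ _ _ => ⟨hb, hb'⟩⟩
    · exact ⟨r0, fun r hr hr' => (h ⟨r, hr, hr'⟩).elim⟩
  choose b hb using hb
  have hd : ∀ j : ι, ∀ a : (Fin 2 → ℤ) × (Fin 2 → ℤ), ∃ d : Ry, ∀ l ∈ K, i l = j → fl p l.s = a.1 → fl p l.y = a.2 →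
      d ∈ K ∧ i d = j ∧ fl p d.s = a.1 ∧ fl p d.y = a.2 := by
    intro j a
    by_cases h : ∃ l ∈ K, i l = j ∧ fl p l.s = a.1 ∧ fl p l.y = a.2
    · obtain ⟨d, hd, hd'⟩ := h
      exact ⟨d, fun _ _ _ _ _ => ⟨hd, hd'⟩⟩
    · exact ⟨r0, fun r hr h1 h2 h3 => (h ⟨r, hr, h1, h2, h3⟩).elim⟩
  choose d hd using hd
  let V : ι → Finset ((Fin 2 → ℤ) × (Fin 2 → ℤ)) := fun j =>
    (Fintype.piFinset fun k => Icc (fl p (b j).s k - (N + 1)) (fl p (b j).s k + (N + 1))) ×ˢ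
      (Fintype.piFinset fun k => Icc (fl p (b j).y k - (N + 1)) (fl p (b j).y k + (N + 1)))
  let zz : Ry → ℤ := fun l => fl1 (2 * p) (tz p l)
  let W : ι → (Fin 2 → ℤ) × (Fin 2 → ℤ) → Finset ((Fin 2 → ℤ) × (Fin 2 → ℤ) × ℤ) := fun j a =>
    (Icc (zz (d j a) - (M + 1)) (zz (d j a) + (M + 1))).image fun c => (a.1, a.2, c)
  refine ⟨I.biUnion fun j => (V j).biUnion fun a => W j a, ?_, ?_⟩
  · have h1 : ∀ (c : ℤ) (k : ℕ), (Icc (c - (k + 1)) (c + (k + 1))).card = 2 * k + 3 := by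
      intro c k
      rw [Int.card_Icc]
      omega
    refine card_biUnion_le_card_mul _ _ _ fun j _ => ?_
    refine (card_biUnion_le_card_mul (V j) (fun a => W j a) (2 * M + 3) fun a _ => ?_).trans ?_
    · exact card_image_le.trans (h1 _ _).le
    · apply Nat.mul_le_mul_right
      rw [card_product, Fintype.card_piFinset, Fintype.card_piFinset]
      simp only [h1, prod_const, card_univ, Fintype.card_fin]
      exact le_rfl
  · intro l hl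
    rw [mem_biUnion]
    obtain ⟨hbK, hbi⟩ := hb (i l) l hl rfl
    obtain ⟨hdK, hdi, hd1, hd2⟩ := hd (i l) (fl p l.s, fl p l.y) l hl rfl rfl rfl
    refine ⟨i l, hi l hl, ?_⟩
    rw [mem_biUnion]
    refine ⟨(fl p l.s, fl p l.y), ?_, ?_⟩
    · obtain ⟨h1, h2⟩ := hx l hl _ hbK hbi.symm
      rw [mem_product, Fintype.mem_piFinset, Fintype.mem_piFinset]
      constructor
      · intro k
        have := abs_le.1 (fl_sub_le h2 k)
        rw [mem_Icc]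
        exact ⟨by simp only; linarith, by simp only; linarith⟩
      · intro k
        have := abs_le.1 (fl_sub_le h1 k)
        rw [mem_Icc]
        exact ⟨by simp only; linarith, by simp only; linarith⟩
    · have h1 := Cov.fl1_sub_le (hz l hl _ hdK hdi.symm hd1.symm hd2.symm)
      rw [abs_le] at h1
      refine mem_image.2 ⟨zz l, ?_, rfl⟩
      rw [mem_Icc]
      exact ⟨by simp only [zz]; linarith, by simp only [zz]; linarith⟩

/-- cells of a bounded interval -/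
theorem fl1_range' (p R : ℕ) {x : ℝ} (hx : |x| ≤ R) : fl1 p x ∈ Icc (-((R * 2 ^ p : ℕ) : ℤ)) ((R * 2 ^ p : ℕ) : ℤ) := by
  obtain ⟨h1, h2⟩ := abs_le.1 hx
  have h3 : (0 : ℝ) < 2 ^ p := by positivity
  unfold fl1
  rw [mem_Icc]
  constructor
  · rw [Int.le_floor]
    push_cast
    nlinarith
  · have h4 := Int.floor_le ((2:ℝ) ^ p * x)
    have h5 : ((⌊(2:ℝ) ^ p * x⌋ : ℤ) : ℝ) ≤ (((R * 2 ^ p : ℕ) : ℤ) : ℝ) := by
      push_cast
      nlinarith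
    exact_mod_cast h5

section

variable {A c0 B ρ : ℝ} {f g : Fu} {h0 h1 h m : ℝ} {l l' : Ry}

theorem Dp.hh (H : Dp A c0 B ρ f g h0 h1 h m) : h ^ 2 ≤ A ^ 2 * ρ := by
  have h1 := H.ρm
  have h2 := H.m_pos
  have h3 : (h * m) ^ 2 ≤ (A * ρ) ^ 2 := pow_le_pow_left₀ (mul_nonneg H.h0p.le H.m0) H.up 2
  have h5 : h ^ 2 * ρ ≤ A ^ 2 * ρ * ρ := by
    calc h ^ 2 * ρ ≤ h ^ 2 * m ^ 2 := by gcongr
      _ = (h * m) ^ 2 := by ring
      _ ≤ (A * ρ) ^ 2 := h3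
      _ = _ := by ring
  exact le_of_mul_le_mul_right h5 H.ρ0

/-- the coarse covector -/
noncomputable def cn0 (f : Fu) (k : ℕ) (l : Ry) : ℝ := f.n0 + f.κ * qa k (l.s 0) - 2 * f.α * qa k (l.y 0)

/-- the coarse covector -/
noncomputable def cn1 (f : Fu) (k : ℕ) (l : Ry) : ℝ := f.n1 + f.κ * qa k (l.s 1) - 2 * f.α * qa k (l.y 1)

theorem qa_eq {k : ℕ} {v w : Fin 2 → ℝ} (h : fl k v = fl k w) (i : Fin 2) : qa k (v i) = qa k (w i) := by
  have : fl1 k (v i) = fl1 k (w i) := congrFun h i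
  unfold qa
  rw [this]

theorem Dp.cn_near (H : Dp A c0 B ρ f g h0 h1 h m) {k : ℕ} (hk : (1 / 2 : ℝ) ^ k ≤ et A c0 B) (l : Ry) :
    |f.N0 l - cn0 f k l| ≤ 3 * B * et A c0 B ∧ |f.N1 l - cn1 f k l| ≤ 3 * B * et A c0 B := by
  have hB := H.B1
  have q1 := (qa_close k (l.s 0)).trans hk
  have q2 := (qa_close k (l.y 0)).trans hk
  have q3 := (qa_close k (l.s 1)).trans hk
  have q4 := (qa_close k (l.y 1)).trans hk
  have p1 := prod_le H.fκ q1 (by linarith)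
  have p2 := prod_le H.fα q2 (by linarith)
  have p3 := prod_le H.fκ q3 (by linarith)
  have p4 := prod_le H.fα q4 (by linarith)
  constructor
  · have e : f.N0 l - cn0 f k l = f.κ * (l.s 0 - qa k (l.s 0)) - 2 * (f.α * (l.y 0 - qa k (l.y 0))) := by
      unfold Fu.N0 cn0
      ring
    rw [e]
    rw [abs_le] at p1 p2 ⊢
    constructor <;> linarith
  · have e : f.N1 l - cn1 f k l = f.κ * (l.s 1 - qa k (l.s 1)) - 2 * (f.α * (l.y 1 - qa k (l.y 1))) := by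
      unfold Fu.N1 cn1
      ring
    rw [e]
    rw [abs_le] at p3 p4 ⊢
    constructor <;> linarith

theorem near_of {k : ℕ} {η : ℝ} (hk : (1 / 2 : ℝ) ^ k ≤ η) (hy : fl k l.y = fl k l'.y) (hs : fl k l.s = fl k l'.s) :
    Near η l l' :=
  ⟨(fl_close hy 0).trans hk, (fl_close hy 1).trans hk, (fl_close hs 0).trans hk, (fl_close hs 1).trans hk⟩

/-- size of the coarse covector -/
theorem Dp.cn_le (H : Dp A c0 B ρ f g h0 h1 h m) {k : ℕ} (hl : l ∈ KK B ρ f g h0 h1)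
    (hk : (1 / 2 : ℝ) ^ k ≤ et A c0 B) : |cn0 f k l| ≤ 5 * B ∧ |cn1 f k l| ≤ 5 * B := by
  have hB := H.B1
  have he := H.et_le
  obtain ⟨a, b⟩ := H.cn_near hk l
  have c := H.N0_le hl
  have d := H.N1_le hl
  have e : 3 * B * et A c0 B ≤ 3 * B := by
    have : 0 ≤ 3 * B := by positivity
    nlinarith
  constructor
  · rw [abs_le] at a c ⊢
    constructor <;> linarith
  · rw [abs_le] at b d ⊢
    constructor <;> linarith

/-- the real index -/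
noncomputable def vi (f : Fu) (k : ℕ) (c : Fin 3) (l : Ry) : ℝ :=
  match c with
  | 0 => cn0 f k l * l.y 1 - cn1 f k l * l.y 0
  | 1 => cn0 f k l * l.s 1 - cn1 f k l * l.s 0
  | 2 => l.z + (l.y 0 * (l.s 0 - qa k (l.s 0)) + l.y 1 * (l.s 1 - qa k (l.s 1)))

theorem Dp.vi_le (H : Dp A c0 B ρ f g h0 h1 h m) {k : ℕ} (hl : l ∈ KK B ρ f g h0 h1)
    (hk : (1 / 2 : ℝ) ^ k ≤ et A c0 B) (c : Fin 3) : |vi f k c l| ≤ 10 * B ^ 2 := by
  have hB := H.B1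
  obtain ⟨a0, a1⟩ := H.cn_le hl hk
  obtain ⟨y, s, z, -⟩ := hl
  have B2 : B ≤ B ^ 2 := by nlinarith
  fin_cases c
  · have p := prod_le a0 (y 1) (by positivity)
    have q := prod_le a1 (y 0) (by positivity)
    have t := abs_sub (cn0 f k l * l.y 1) (cn1 f k l * l.y 0)
    show |cn0 f k l * l.y 1 - cn1 f k l * l.y 0| ≤ _
    have e : 5 * B * B = 5 * B ^ 2 := by ring
    linarith
  · have p := prod_le a0 (s 1) (by positivity)
    have q := prod_le a1 (s 0) (by positivity)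
    have t := abs_sub (cn0 f k l * l.s 1) (cn1 f k l * l.s 0)
    show |cn0 f k l * l.s 1 - cn1 f k l * l.s 0| ≤ _
    have e : 5 * B * B = 5 * B ^ 2 := by ring
    linarith
  · have he : (1 / 2 : ℝ) ^ k ≤ 1 := pow_le_one₀ (by norm_num) (by norm_num)
    have p := prod_le (y 0) ((qa_close k (l.s 0)).trans he) (by positivity)
    have q := prod_le (y 1) ((qa_close k (l.s 1)).trans he) (by positivity)
    show |l.z + (l.y 0 * (l.s 0 - qa k (l.s 0)) + l.y 1 * (l.s 1 - qa k (l.s 1)))| ≤ _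
    rw [abs_le] at p q z ⊢
    constructor <;> linarith

/-- the cases of the covering -/
def Ca (c0 : ℝ) (f g : Fu) (h0 h1 m : ℝ) (c : Fin 3) : Prop :=
  match c with
  | 0 => c0 ≤ |g.κ - tau f g h0 h1 * f.κ|
  | 1 => c0 ≤ |g.α - tau f g h0 h1 * f.α|
  | 2 => c0 ≤ m

theorem Dp.cs (H : Dp A c0 B ρ f g h0 h1 h m) {k : ℕ} (hl' : l' ∈ KK B ρ f g h0 h1)
    (hk : (1 / 2 : ℝ) ^ k ≤ et A c0 B) (hy : fl k l.y = fl k l'.y) (hs : fl k l.s = fl k l'.s) (c : Fin 3)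
    (hc : Ca c0 f g h0 h1 m c) (hi : |vi f k c l - vi f k c l'| ≤ h) :
    Lin.Cs (KC A c0 B) (qA f l l') (qB f l l') (rl l l').ζ (kh f g l') (ah f g l') (ow f g l') h
      (et A c0 B * qs f l l') := by
  have hn := near_of hk hy hs
  obtain ⟨e0, e1⟩ := H.cn_near hk l'
  have c0e : cn0 f k l = cn0 f k l' := by
    unfold cn0
    rw [qa_eq hs, qa_eq hy]
  have c1e : cn1 f k l = cn1 f k l' := by
    unfold cn1
    rw [qa_eq hs, qa_eq hy]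
  fin_cases c
  · refine H.cs1 hl' hn hc e0 e1 ?_
    have e : cn0 f k l' * (rl l l').Y1 - cn1 f k l' * (rl l l').Y0 = vi f k 0 l - vi f k 0 l' := by
      show _ = (cn0 f k l * l.y 1 - cn1 f k l * l.y 0) - (cn0 f k l' * l'.y 1 - cn1 f k l' * l'.y 0)
      rw [c0e, c1e]
      unfold rl
      ring
    rw [e]
    exact hi
  · refine H.cs2 hl' hn hc e0 e1 ?_
    have e : cn0 f k l' * (rl l l').S1 - cn1 f k l' * (rl l l').S0 = vi f k 1 l - vi f k 1 l' := by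
      show _ = (cn0 f k l * l.s 1 - cn1 f k l * l.s 0) - (cn0 f k l' * l'.s 1 - cn1 f k l' * l'.s 0)
      rw [c0e, c1e]
      unfold rl
      ring
    rw [e]
    exact hi
  · refine H.cs3 hl' hc (w0 := qa k (l'.s 0)) (w1 := qa k (l'.s 1)) ((qa_close k (l'.s 0)).trans hk)
      ((qa_close k (l'.s 1)).trans hk) ?_
    have e : (rl l l').ζ + ((rl l l').Y0 * (l'.s 0 - qa k (l'.s 0)) + (rl l l').Y1 * (l'.s 1 - qa k (l'.s 1))) =
        vi f k 2 l - vi f k 2 l' := by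
      show _ = (l.z + (l.y 0 * (l.s 0 - qa k (l.s 0)) + l.y 1 * (l.s 1 - qa k (l.s 1)))) -
        (l'.z + (l'.y 0 * (l'.s 0 - qa k (l'.s 0)) + l'.y 1 * (l'.s 1 - qa k (l'.s 1))))
      rw [qa_eq hs 0, qa_eq hs 1]
      unfold rl
      ring
    rw [e]
    exact hi

/-- the third coordinate of the plank of two close rays -/
theorem Dp.tz_close (H : Dp A c0 B ρ f g h0 h1 h m) {p : ℕ} (hp : h = (1 / 2 : ℝ) ^ p) (hs : fl p l.s = fl p l'.s)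
    (hY : |(rl l l').Y0| ≤ 200 * KC A c0 B ^ 9 * h ∧ |(rl l l').Y1| ≤ 200 * KC A c0 B ^ 9 * h)
    (hζ : |(rl l l').ζ| ≤ 5000 * KC A c0 B ^ 22 * ρ) : |tz p l - tz p l'| ≤ 6000 * KC A c0 B ^ 22 * ρ := by
  have hρ := H.ρ0
  have hK := H.KC_pos
  have hK1 : 1 ≤ KC A c0 B := by
    have := H.KC_B 0 (by norm_num)
    rw [pow_zero] at this
    linarith
  have hqa : ∀ i, qa p (l'.s i) = (fl p l'.s i : ℝ) / 2 ^ p := fun i => rfl
  have e : tz p l - tz p l' = (rl l l').ζ + ((rl l l').Y0 * (l'.s 0 - qa p (l'.s 0)) +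
      (rl l l').Y1 * (l'.s 1 - qa p (l'.s 1))) := by
    unfold tz
    rw [Fin.sum_univ_two, Fin.sum_univ_two, hs, hqa, hqa]
    unfold rl
    ring
  have q0 := qa_close p (l'.s 0)
  have q1 := qa_close p (l'.s 1)
  rw [← hp] at q0 q1
  have P0 : 0 ≤ 200 * KC A c0 B ^ 9 * h := by have := H.h0p; positivity
  have p0 := prod_le hY.1 q0 P0
  have p1 := prod_le hY.2 q1 P0
  have hh := H.hh
  have hA : A ^ 2 ≤ KC A c0 B ^ 2 := by
    apply pow_le_pow_left₀ (by linarith [H.A1])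
    have k6 := H.KC_ge
    have b6 : (1 : ℝ) ≤ B ^ 6 := one_le_pow₀ H.B1
    have hA := H.A1
    nlinarith
  have h2 : h ^ 2 ≤ KC A c0 B ^ 2 * ρ := hh.trans (mul_le_mul_of_nonneg_right hA hρ.le)
  have h3 : 200 * KC A c0 B ^ 9 * h * h ≤ 200 * (KC A c0 B ^ 22 * ρ) := by
    calc 200 * KC A c0 B ^ 9 * h * h = 200 * KC A c0 B ^ 9 * h ^ 2 := by ring
      _ ≤ 200 * KC A c0 B ^ 9 * (KC A c0 B ^ 2 * ρ) := mul_le_mul_of_nonneg_left h2 (by positivity)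
      _ = 200 * (KC A c0 B ^ 11 * ρ) := by ring
      _ ≤ _ := by
        have : KC A c0 B ^ 11 * ρ ≤ KC A c0 B ^ 22 * ρ :=
          mul_le_mul_of_nonneg_right (pow_le_pow_right₀ hK1 (by norm_num)) hρ.le
        linarith
  have h4 : 0 ≤ KC A c0 B ^ 22 * ρ := by positivity
  rw [e]
  rw [abs_le] at p0 p1 hζ ⊢
  constructor <;> linarith

end

/-- **the covering lemma for two slabs** -/
theorem cov5 (A B c0 : ℝ) : ∃ C : ℝ, 0 < C ∧ ∀ (f g : Fu) (h0 h1 ρ m : ℝ) (p : ℕ),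
    Dp A c0 B ρ f g h0 h1 ((1 / 2 : ℝ) ^ p) m →
    (c0 ≤ m ∨ c0 ≤ |g.κ - tau f g h0 h1 * f.κ| ∨ c0 ≤ |g.α - tau f g h0 h1 * f.α|) →
    ∃ U : Finset ((Fin 2 → ℤ) × (Fin 2 → ℤ) × ℤ), (U.card : ℝ) ≤ C * ρ * 2 ^ (3 * p) ∧
      ∀ l ∈ KK B ρ f g h0 h1, pl p l ∈ U := by
  classical
  by_cases hP : 1 ≤ A ∧ 1 ≤ B ∧ 0 < c0 ∧ c0 ≤ 1
  swap
  · exact ⟨1, one_pos, fun f g h0 h1 ρ m p H _ => absurd ⟨H.A1, H.B1, H.c0p, H.c01⟩ hP⟩
  obtain ⟨hA1, hB1, hc0, hc1⟩ := hP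
  have hKC : 0 < KC A c0 B := by unfold KC; positivity
  have het : 0 < et A c0 B := by unfold et; positivity
  obtain ⟨k, hk⟩ := exists_pow_lt_of_lt_one het (by norm_num : (1 / 2 : ℝ) < 1)
  set Bn : ℕ := ⌈B⌉₊ with hBn
  set R : ℕ := ⌈10 * B ^ 2⌉₊ with hR
  set N : ℕ := ⌈200 * KC A c0 B ^ 9⌉₊ with hN
  set Cz : ℝ := 6000 * KC A c0 B ^ 22 with hCz
  have hCz0 : 0 < Cz := by positivity
  set Kc : ℕ := (2 * (2 ^ k * Bn + 1) + 1) ^ 2 * ((2 * (2 ^ k * Bn + 1) + 1) ^ 2 * 2) with hKc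
  refine ⟨Kc * (2 * R + 1) * ((2 * N + 3) ^ 2 * (2 * N + 3) ^ 2) * (2 * Cz + 5 * A ^ 2), by positivity, ?_⟩
  intro f g h0 h1 ρ m p H hc
  obtain ⟨c, hc⟩ : ∃ c : Fin 3, Ca c0 f g h0 h1 m c := by
    rcases hc with hc | hc | hc
    · exact ⟨2, hc⟩
    · exact ⟨0, hc⟩
    · exact ⟨1, hc⟩
  have hρ := H.ρ0
  set M : ℕ := ⌈Cz * ρ * 2 ^ (2 * p)⌉₊ with hM
  have e1 : (1 / 2 : ℝ) ^ (2 * p) = 1 / 2 ^ (2 * p) := by rw [div_pow, one_pow]
  have hM' : Cz * ρ ≤ M * (1 / 2 : ℝ) ^ (2 * p) := by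
    rw [e1, mul_one_div, le_div_iff₀ (by positivity)]
    exact Nat.le_ceil _
  have hN' : 200 * KC A c0 B ^ 9 ≤ N := Nat.le_ceil _
  have hpp : (0 : ℝ) < (1 / 2 : ℝ) ^ p := by positivity
  -- the index
  set I : Finset ((Fin 2 → ℤ) × (Fin 2 → ℤ) × Bool × ℤ) :=
    (Fintype.piFinset fun _ : Fin 2 => Icc (-((2 ^ k * Bn + 1 : ℕ) : ℤ)) ((2 ^ k * Bn + 1 : ℕ) : ℤ)) ×ˢ
      ((Fintype.piFinset fun _ : Fin 2 => Icc (-((2 ^ k * Bn + 1 : ℕ) : ℤ)) ((2 ^ k * Bn + 1 : ℕ) : ℤ)) ×ˢ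
        ((univ : Finset Bool) ×ˢ Icc (-((R * 2 ^ p : ℕ) : ℤ)) ((R * 2 ^ p : ℕ) : ℤ))) with hI
  let i : Ry → (Fin 2 → ℤ) × (Fin 2 → ℤ) × Bool × ℤ := fun l =>
    (fl k l.y, fl k l.s, decide (0 ≤ ow f g l), fl1 p (vi f k c l))
  have hcl : ∀ l ∈ KK B ρ f g h0 h1, ∀ l' ∈ KK B ρ f g h0 h1, i l = i l' →
      (|(rl l l').Y0| ≤ 200 * KC A c0 B ^ 9 * (1 / 2 : ℝ) ^ p ∧ |(rl l l').Y1| ≤ 200 * KC A c0 B ^ 9 * (1 / 2 : ℝ) ^ p ∧
        |(rl l l').S0| ≤ 200 * KC A c0 B ^ 9 * (1 / 2 : ℝ) ^ p ∧ |(rl l l').S1| ≤ 200 * KC A c0 B ^ 9 * (1 / 2 : ℝ) ^ p) ∧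
      |(rl l l').ζ| ≤ 5000 * KC A c0 B ^ 22 * ρ := by
    intro l hl l' hl' e
    simp only [i, Prod.mk.injEq] at e
    obtain ⟨ey, es, ed, ev⟩ := e
    have ed' : (0 ≤ ow f g l) = (0 ≤ ow f g l') := propext (decide_eq_decide.1 ed)
    exact H.close hl hl' ed' (near_of hk.le ey es) (H.cs hl' hk.le ey es c hc (Cov.fl1_close ev))
  obtain ⟨U, hU, hU'⟩ := cover5 (K := KK B ρ f g h0 h1) (p := p) (N := N) (M := M) I i
    (fun l hl => by
      obtain ⟨y, s, -⟩ := id hl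
      rw [hI, mem_product, mem_product, mem_product]
      refine ⟨fl_box fun j => (y j).trans (Nat.le_ceil _), fl_box fun j => (s j).trans (Nat.le_ceil _), mem_univ _, ?_⟩
      exact fl1_range' p R ((H.vi_le hl hk.le c).trans (Nat.le_ceil _)))
    (fun l hl l' hl' e => by
      obtain ⟨⟨a, b, a', b'⟩, -⟩ := hcl l hl l' hl' e
      have hN2 : 200 * KC A c0 B ^ 9 * (1 / 2 : ℝ) ^ p ≤ N * (1 / 2 : ℝ) ^ p := mul_le_mul_of_nonneg_right hN' hpp.le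
      constructor
      · intro j
        fin_cases j
        · exact a.trans hN2
        · exact b.trans hN2
      · intro j
        fin_cases j
        · exact a'.trans hN2
        · exact b'.trans hN2)
    (fun l hl l' hl' e es _ => by
      obtain ⟨⟨a, b, -⟩, z⟩ := hcl l hl l' hl' e
      exact (H.tz_close rfl es ⟨a, b⟩ z).trans hM')
  refine ⟨U, ?_, hU'⟩
  have hIc : (I.card : ℝ) ≤ Kc * (2 * R + 1) * 2 ^ p := by
    have h2 : ∀ n : ℕ, (Icc (-(n : ℤ)) (n : ℤ)).card = 2 * n + 1 := by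
      intro n
      rw [Int.card_Icc]
      omega
    have h3 : I.card = (2 * (2 ^ k * Bn + 1) + 1) ^ 2 * ((2 * (2 ^ k * Bn + 1) + 1) ^ 2 * (2 * (2 * (R * 2 ^ p) + 1))) := by
      rw [hI, card_product, card_product, card_product, Fintype.card_piFinset]
      simp only [h2, prod_const, card_univ, Fintype.card_fin, Fintype.card_bool]
    have h4 : I.card ≤ Kc * ((2 * R + 1) * 2 ^ p) := by
      rw [h3, hKc]
      have h5 : 2 * (R * 2 ^ p) + 1 ≤ (2 * R + 1) * 2 ^ p := by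
        have : 1 ≤ 2 ^ p := Nat.one_le_two_pow
        nlinarith
      calc _ ≤ (2 * (2 ^ k * Bn + 1) + 1) ^ 2 * ((2 * (2 ^ k * Bn + 1) + 1) ^ 2 * (2 * ((2 * R + 1) * 2 ^ p))) := by
            gcongr
        _ = _ := by ring
    have h5 : (I.card : ℝ) ≤ ((Kc * ((2 * R + 1) * 2 ^ p) : ℕ) : ℝ) := by exact_mod_cast h4
    refine h5.trans (le_of_eq ?_)
    push_cast
    ring
  have h2 : (2 * (M : ℝ) + 3) ≤ (2 * Cz + 5 * A ^ 2) * ρ * 2 ^ (2 * p) := by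
    have h3 : (M : ℝ) < Cz * ρ * 2 ^ (2 * p) + 1 := Nat.ceil_lt_add_one (by positivity)
    have h4 : (1 : ℝ) ≤ A ^ 2 * ρ * 2 ^ (2 * p) := by
      have h5 := H.hh
      rw [← pow_mul, mul_comm p 2, e1, div_le_iff₀ (by positivity)] at h5
      linarith
    nlinarith
  have h3 : (U.card : ℝ) ≤ (I.card : ℝ) * (((2 * N + 3) ^ 2 * (2 * N + 3) ^ 2) * (2 * M + 3)) := by exact_mod_cast hU
  calc (U.card : ℝ) ≤ _ := h3
    _ ≤ (Kc * (2 * R + 1) * 2 ^ p) * (((2 * N + 3) ^ 2 * (2 * N + 3) ^ 2) * ((2 * Cz + 5 * A ^ 2) * ρ * 2 ^ (2 * p))) := by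
      gcongr
    _ = _ := by
      rw [show 3 * p = p + 2 * p by ring, pow_add]
      ring

end Vale.Agent.P106.U.Cov5
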