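import Vale.Agent.P106.U.H543.Id5

/-!
# P106 / U / H543 : absorption lemma for the covering of two slabs (helper543)

`a, c` : position difference across / along the covector, `b, d` : slope difference, `ζ` : adapted coordinate.
-/

set_option autoImplicit false

namespace Vale.Agent.P106.U.Cov5

/-- the linear inequalities -/
structure Lin (K a b c d ζ k al w h m ρ x : ℝ) : Prop where
  hK : 1 ≤ K
  hm : 0 < m
  hρ : 0 ≤ ρ
  hh : 0 ≤ h
  hx : 0 ≤ x
  hmK : m ≤ K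
  hk : |k| ≤ K
  hal : |al| ≤ K
  hw : |w| ≤ K * m
  F0 : |c| ≤ K * (|ζ| + x + ρ)
  F1 : |d| ≤ K * (|ζ| + x + ρ)
  G0 : |w * a + k * ζ| ≤ K * (x + ρ)
  G1 : |w * b + 2 * al * ζ| ≤ K * (x + ρ)
  O : |k * b - 2 * al * a| ≤ K * (h + |c| + |d| + x)

namespace Lin

variable {K a b c d ζ k al w h m ρ x : ℝ}

theorem D0 (H : Lin K a b c d ζ k al w h m ρ x) : 0 ≤ h + x + ρ := by
  have := H.hh
  have := H.hx
  have := H.hρ
  positivity

theorem K0 (H : Lin K a b c d ζ k al w h m ρ x) : 0 < K := by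
  have := H.hK
  linarith

theorem w2 (H : Lin K a b c d ζ k al w h m ρ x) : |w| ≤ K ^ 2 := by
  have := H.hw
  have := H.hmK
  have := H.K0
  nlinarith

theorem P (H : Lin K a b c d ζ k al w h m ρ x) (i j : ℕ) (hij : i ≤ j) :
    K ^ i * (h + x + ρ) ≤ K ^ j * (h + x + ρ) :=
  mul_le_mul_of_nonneg_right (pow_le_pow_right₀ H.hK hij) H.D0

theorem xK (H : Lin K a b c d ζ k al w h m ρ x) : K * (x + ρ) ≤ K * (h + x + ρ) :=
  mul_le_mul_of_nonneg_left (by have := H.hh; linarith) H.K0.le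

theorem hxK (H : Lin K a b c d ζ k al w h m ρ x) : K * (h + x) ≤ K * (h + x + ρ) :=
  mul_le_mul_of_nonneg_left (by have := H.hρ; linarith) H.K0.le

theorem T1 (H : Lin K a b c d ζ k al w h m ρ x) : |w| * |a| ≤ |k| * |ζ| + K * (h + x + ρ) := by
  have h1 : |w * a| ≤ |w * a + k * ζ| + |k * ζ| := by
    have := abs_sub (w * a + k * ζ) (k * ζ)
    rwa [add_sub_cancel_right] at this
  rw [abs_mul, abs_mul] at h1
  have := H.G0
  have := H.xK
  linarith

theorem T2 (H : Lin K a b c d ζ k al w h m ρ x) : |k| * |ζ| ≤ |w| * |a| + K * (h + x + ρ) := by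
  have h1 : |k * ζ| ≤ |w * a + k * ζ| + |w * a| := by
    have := abs_sub (w * a + k * ζ) (w * a)
    rwa [add_sub_cancel_left] at this
  rw [abs_mul, abs_mul] at h1
  have := H.G0
  have := H.xK
  linarith

theorem T3 (H : Lin K a b c d ζ k al w h m ρ x) : |w| * |b| ≤ 2 * (|al| * |ζ|) + K * (h + x + ρ) := by
  have h1 : |w * b| ≤ |w * b + 2 * al * ζ| + |2 * al * ζ| := by
    have := abs_sub (w * b + 2 * al * ζ) (2 * al * ζ)
    rwa [add_sub_cancel_right] at this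
  rw [abs_mul, abs_mul, abs_mul, abs_two] at h1
  have := H.G1
  have := H.xK
  linarith

theorem T4 (H : Lin K a b c d ζ k al w h m ρ x) : 2 * (|al| * |ζ|) ≤ |w| * |b| + K * (h + x + ρ) := by
  have h1 : |2 * al * ζ| ≤ |w * b + 2 * al * ζ| + |w * b| := by
    have := abs_sub (w * b + 2 * al * ζ) (w * b)
    rwa [add_sub_cancel_left] at this
  rw [abs_mul, abs_mul, abs_mul, abs_two] at h1
  have := H.G1
  have := H.xK
  linarith

theorem O' (H : Lin K a b c d ζ k al w h m ρ x) : K * (h + |c| + |d| + x) ≤ K * (h + x + ρ + |c| + |d|) :=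
  mul_le_mul_of_nonneg_left (by have := H.hρ; linarith) H.K0.le

theorem T5 (H : Lin K a b c d ζ k al w h m ρ x) :
    |k| * |b| ≤ 2 * (|al| * |a|) + K * (h + x + ρ + |c| + |d|) := by
  have h1 : |k * b| ≤ |k * b - 2 * al * a| + |2 * al * a| := by
    have := abs_add_le (k * b - 2 * al * a) (2 * al * a)
    rwa [sub_add_cancel] at this
  rw [abs_mul, abs_mul, abs_mul, abs_two] at h1
  have := H.O
  have := H.O'
  linarith

theorem T6 (H : Lin K a b c d ζ k al w h m ρ x) :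
    2 * (|al| * |a|) ≤ |k| * |b| + K * (h + x + ρ + |c| + |d|) := by
  have h1 : |2 * al * a| ≤ |k * b - 2 * al * a| + |k * b| := by
    have := abs_sub (k * b) (k * b - 2 * al * a)
    rw [sub_sub_cancel] at this
    linarith
  rw [abs_mul, abs_mul, abs_mul, abs_two] at h1
  have := H.O
  have := H.O'
  linarith

theorem cd (H : Lin K a b c d ζ k al w h m ρ x) (z : ℝ) (hz : |ζ| ≤ z) :
    |c| ≤ K * (z + (h + x + ρ)) ∧ |d| ≤ K * (z + (h + x + ρ)) := by
  have : K * (|ζ| + x + ρ) ≤ K * (z + (h + x + ρ)) :=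
    mul_le_mul_of_nonneg_left (by have := H.hh; linarith) H.K0.le
  exact ⟨H.F0.trans this, H.F1.trans this⟩

/-- `κ` dominates -/
theorem case1 (H : Lin K a b c d ζ k al w h m ρ x) (c1 : 1 ≤ K * |k|) (c2 : |a| ≤ K * (h + x)) :
    |a| + |b| + |c| + |d| ≤ 16 * K ^ 7 * (h + x + ρ) := by
  have hD0 := H.D0
  have hK0 := H.K0
  have P := H.P
  have T2 := H.T2
  have T5 := H.T5
  have a1 : |a| ≤ K * (h + x + ρ) := c2.trans H.hxK
  have w2 := H.w2
  have hal := H.hal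
  have cd := H.cd
  set D := h + x + ρ with hD
  have hb := abs_nonneg b
  have ha := abs_nonneg a
  have hζ := abs_nonneg ζ
  have a2 : |w| * |a| ≤ K ^ 3 * D := by
    calc |w| * |a| ≤ K ^ 2 * (K * D) := mul_le_mul w2 a1 ha (by positivity)
      _ = _ := by ring
  have a3 : |ζ| ≤ 2 * (K ^ 4 * D) := by
    have h1 : |ζ| ≤ K * |k| * |ζ| := le_mul_of_one_le_left hζ c1
    have h2 : K * (|k| * |ζ|) ≤ K * (K ^ 3 * D + K * D) := mul_le_mul_of_nonneg_left (by linarith) hK0.le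
    have h3 := P 2 4 (by norm_num)
    have h4 : K * (K ^ 3 * D + K * D) = K ^ 4 * D + K ^ 2 * D := by ring
    have h5 : K * (|k| * |ζ|) = K * |k| * |ζ| := by ring
    linarith
  obtain ⟨a4, a5⟩ := cd _ a3
  have p5 : K * (2 * (K ^ 4 * D) + D) ≤ 3 * (K ^ 5 * D) := by
    have h3 := P 1 5 (by norm_num)
    have h4 : K * (2 * (K ^ 4 * D) + D) = 2 * (K ^ 5 * D) + K ^ 1 * D := by ring
    linarith
  have a6 : |b| ≤ 9 * (K ^ 7 * D) := by
    have h1 : |b| ≤ K * |k| * |b| := le_mul_of_one_le_left hb c1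
    have h2 : 2 * (|al| * |a|) ≤ 2 * (K * (K * D)) := by
      have := mul_le_mul hal a1 ha hK0.le
      linarith
    have h8 : K * (D + |c| + |d|) ≤ K * (D + 6 * (K ^ 5 * D)) := mul_le_mul_of_nonneg_left (by linarith) hK0.le
    have h3 : K * (|k| * |b|) ≤ K * (2 * (K * (K * D)) + K * (D + 6 * (K ^ 5 * D))) :=
      mul_le_mul_of_nonneg_left (by linarith) hK0.le
    have h4 := P 3 7 (by norm_num)
    have h5 := P 2 7 (by norm_num)
    have h6 : K * (2 * (K * (K * D)) + K * (D + 6 * (K ^ 5 * D))) = 2 * (K ^ 3 * D) + K ^ 2 * D + 6 * (K ^ 7 * D) := by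
      ring
    have h7 : K * (|k| * |b|) = K * |k| * |b| := by ring
    linarith
  have h1 := P 1 7 (by norm_num)
  have h2 := P 5 7 (by norm_num)
  have h3 : K ^ 1 * D = K * D := by ring
  have h4 : 16 * K ^ 7 * D = 16 * (K ^ 7 * D) := by ring
  linarith

/-- `α` dominates -/
theorem case2 (H : Lin K a b c d ζ k al w h m ρ x) (c1 : 1 ≤ K * |al|) (c2 : |b| ≤ K * (h + x)) :
    |a| + |b| + |c| + |d| ≤ 16 * K ^ 7 * (h + x + ρ) := by
  have hD0 := H.D0
  have hK0 := H.K0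
  have P := H.P
  have T4 := H.T4
  have T6 := H.T6
  have a1 : |b| ≤ K * (h + x + ρ) := c2.trans H.hxK
  have w2 := H.w2
  have hk := H.hk
  have cd := H.cd
  set D := h + x + ρ with hD
  have hb := abs_nonneg b
  have ha := abs_nonneg a
  have hζ := abs_nonneg ζ
  have a2 : |w| * |b| ≤ K ^ 3 * D := by
    calc |w| * |b| ≤ K ^ 2 * (K * D) := mul_le_mul w2 a1 hb (by positivity)
      _ = _ := by ring
  have a3 : |ζ| ≤ 2 * (K ^ 4 * D) := by
    have h1 : |ζ| ≤ K * |al| * |ζ| := le_mul_of_one_le_left hζ c1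
    have h2 : K * (2 * (|al| * |ζ|)) ≤ K * (K ^ 3 * D + K * D) := mul_le_mul_of_nonneg_left (by linarith) hK0.le
    have h3 := P 2 4 (by norm_num)
    have h4 : 0 ≤ K * |al| * |ζ| := by positivity
    have h5 : K * (K ^ 3 * D + K * D) = K ^ 4 * D + K ^ 2 * D := by ring
    have h6 : K * (2 * (|al| * |ζ|)) = 2 * (K * |al| * |ζ|) := by ring
    linarith
  obtain ⟨a4, a5⟩ := cd _ a3
  have p5 : K * (2 * (K ^ 4 * D) + D) ≤ 3 * (K ^ 5 * D) := by
    have h3 := P 1 5 (by norm_num)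
    have h4 : K * (2 * (K ^ 4 * D) + D) = 2 * (K ^ 5 * D) + K ^ 1 * D := by ring
    linarith
  have a6 : |a| ≤ 8 * (K ^ 7 * D) := by
    have h1 : |a| ≤ K * |al| * |a| := le_mul_of_one_le_left ha c1
    have h2 : |k| * |b| ≤ K * (K * D) := mul_le_mul hk a1 hb hK0.le
    have h9 : K * (D + |c| + |d|) ≤ K * (D + 6 * (K ^ 5 * D)) := mul_le_mul_of_nonneg_left (by linarith) hK0.le
    have h3 : K * (2 * (|al| * |a|)) ≤ K * (K * (K * D) + K * (D + 6 * (K ^ 5 * D))) :=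
      mul_le_mul_of_nonneg_left (by linarith) hK0.le
    have h4 := P 3 7 (by norm_num)
    have h5 := P 2 7 (by norm_num)
    have h6 : K * (K * (K * D) + K * (D + 6 * (K ^ 5 * D))) = K ^ 3 * D + K ^ 2 * D + 6 * (K ^ 7 * D) := by
      ring
    have h7 : K * (2 * (|al| * |a|)) = 2 * (K * |al| * |a|) := by ring
    have h8 : 0 ≤ K * |al| * |a| := by positivity
    linarith
  have h1 := P 1 7 (by norm_num)
  have h2 := P 5 7 (by norm_num)
  have h3 : K ^ 1 * D = K * D := by ring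
  have h4 : 16 * K ^ 7 * D = 16 * (K ^ 7 * D) := by ring
  linarith

/-- the slope dominates -/
theorem case3 (H : Lin K a b c d ζ k al w h m ρ x) (c1 : 1 ≤ K * |w|) (c2 : |ζ| ≤ K * (h + x)) :
    |a| + |b| + |c| + |d| ≤ 16 * K ^ 7 * (h + x + ρ) := by
  have hD0 := H.D0
  have hK0 := H.K0
  have P := H.P
  have T1 := H.T1
  have T3 := H.T3
  have a1 : |ζ| ≤ K * (h + x + ρ) := c2.trans H.hxK
  have hk := H.hk
  have hal := H.hal
  obtain ⟨a4, a5⟩ := H.cd _ a1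
  set D := h + x + ρ with hD
  have hb := abs_nonneg b
  have ha := abs_nonneg a
  have hζ := abs_nonneg ζ
  have p5 : K * (K * D + D) ≤ 2 * (K ^ 2 * D) := by
    have h3 := P 1 2 (by norm_num)
    have h4 : K * (K * D + D) = K ^ 2 * D + K ^ 1 * D := by ring
    linarith
  have a2 : |a| ≤ 2 * (K ^ 3 * D) := by
    have h1 : |a| ≤ K * |w| * |a| := le_mul_of_one_le_left ha c1
    have h2 : |k| * |ζ| ≤ K * (K * D) := mul_le_mul hk a1 hζ hK0.le
    have h3 : K * (|w| * |a|) ≤ K * (K * (K * D) + K * D) := mul_le_mul_of_nonneg_left (by linarith) hK0.le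
    have h4 := P 2 3 (by norm_num)
    have h5 : K * (K * (K * D) + K * D) = K ^ 3 * D + K ^ 2 * D := by ring
    have h6 : K * (|w| * |a|) = K * |w| * |a| := by ring
    linarith
  have a3 : |b| ≤ 3 * (K ^ 3 * D) := by
    have h1 : |b| ≤ K * |w| * |b| := le_mul_of_one_le_left hb c1
    have h2 : |al| * |ζ| ≤ K * (K * D) := mul_le_mul hal a1 hζ hK0.le
    have h3 : K * (|w| * |b|) ≤ K * (2 * (K * (K * D)) + K * D) := mul_le_mul_of_nonneg_left (by linarith) hK0.le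
    have h4 := P 2 3 (by norm_num)
    have h5 : K * (2 * (K * (K * D)) + K * D) = 2 * (K ^ 3 * D) + K ^ 2 * D := by ring
    have h6 : K * (|w| * |b|) = K * |w| * |b| := by ring
    linarith
  have h1 := P 2 7 (by norm_num)
  have h2 := P 3 7 (by norm_num)
  have h3 : 0 ≤ K ^ 7 * D := by positivity
  have h4 : 16 * K ^ 7 * D = 16 * (K ^ 7 * D) := by ring
  linarith

/-- the three cases -/
def Cs (K a b ζ k al w h x : ℝ) : Prop :=
  (1 ≤ K * |k| ∧ |a| ≤ K * (h + x)) ∨ (1 ≤ K * |al| ∧ |b| ≤ K * (h + x)) ∨ (1 ≤ K * |w| ∧ |ζ| ≤ K * (h + x))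

theorem all (H : Lin K a b c d ζ k al w h m ρ x) (cs : Cs K a b ζ k al w h x) :
    |a| + |b| + |c| + |d| ≤ 16 * K ^ 7 * (h + x + ρ) := by
  rcases cs with ⟨c1, c2⟩ | ⟨c1, c2⟩ | ⟨c1, c2⟩
  · exact H.case1 c1 c2
  · exact H.case2 c1 c2
  · exact H.case3 c1 c2

/-- conclusion -/
theorem fin (hK0 : 0 < K) (H : Lin K a b c d ζ k al w h m ρ (1 / (32 * K ^ 7) * (|a| + |b| + |c| + |d|)))
    (cs : Cs K a b ζ k al w h (1 / (32 * K ^ 7) * (|a| + |b| + |c| + |d|))) (up : h * m ≤ K * ρ) (lo : ρ ≤ K * (h * m))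
    (m2 : ρ ≤ m ^ 2) : |a| + |b| + |c| + |d| ≤ 64 * K ^ 9 * h := by
  have h1 := H.all cs
  have hK := H.hK
  have hh := H.hh
  have hm := H.hm
  have hmK := H.hmK
  set s := |a| + |b| + |c| + |d| with hs
  have h2 : 16 * K ^ 7 * (1 / (32 * K ^ 7) * s) = s / 2 := by
    field_simp
    ring
  have h3 : 16 * K ^ 7 * (h + 1 / (32 * K ^ 7) * s + ρ) = 16 * K ^ 7 * (h + ρ) + s / 2 := by
    rw [← h2]
    ring
  rw [h3] at h1
  have h4 : ρ ≤ K ^ 2 * h := by
    have : K * (h * m) ≤ K * (h * K) := by gcongr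
    linarith
  have h5 : h ≤ K ^ 2 * h := by
    have : (1 : ℝ) ≤ K ^ 2 := one_le_pow₀ hK
    nlinarith
  have h6 : 16 * K ^ 7 * (h + ρ) ≤ 16 * K ^ 7 * (2 * (K ^ 2 * h)) := mul_le_mul_of_nonneg_left (by linarith) (by positivity)
  have h7 : 16 * K ^ 7 * (2 * (K ^ 2 * h)) = 32 * K ^ 9 * h := by ring
  linarith

/-- the adapted coordinate -/
theorem finz (hK0 : 0 < K) (H : Lin K a b c d ζ k al w h m ρ (1 / (32 * K ^ 7) * (|a| + |b| + |c| + |d|)))
    (cs : Cs K a b ζ k al w h (1 / (32 * K ^ 7) * (|a| + |b| + |c| + |d|))) (up : h * m ≤ K * ρ) (lo : ρ ≤ K * (h * m))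
    (m2 : ρ ≤ m ^ 2) (hw3 : 1 ≤ K * |w| → 1 ≤ K ^ 2 * m)
    (g0 : |w * a + k * ζ| ≤ K * ((|a| + |b| + |c| + |d|) ^ 2 + ρ))
    (g1 : |w * b + 2 * al * ζ| ≤ K * ((|a| + |b| + |c| + |d|) ^ 2 + ρ)) : |ζ| ≤ 5000 * K ^ 22 * ρ := by
  have s1 := fin hK0 H cs up lo m2
  have hK := H.hK
  have hh := H.hh
  have hm := H.hm
  have hρ := H.hρ
  have hw := H.hw
  have ha := abs_nonneg a
  have hb := abs_nonneg b
  have hc := abs_nonneg c
  have hd := abs_nonneg d
  have hζ := abs_nonneg ζ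
  have Q : ∀ i j : ℕ, i ≤ j → K ^ i * ρ ≤ K ^ j * ρ := fun i j hij =>
    mul_le_mul_of_nonneg_right (pow_le_pow_right₀ hK hij) hρ
  have q0 := Q 2 22 (by norm_num)
  have q1 := Q 12 22 (by norm_num)
  have qp : 0 ≤ K ^ 22 * ρ := by positivity
  have q2 : 5000 * K ^ 22 * ρ = 5000 * (K ^ 22 * ρ) := by ring
  have hh2 : h ^ 2 ≤ K ^ 2 * ρ := by
    rcases hρ.eq_or_lt with h0 | h0
    · rw [← h0, mul_zero] at up
      have : h = 0 := by
        by_contra hne
        have : 0 < h := lt_of_le_of_ne hh (Ne.symm hne)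
        have := mul_pos this hm
        linarith
      rw [this, ← h0]
      simp
    · have h1 : (h * m) ^ 2 ≤ (K * ρ) ^ 2 := pow_le_pow_left₀ (mul_nonneg hh hm.le) up 2
      have h2 : h ^ 2 * ρ ≤ K ^ 2 * ρ * ρ := by
        calc h ^ 2 * ρ ≤ h ^ 2 * m ^ 2 := by gcongr
          _ = (h * m) ^ 2 := by ring
          _ ≤ (K * ρ) ^ 2 := h1
          _ = _ := by ring
      exact le_of_mul_le_mul_right h2 h0
  set s := |a| + |b| + |c| + |d| with hs
  have hs0 : 0 ≤ s := by positivity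
  have s2 : s ^ 2 ≤ 4096 * (K ^ 20 * ρ) := by
    have h1 : s ^ 2 ≤ (64 * K ^ 9 * h) ^ 2 := pow_le_pow_left₀ hs0 s1 2
    have h2 : (64 * K ^ 9 * h) ^ 2 = 4096 * K ^ 18 * h ^ 2 := by ring
    have h3 : 4096 * K ^ 18 * h ^ 2 ≤ 4096 * K ^ 18 * (K ^ 2 * ρ) := mul_le_mul_of_nonneg_left hh2 (by positivity)
    have h4 : 4096 * K ^ 18 * (K ^ 2 * ρ) = 4096 * (K ^ 20 * ρ) := by ring
    linarith
  have ms : m * s ≤ 64 * (K ^ 10 * ρ) := by
    have h1 : m * s ≤ m * (64 * K ^ 9 * h) := mul_le_mul_of_nonneg_left s1 hm.le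
    have h2 : m * (64 * K ^ 9 * h) = 64 * K ^ 9 * (h * m) := by ring
    have h3 : 64 * K ^ 9 * (h * m) ≤ 64 * K ^ 9 * (K * ρ) := mul_le_mul_of_nonneg_left up (by positivity)
    have h4 : 64 * K ^ 9 * (K * ρ) = 64 * (K ^ 10 * ρ) := by ring
    linarith
  have main : ∀ u v : ℝ, |v| ≤ |w| * s + K * (s ^ 2 + ρ) → |ζ| ≤ K * |v| → |ζ| ≤ 5000 * (K ^ 22 * ρ) := by
    intro u v hv hv'
    have h1 : |w| * s ≤ K * m * s := mul_le_mul_of_nonneg_right hw hs0
    have h2 : K * m * s ≤ K * (64 * (K ^ 10 * ρ)) := by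
      have := mul_le_mul_of_nonneg_left ms hK0.le
      linarith
    have h3 : K * (s ^ 2 + ρ) ≤ K * (4096 * (K ^ 20 * ρ) + ρ) := mul_le_mul_of_nonneg_left (by linarith) hK0.le
    have h4 : K * |v| ≤ K * (K * (64 * (K ^ 10 * ρ)) + K * (4096 * (K ^ 20 * ρ) + ρ)) :=
      mul_le_mul_of_nonneg_left (by linarith) hK0.le
    have h5 : K * (K * (64 * (K ^ 10 * ρ)) + K * (4096 * (K ^ 20 * ρ) + ρ)) =
        64 * (K ^ 12 * ρ) + 4096 * (K ^ 22 * ρ) + K ^ 2 * ρ := by ring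
    linarith
  rw [q2]
  rcases cs with ⟨c1, -⟩ | ⟨c1, -⟩ | ⟨c1, c2⟩
  · refine main 0 (k * ζ) ?_ ?_
    · have h1 : |k * ζ| ≤ |w * a + k * ζ| + |w * a| := by
        have := abs_sub (w * a + k * ζ) (w * a)
        rwa [add_sub_cancel_left] at this
      have h2 : |w * a| ≤ |w| * s := by
        rw [abs_mul]
        exact mul_le_mul_of_nonneg_left (by linarith) (abs_nonneg _)
      linarith
    · rw [abs_mul]
      have h1 : |ζ| ≤ K * |k| * |ζ| := le_mul_of_one_le_left hζ c1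
      linarith
  · refine main 0 (2 * al * ζ) ?_ ?_
    · have h1 : |2 * al * ζ| ≤ |w * b + 2 * al * ζ| + |w * b| := by
        have := abs_sub (w * b + 2 * al * ζ) (w * b)
        rwa [add_sub_cancel_left] at this
      have h2 : |w * b| ≤ |w| * s := by
        rw [abs_mul]
        exact mul_le_mul_of_nonneg_left (by linarith) (abs_nonneg _)
      linarith
    · rw [abs_mul, abs_mul, abs_two]
      have h1 : |ζ| ≤ K * |al| * |ζ| := le_mul_of_one_le_left hζ c1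
      have h2 : 0 ≤ K * |al| * |ζ| := by positivity
      linarith
  · have h1 : 1 / (32 * K ^ 7) * s ≤ s := by
      have h8 : 1 / (32 * K ^ 7) ≤ (1 : ℝ) := by
        rw [div_le_one (by positivity)]
        have : (1 : ℝ) ≤ K ^ 7 := one_le_pow₀ hK
        linarith
      nlinarith
    have h2 : K * (h + 1 / (32 * K ^ 7) * s) ≤ K * (h + 64 * K ^ 9 * h) := mul_le_mul_of_nonneg_left (by linarith) hK0.le
    have h3 : K * (h + 64 * K ^ 9 * h) ≤ 65 * K ^ 10 * h := by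
      have h9 : K * h ≤ K ^ 10 * h := mul_le_mul_of_nonneg_right (by
        calc K = K ^ 1 := (pow_one K).symm
          _ ≤ K ^ 10 := pow_le_pow_right₀ hK (by norm_num)) hh
      have h10 : K * (h + 64 * K ^ 9 * h) = K * h + 64 * (K ^ 10 * h) := by ring
      have h11 : 65 * K ^ 10 * h = 65 * (K ^ 10 * h) := by ring
      linarith
    have h4 : h ≤ K ^ 3 * ρ := by
      have h5 := hw3 c1
      have h6 : h ≤ K ^ 2 * m * h := le_mul_of_one_le_left hh h5
      have h7 : K ^ 2 * m * h = K ^ 2 * (h * m) := by ring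
      have h8 : K ^ 2 * (h * m) ≤ K ^ 2 * (K * ρ) := mul_le_mul_of_nonneg_left up (by positivity)
      have h9 : K ^ 2 * (K * ρ) = K ^ 3 * ρ := by ring
      linarith
    have h5 : 65 * K ^ 10 * h ≤ 65 * K ^ 10 * (K ^ 3 * ρ) := mul_le_mul_of_nonneg_left h4 (by positivity)
    have h6 : 65 * K ^ 10 * (K ^ 3 * ρ) = 65 * (K ^ 13 * ρ) := by ring
    have h7 := Q 13 22 (by norm_num)
    linarith

end Lin

end Vale.Agent.P106.U.Cov5
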