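import Vale.Agent.P106.U.H543.Core5

/-!
# P106 / U / H543 : two slabs, bounds at the rays (helper543)
-/

set_option autoImplicit false

namespace Vale.Agent.P106.U.Cov5

open Vale.Agent.P106.K

/-- bounds of the coefficients -/
structure Sb (B ρ : ℝ) (f g : Fu) (h0 h1 : ℝ) : Prop where
  B1 : 1 ≤ B
  n2 : f.n0 ^ 2 + f.n1 ^ 2 = 1
  fκ : |f.κ| ≤ B
  fα : |f.α| ≤ B
  g0 : |g.n0| ≤ B
  g1 : |g.n1| ≤ B
  gκ : |g.κ| ≤ B
  gα : |g.α| ≤ B
  o0 : |h0| ≤ B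
  o1 : |h1| ≤ B
  ρ0 : 0 < ρ
  ρs : 12 * B ^ 2 * ρ ≤ 1

/-- the rays of the two slabs -/
def KK (B ρ : ℝ) (f g : Fu) (h0 h1 : ℝ) : Set Ry :=
  {l | (∀ k, |l.y k| ≤ B) ∧ (∀ k, |l.s k| ≤ B) ∧ |l.z| ≤ B ∧ |f.v0 l| ≤ B * ρ ∧ |f.v1 l| ≤ B * ρ ∧
    |g.v0 l - h0| ≤ B * ρ ∧ |g.v1 l - h1| ≤ B * ρ}

/-- value of the scalar product -/
def tau (f g : Fu) (h0 h1 : ℝ) : ℝ := f.n0 * g.n0 + f.n1 * g.n1 + f.κ * h1 - 2 * f.α * h0

/-- value of the norm -/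
def sig (g : Fu) (h0 h1 : ℝ) : ℝ := g.n0 ^ 2 + g.n1 ^ 2 + 2 * g.κ * h1 - 4 * g.α * h0

/-- square of the own slope -/
def Del (f g : Fu) (h0 h1 : ℝ) : ℝ := sig g h0 h1 - tau f g h0 h1 ^ 2

section

variable {B ρ : ℝ} {f g : Fu} {h0 h1 : ℝ} {l : Ry}

theorem prod_le {x y X Y : ℝ} (hx : |x| ≤ X) (hy : |y| ≤ Y) (hX : 0 ≤ X) : |x * y| ≤ X * Y := by
  rw [abs_mul]
  exact mul_le_mul hx hy (abs_nonneg _) hX

theorem Sb.nn_near (H : Sb B ρ f g h0 h1) (hl : l ∈ KK B ρ f g h0 h1) : |nn f l - 1| ≤ 6 * B ^ 2 * ρ := by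
  obtain ⟨-, -, -, a0, a1, -, -⟩ := hl
  have hB := H.B1
  have e : nn f l - 1 = 2 * (f.κ * f.v1 l) - 4 * (f.α * f.v0 l) := by
    rw [nn_eq, H.n2]
    ring
  rw [e]
  have h1 := prod_le H.fκ a1 (by linarith)
  have h2 := prod_le H.fα a0 (by linarith)
  rw [abs_le] at h1 h2 ⊢
  constructor <;> linarith

theorem Sb.nn_lo (H : Sb B ρ f g h0 h1) (hl : l ∈ KK B ρ f g h0 h1) : 1 / 2 ≤ nn f l := by
  have h1 := H.nn_near hl
  have h2 := H.ρs
  rw [abs_le] at h1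
  linarith

theorem Sb.nn_hi (H : Sb B ρ f g h0 h1) (hl : l ∈ KK B ρ f g h0 h1) : nn f l ≤ 3 / 2 := by
  have h1 := H.nn_near hl
  have h2 := H.ρs
  rw [abs_le] at h1
  linarith

theorem Sb.N0_le (H : Sb B ρ f g h0 h1) (hl : l ∈ KK B ρ f g h0 h1) : |f.N0 l| ≤ 3 / 2 := by
  have h1 := H.nn_hi hl
  unfold nn at h1
  apply abs_le_of_sq_le_sq _ (by norm_num)
  nlinarith [sq_nonneg (f.N1 l)]

theorem Sb.N1_le (H : Sb B ρ f g h0 h1) (hl : l ∈ KK B ρ f g h0 h1) : |f.N1 l| ≤ 3 / 2 := by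
  have h1 := H.nn_hi hl
  unfold nn at h1
  apply abs_le_of_sq_le_sq _ (by norm_num)
  nlinarith [sq_nonneg (f.N0 l)]

theorem lin3 {a b c x y A : ℝ} (hA : 1 ≤ A) (ha : |a| ≤ A) (hb : |b| ≤ A) (hc : |c| ≤ A) (hx : |x| ≤ A) (hy : |y| ≤ A) :
    |a + b * x - 2 * c * y| ≤ 4 * A ^ 2 := by
  have h1 := prod_le hb hx (by linarith)
  have h2 := prod_le hc hy (by linarith)
  rw [abs_le] at h1 h2 ha ⊢
  constructor <;> nlinarith

theorem Sb.M0_le (H : Sb B ρ f g h0 h1) (hl : l ∈ KK B ρ f g h0 h1) : |g.N0 l| ≤ 4 * B ^ 2 :=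
  lin3 H.B1 H.g0 H.gκ H.gα (hl.2.1 0) (hl.1 0)

theorem Sb.M1_le (H : Sb B ρ f g h0 h1) (hl : l ∈ KK B ρ f g h0 h1) : |g.N1 l| ≤ 4 * B ^ 2 :=
  lin3 H.B1 H.g1 H.gκ H.gα (hl.2.1 1) (hl.1 1)

theorem Sb.sp_le (H : Sb B ρ f g h0 h1) (hl : l ∈ KK B ρ f g h0 h1) : |sp f g l| ≤ 12 * B ^ 2 := by
  have h1 := prod_le (H.N0_le hl) (H.M0_le hl) (by norm_num)
  have h2 := prod_le (H.N1_le hl) (H.M1_le hl) (by norm_num)
  have h3 := abs_add_le (f.N0 l * g.N0 l) (f.N1 l * g.N1 l)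
  unfold sp
  linarith

theorem Sb.ow_le (H : Sb B ρ f g h0 h1) (hl : l ∈ KK B ρ f g h0 h1) : |ow f g l| ≤ 12 * B ^ 2 := by
  have h1 := prod_le (H.N0_le hl) (H.M1_le hl) (by norm_num)
  have h2 := prod_le (H.N1_le hl) (H.M0_le hl) (by norm_num)
  have h3 := abs_sub (f.N0 l * g.N1 l) (f.N1 l * g.N0 l)
  unfold ow
  linarith

theorem Sb.nng_le (H : Sb B ρ f g h0 h1) (hl : l ∈ KK B ρ f g h0 h1) : |nn g l| ≤ 32 * B ^ 4 := by
  have h1 := pow_le_pow_left₀ (abs_nonneg _) (H.M0_le hl) 2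
  have h2 := pow_le_pow_left₀ (abs_nonneg _) (H.M1_le hl) 2
  rw [sq_abs] at h1 h2
  have h3 : 0 ≤ nn g l := by unfold nn; positivity
  rw [abs_of_nonneg h3]
  unfold nn
  have e : (4 * B ^ 2) ^ 2 = 16 * B ^ 4 := by ring
  linarith

theorem Sb.sp_near (H : Sb B ρ f g h0 h1) (hl : l ∈ KK B ρ f g h0 h1) :
    |sp f g l - tau f g h0 h1| ≤ 6 * B ^ 2 * ρ := by
  obtain ⟨-, -, -, a0, a1, a2, a3⟩ := hl
  have hB := H.B1
  have e : sp f g l - tau f g h0 h1 = f.κ * (g.v1 l - h1) + g.κ * f.v1 l - 2 * (f.α * (g.v0 l - h0)) -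
      2 * (g.α * f.v0 l) := by
    rw [sp_eq]
    unfold tau
    ring
  rw [e]
  have b1 := prod_le H.fκ a3 (by linarith)
  have b2 := prod_le H.gκ a1 (by linarith)
  have b3 := prod_le H.fα a2 (by linarith)
  have b4 := prod_le H.gα a0 (by linarith)
  rw [abs_le] at b1 b2 b3 b4 ⊢
  constructor <;> linarith

theorem Sb.sig_near (H : Sb B ρ f g h0 h1) (hl : l ∈ KK B ρ f g h0 h1) :
    |nn g l - sig g h0 h1| ≤ 6 * B ^ 2 * ρ := by
  obtain ⟨-, -, -, a0, a1, a2, a3⟩ := hl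
  have hB := H.B1
  have e : nn g l - sig g h0 h1 = 2 * (g.κ * (g.v1 l - h1)) - 4 * (g.α * (g.v0 l - h0)) := by
    rw [nn_eq]
    unfold sig
    ring
  rw [e]
  have b1 := prod_le H.gκ a3 (by linarith)
  have b3 := prod_le H.gα a2 (by linarith)
  rw [abs_le] at b1 b3 ⊢
  constructor <;> linarith

/-- the square of the own slope -/
theorem Sb.ow_near (H : Sb B ρ f g h0 h1) (hl : l ∈ KK B ρ f g h0 h1) :
    |ow f g l ^ 2 - Del f g h0 h1| ≤ 400 * B ^ 6 * ρ := by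
  have hB := H.B1
  have hρ := H.ρ0
  have c1 := H.nn_near hl
  have c2 := H.nng_le hl
  have c3 := H.sig_near hl
  have c4 := H.sp_near hl
  have c5 := H.sp_le hl
  have hρB := H.ρs
  have e : ow f g l ^ 2 - Del f g h0 h1 = (nn f l - 1) * nn g l + (nn g l - sig g h0 h1) -
      (sp f g l - tau f g h0 h1) * (2 * sp f g l - (sp f g l - tau f g h0 h1)) := by
    rw [ow_sq]
    unfold Del
    ring
  have h6 : |2 * sp f g l - (sp f g l - tau f g h0 h1)| ≤ 25 * B ^ 2 := by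
    have h7 : 6 * B ^ 2 * ρ ≤ B ^ 2 := by nlinarith
    rw [abs_le] at c4 c5 ⊢
    constructor <;> linarith
  have d1 := prod_le c1 c2 (by positivity)
  have d2 := prod_le c4 h6 (by positivity)
  rw [e]
  have B2 : B ^ 2 * ρ ≤ B ^ 6 * ρ := mul_le_mul_of_nonneg_right (pow_le_pow_right₀ hB (by norm_num)) hρ.le
  have B4 : B ^ 4 * ρ ≤ B ^ 6 * ρ := mul_le_mul_of_nonneg_right (pow_le_pow_right₀ hB (by norm_num)) hρ.le
  have e1 : 6 * B ^ 2 * ρ * (32 * B ^ 4) = 192 * (B ^ 6 * ρ) := by ring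
  have e2 : 6 * B ^ 2 * ρ * (25 * B ^ 2) = 150 * (B ^ 4 * ρ) := by ring
  rw [e1] at d1
  rw [e2] at d2
  rw [abs_le] at c3 d1 d2 ⊢
  constructor <;> linarith

theorem Sb.kh_le (H : Sb B ρ f g h0 h1) (hl : l ∈ KK B ρ f g h0 h1) : |kh f g l| ≤ 14 * B ^ 3 := by
  have hB := H.B1
  have h1 : |g.κ * nn f l| ≤ B * (3 / 2) := by
    apply prod_le H.gκ _ (by linarith)
    rw [abs_of_nonneg (by linarith [H.nn_lo hl])]
    exact H.nn_hi hl
  have h2 := prod_le (H.sp_le hl) H.fκ (by positivity)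
  have h3 := abs_sub (g.κ * nn f l) (sp f g l * f.κ)
  unfold kh
  have h4 : B ≤ B ^ 3 := by nlinarith [sq_nonneg B, mul_self_nonneg (B - 1)]
  have e : 12 * B ^ 2 * B = 12 * B ^ 3 := by ring
  linarith

theorem Sb.ah_le (H : Sb B ρ f g h0 h1) (hl : l ∈ KK B ρ f g h0 h1) : |ah f g l| ≤ 14 * B ^ 3 := by
  have hB := H.B1
  have h1 : |g.α * nn f l| ≤ B * (3 / 2) := by
    apply prod_le H.gα _ (by linarith)
    rw [abs_of_nonneg (by linarith [H.nn_lo hl])]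
    exact H.nn_hi hl
  have h2 := prod_le (H.sp_le hl) H.fα (by positivity)
  have h3 := abs_sub (g.α * nn f l) (sp f g l * f.α)
  unfold ah
  have h4 : B ≤ B ^ 3 := by nlinarith [sq_nonneg B, mul_self_nonneg (B - 1)]
  have e : 12 * B ^ 2 * B = 12 * B ^ 3 := by ring
  linarith

theorem Sb.kh_near (H : Sb B ρ f g h0 h1) (hl : l ∈ KK B ρ f g h0 h1) :
    |kh f g l - (g.κ - tau f g h0 h1 * f.κ)| ≤ 12 * B ^ 3 * ρ := by
  have hB := H.B1
  have e : kh f g l - (g.κ - tau f g h0 h1 * f.κ) = g.κ * (nn f l - 1) - (sp f g l - tau f g h0 h1) * f.κ := by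
    unfold kh
    ring
  have i1 := prod_le H.gκ (H.nn_near hl) (by linarith)
  have i2 := prod_le (H.sp_near hl) H.fκ (by have := H.ρ0; positivity)
  have i3 := abs_sub (g.κ * (nn f l - 1)) ((sp f g l - tau f g h0 h1) * f.κ)
  rw [e]
  have e1 : B * (6 * B ^ 2 * ρ) = 6 * B ^ 3 * ρ := by ring
  have e2 : 6 * B ^ 2 * ρ * B = 6 * B ^ 3 * ρ := by ring
  linarith

theorem Sb.ah_near (H : Sb B ρ f g h0 h1) (hl : l ∈ KK B ρ f g h0 h1) :
    |ah f g l - (g.α - tau f g h0 h1 * f.α)| ≤ 12 * B ^ 3 * ρ := by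
  have hB := H.B1
  have e : ah f g l - (g.α - tau f g h0 h1 * f.α) = g.α * (nn f l - 1) - (sp f g l - tau f g h0 h1) * f.α := by
    unfold ah
    ring
  have i1 := prod_le H.gα (H.nn_near hl) (by linarith)
  have i2 := prod_le (H.sp_near hl) H.fα (by have := H.ρ0; positivity)
  have i3 := abs_sub (g.α * (nn f l - 1)) ((sp f g l - tau f g h0 h1) * f.α)
  rw [e]
  have e1 : B * (6 * B ^ 2 * ρ) = 6 * B ^ 3 * ρ := by ring
  have e2 : 6 * B ^ 2 * ρ * B = 6 * B ^ 3 * ρ := by ring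
  linarith

/-- vectors from their components in the frame of the ray -/
theorem Sb.comp (H : Sb B ρ f g h0 h1) (hl : l ∈ KK B ρ f g h0 h1) (u v : ℝ) :
    |u| ≤ 3 * (|f.N0 l * v - f.N1 l * u| + |f.N0 l * u + f.N1 l * v|) ∧
      |v| ≤ 3 * (|f.N0 l * v - f.N1 l * u| + |f.N0 l * u + f.N1 l * v|) := by
  have h1 := H.nn_lo hl
  have h2 := H.N0_le hl
  have h3 := H.N1_le hl
  set a := f.N0 l * v - f.N1 l * u with ha
  set c := f.N0 l * u + f.N1 l * v with hc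
  have e1 : nn f l * u = f.N0 l * c - f.N1 l * a := by
    rw [ha, hc]
    unfold nn
    ring
  have e2 : nn f l * v = f.N1 l * c + f.N0 l * a := by
    rw [ha, hc]
    unfold nn
    ring
  have b1 := prod_le h2 (le_refl |c|) (by norm_num)
  have b2 := prod_le h3 (le_refl |a|) (by norm_num)
  have b3 := prod_le h3 (le_refl |c|) (by norm_num)
  have b4 := prod_le h2 (le_refl |a|) (by norm_num)
  have hn : 0 ≤ nn f l := by linarith
  constructor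
  · have h4 : |nn f l * u| ≤ 3 / 2 * |c| + 3 / 2 * |a| := by
      rw [e1]
      exact (abs_sub _ _).trans (add_le_add b1 b2)
    rw [abs_mul, abs_of_nonneg hn] at h4
    have h5 := mul_le_mul_of_nonneg_right h1 (abs_nonneg u)
    linarith
  · have h4 : |nn f l * v| ≤ 3 / 2 * |c| + 3 / 2 * |a| := by
      rw [e2]
      exact (abs_add_le _ _).trans (add_le_add b3 b4)
    rw [abs_mul, abs_of_nonneg hn] at h4
    have h5 := mul_le_mul_of_nonneg_right h1 (abs_nonneg v)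
    linarith

end

end Vale.Agent.P106.U.Cov5
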