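import Vale.Agent.P106.U.H543.Hov
import Vale.Agent.P106.U.H118.HeavyRunM

/-!
# P106 / U / H543 : heavy intervals over a run, mixed letters, with the overhang (helper543)

* `heavy_ovhM` : `H118.heavy_reM` without the hypothesis `hov` (`xo = xoR`, `cx = 13`).
-/

set_option autoImplicit false

namespace Vale.Agent.P106.U.Top543

open Finset Vale.Agent.P127 Vale.Agent.P127.Stk Vale.Agent.P127.U Vale.Agent.P106.W Vale.Agent.P106.K Vale.Agent.P106.U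
open Vale.Agent.P106.U.S3 (Run)
open Vale.Agent.P127.U.CellD (q2)
open Vale.Agent.P106.U.H118 (td Zw nuK eSK)

/-- **HEAVY INTERVALS OVER A RUN, MIXED LETTERS, WITH THE OVERHANG** : `H118.heavy_reM` without the hypothesis `hov` -/
theorem heavy_ovhM (lam N' k k' β β' : ℝ) (h0 : 0 ≤ lam) (h1 : lam ≤ 1) (hk : 0 ≤ k) (hkk : k ≤ k') (hk' : k' ≤ lam) (hN' : 0 ≤ N')
    (hF : FIXA lam N' k' β') (c₀ K : ℝ) (hc₀ : 1 ≤ c₀) (hK : 1 ≤ K) (ε' : ℝ) (hε : 0 < ε') (δ0 : ℝ) (hδ0 : 0 < δ0) :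
    ∃ (D : ℝ) (z : ℕ), 0 ≤ D ∧ ∀ {Ω : Type} [Fintype Ω] {τ υ : Type} (R : Run Ω τ υ) (p : Run.Num) (c' g' gU d : ℝ),
      1 ≤ R.h → 0 ≤ β' + ε' - β + d → R.Ok p K c' g' gU → NEx c₀ lam N' k β d R.Q R.ry R.t (fun _ => ()) R.L R.h R.q R.W →
      z ≤ R.r0 → ∀ {f : ℕ → ℕ} (_ : Monotone f) {N : ℕ} (_ : ∀ i k, i < k → k ≤ N → f i < f k) (_ : ∀ k ≤ N, f k ≤ R.n)
        {A0 R0 b : ℕ} {a r : ℕ → ℕ} (_ : ∀ k ≤ N, R.C.a (f k) = A0 + R.m * a k) (_ : ∀ k ≤ N, R.C.R (f k) b = R0 + R.m * r k)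
        (_ : ∀ k < N, a (k + 1) = a k ∨ a (k + 1) = a k + 1)
        (_ : ∀ k < N, a (k + 1) = a k + 1 → R.C.a (f (k + 1)) = R.C.a (f k + 1))
        {ε δ co L0 : ℝ} {ν₀ c y c3 cY Kμ : ℕ}, 0 < ν₀ → b < p.B₁ → R.m + y ≤ b → R.m + z ≤ b → R.m * R.b1 ≤ b →
        2 * K * q2 c ≤ 1 → 40 * K ^ 6 * q2 y ≤ 1 → K * q2 R.q ≤ 1 → 2 * R.m + 2 * c + 1 + y ≤ R.m * Kμ →
        (p.s + 1) * R.m + R.m + c + y + 3 * R.C.μ ≤ R.m * c3 → (p.s + 1) * R.m + 3 * R.m + 2 * c + 8 * R.C.μ ≤ R.m * c3 →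
        8 * R.C.μ ≤ b → 9 * R.C.μ ≤ R.C.R (f 0) b → 40 * K ^ 2 * q2 R.C.μ ≤ (1 / 4 : ℝ) ^ R.m →
        R.C.a (f N) ≤ p.A' → p.A' + 2 * b ≤ R.h → R.C.R (f N) b + b ≤ R.q →
        -- the letters
        ∀ {σ : Type} (Y : ℕ → Ω → σ) (O : ℕ → Prop)
        (_ : ∀ k ≤ N, O k → Fn R.Q (Y k) (R.C.cell (f k) b))
        (_ : ∀ k ≤ N, O k → Fn R.Q (R.C.cell (f k) b) (Y k))
        (_ : ∀ k ≤ N, ¬ O k → Fn R.Q (td R.C (f k)) (Y k))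
        {u1 u2 : ℕ → ℝ} {ν eS cc cE : ℝ}
        (_ : ∀ k < N, a (k + 1) = a k + 1 → O k → 2 * (R.m * Real.log 2) - u1 (a k) ≤
          Stk.hc R.Q (R.C.VZ (f (k + 1)) b)
            (fun ω => (td R.C (f (k + 1)) ω, (R.C.cell (f k) b ω, R.C.VZ (f k) b ω))))
        (_ : ∀ k < N, a (k + 1) = a k + 1 → ¬ O k → 2 * (R.m * Real.log 2) - u1 (a k) ≤
          Stk.hc R.Q (R.C.VZ (f (k + 1)) b) (fun ω => (td R.C (f (k + 1)) ω, (Y k ω, R.C.VZ (f k) b ω))))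
        (_ : ∀ z, 0 ≤ u1 z) (_ : ∀ z, 0 ≤ u2 z)
        (_ : nuK K + Real.log 45 ≤ ν)
        (_ : ∀ k k2, k < N → a (k + 1) = a k + 1 → k < k2 → k2 ≤ N → a k2 = a k + 1 →
          (k2 = N ∨ a (k2 + 1) = a k2 + 1) → ¬ (O k ∧ O k2) →
          Stk.hc R.Q (fun ω => (Y k ω, R.C.VZ (f k) b ω)) (fun ω => (Y k2 ω, R.C.VZ (f k2) b ω)) ≤ ν + u2 (a k))
        (_ : eSK (3 * ε + 2 * c') R.m R.C.μ ≤ eS)
        (_ : eS + ν ≤ δ * (R.m * Real.log 2)) (_ : 12 * ε + δ0 ≤ δ) (_ : 0 ≤ ε) (_ : δ ≤ 1)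
        (_ : nuK K ≤ cc)
        (_ : ∀ i k, i < k → k ≤ N → ¬ O k →
          Stk.hc R.Q (R.C.cell (f i) b) (fun ω => (Y k ω, R.C.VZ (f k) b ω)) ≤ cc)
        (_ : 0 ≤ cE)
        (_ : ¬ O N → Stk.hc R.Q (Y N) (fun ω => (R.C.cell (f N) b ω, R.C.VZ (f N) b ω)) ≤ cE)
        (_ : c3 + Kμ ≤ cY)
        (_ : ∀ i i1, R.Good p ε b (f i) → i < i1 → i1 ≤ N → r i + 3 * (a i1 - a i) + cY < r i1 →
          ∃ Kc : ℕ, Kμ + Kc ≤ 3 * (a i1 - a i) + cY ∧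
            ∀ k, i1 ≤ k → k < N → a (k + 1) = a k + 1 → a i1 + Kμ ≤ a k → a k + Kc + r i < a i + r i1 → ¬ O k →
              Stk.hc (H118.two R.Q (R.XZ (f i) b)) (fun p => R.C.VZ (f (k + 1)) b p.fst)
                (fun p => (R.C.cell (f i1) b p.snd, (td R.C (f (k + 1)) p.fst, (Y k p.fst, R.C.VZ (f k) b p.fst)))) ≤
                R.m * Real.log 2 + eS)
        (_ : (8 * R.C.μ + ((p.s : ℝ) + 2) * R.m) * Real.log 2 + D ≤ co)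
        (_ : (((R.h : ℝ) - R.C.a (f N)) + b + (β' + ε' - β + d) * R.h) * Real.log 2 + gU ≤ L0) (M1 : ℕ),
        ∀ i i1, R.Good p ε b (f i) → i < i1 → i1 ≤ N → r i + M1 < r i1 →
          R.m * Real.log 2 * (1 - δ) * ((r i1 : ℝ) - r i) - R.m * Real.log 2 * (3 + 2 + 13) * ((a i1 : ℝ) - a i) -
            ∑ z ∈ Icc (a i) (a i + (r i1 - r i)), (u1 z + u2 z) -
            ((cY : ℝ) * (R.m * Real.log 2) + (cc + cE + nuK K) + co) -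
            ∑ j ∈ Ico i i1, (H833.qc R.Q R.ry (fun i => Zw R (f i)) (fun j ω => fl1 (R.C.a (f j)) (R.C.t ω)) j +
              xoR (R.m * Real.log 2) L0 ν₀ a r N j) ≤
          H833.psi R.Q R.ry (fun i => Zw R (f i)) (fun k => R.C.cell (f k) b) i1 -
            H833.psi R.Q R.ry (fun i => Zw R (f i)) (fun k => R.C.cell (f k) b) i := by
  obtain ⟨D, z, hD, hov⟩ := hov_re lam N' k k' β β' h0 h1 hk hkk hk' hN' hF c₀ K hc₀ hK ε' hε δ0 hδ0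
  refine ⟨D, z, hD, ?_⟩
  intro Ω _ τ υ R p c' g' gU d hh hd h hne hr0 f hf N hfs hfn A0 R0 b a r hA hR hst hf1 ε δ co L0 ν₀ c y c3 cY Kμ hν₀ hxB hbx hbz
    hb1 hc hy hq hKμ h3a h3b hb8 h9 hμ hAN hroom hRq σ Y O hYO1 hYO2 hYt u1 u2 ν eS cc cE hVO hVY hu1 hu2 hν hNY heS hδ hεδ hε0
    hδ1 hcc hcell hcE hE hcY hSY hco hL0 M1
  have hl2 : 0 < Real.log 2 := Real.log_pos (by norm_num)
  have hgU : 0 ≤ gU := (Stk.hc_nonneg _ _ _).trans h.prW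
  have haN : (R.C.a (f N) : ℝ) ≤ R.h := by
    have := h.pth.rA'
    exact_mod_cast (by omega : R.C.a (f N) ≤ R.h)
  have hL00 : 0 ≤ L0 := by
    refine le_trans ?_ hL0
    have e1 : 0 ≤ (β' + ε' - β + d) * R.h := by positivity
    have e2 : (0 : ℝ) ≤ b := Nat.cast_nonneg _
    have e3 : 0 ≤ ((R.h : ℝ) - R.C.a (f N)) + b + (β' + ε' - β + d) * R.h := by linarith
    have := mul_nonneg e3 hl2.le
    linarith
  have hco0 : 0 ≤ co := by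
    refine le_trans ?_ hco
    positivity
  exact H118.heavy_reM h hK hf hfs hfn hA hR hst hf1 hxB hbx hc hy hq hKμ h3a h3b hb8 h9 hμ Y O hYO1 hYO2 hYt hVO hVY hu1 hu2 hν
    hNY (by linarith) heS hδ hδ1 hco0 hcc hcell hcE hE hcY hSY (fun j => xoR_nonneg (by positivity) hL00 ν₀ a r N j) (by norm_num)
    (hov R p c' g' gU d hh hd h hne hr0 hf hfs (hfn N le_rfl) hA hR hν₀ hbz hxB hb1 hb8 (by omega) hAN hroom hRq hεδ hδ1 hco hL0) M1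

end Vale.Agent.P106.U.Top543
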