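import Vale.Agent.P106.K.Defs

/-!
# P106 / U / H543 : identities for conformal functionals on light rays (helper543)

Coordinates of `K.Ry` (position `y`, slope `s`, adapted coordinate `z`). Functional with covector `n`, coefficients `κ`, `α`:
value `v0` at the time `0`, increment `v1`; `nv` = covector recentred at the ray (`nv · nv` = Lorentz norm up to the values).
-/

set_option autoImplicit false

namespace Vale.Agent.P106.U.Cov5

open Vale.Agent.P106.K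

/-- a conformal functional `n·X + κ ζ - α |X|² + 2 α t ζ` -/
structure Fu where
  n0 : ℝ
  n1 : ℝ
  κ : ℝ
  α : ℝ

namespace Fu

/-- value at the time `0` -/
def v0 (f : Fu) (l : Ry) : ℝ :=
  f.n0 * l.y 0 + f.n1 * l.y 1 + f.κ * (l.z + (l.y 0 * l.s 0 + l.y 1 * l.s 1)) - f.α * (l.y 0 ^ 2 + l.y 1 ^ 2)

/-- increment -/
noncomputable def v1 (f : Fu) (l : Ry) : ℝ :=
  f.n0 * l.s 0 + f.n1 * l.s 1 + f.κ * (l.s 0 ^ 2 + l.s 1 ^ 2) / 2 + 2 * f.α * l.z

/-- recentred covector -/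
def N0 (f : Fu) (l : Ry) : ℝ := f.n0 + f.κ * l.s 0 - 2 * f.α * l.y 0

/-- recentred covector -/
def N1 (f : Fu) (l : Ry) : ℝ := f.n1 + f.κ * l.s 1 - 2 * f.α * l.y 1

end Fu

/-- squared norm of the recentred covector -/
def nn (f : Fu) (l : Ry) : ℝ := f.N0 l ^ 2 + f.N1 l ^ 2

/-- scalar product of the recentred covectors -/
def sp (f g : Fu) (l : Ry) : ℝ := f.N0 l * g.N0 l + f.N1 l * g.N1 l

/-- own slope : cross product of the recentred covectors -/
def ow (f g : Fu) (l : Ry) : ℝ := f.N0 l * g.N1 l - f.N1 l * g.N0 l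

/-- coefficient `κ` of `g` relative to `f` at the ray (times `nn`) -/
def kh (f g : Fu) (l : Ry) : ℝ := g.κ * nn f l - sp f g l * f.κ

/-- coefficient `α` of `g` relative to `f` at the ray (times `nn`) -/
def ah (f g : Fu) (l : Ry) : ℝ := g.α * nn f l - sp f g l * f.α

/-- relative coordinates of two rays -/
structure Rl where
  Y0 : ℝ
  Y1 : ℝ
  S0 : ℝ
  S1 : ℝ
  ζ : ℝ

/-- coordinates of `l` relative to `l'` -/
def rl (l l' : Ry) : Rl :=
  ⟨l.y 0 - l'.y 0, l.y 1 - l'.y 1, l.s 0 - l'.s 0, l.s 1 - l'.s 1,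
    l.z + (l.y 0 * (l.s 0 - l'.s 0) + l.y 1 * (l.s 1 - l'.s 1)) - l'.z⟩

section

variable (f g : Fu) (l l' : Ry)

theorem nn_eq : nn f l = f.n0 ^ 2 + f.n1 ^ 2 + 2 * f.κ * f.v1 l - 4 * f.α * f.v0 l := by
  simp only [nn, Fu.N0, Fu.N1, Fu.v0, Fu.v1]
  ring

theorem sp_eq : sp f g l = f.n0 * g.n0 + f.n1 * g.n1 + f.κ * g.v1 l + g.κ * f.v1 l -
    2 * f.α * g.v0 l - 2 * g.α * f.v0 l := by
  simp only [sp, Fu.N0, Fu.N1, Fu.v0, Fu.v1]
  ring

/-- Lagrange -/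
theorem ow_sq : ow f g l ^ 2 = nn f l * nn g l - sp f g l ^ 2 := by
  simp only [nn, sp, ow]
  ring

/-- expansion of the value around a ray -/
theorem v0_rel : f.v0 l - f.v0 l' = f.N0 l' * (rl l l').Y0 + f.N1 l' * (rl l l').Y1 + f.κ * (rl l l').ζ -
    f.α * ((rl l l').Y0 ^ 2 + (rl l l').Y1 ^ 2) := by
  simp only [rl, Fu.N0, Fu.N1, Fu.v0]
  ring

/-- expansion of the increment around a ray -/
theorem v1_rel : f.v1 l - f.v1 l' = f.N0 l' * (rl l l').S0 + f.N1 l' * (rl l l').S1 +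
    f.κ * ((rl l l').S0 ^ 2 + (rl l l').S1 ^ 2) / 2 +
    2 * f.α * ((rl l l').ζ - ((rl l l').Y0 * (rl l l').S0 + (rl l l').Y1 * (rl l l').S1)) := by
  simp only [rl, Fu.N0, Fu.N1, Fu.v1]
  ring

/-- the value of `g` relative to `f` -/
theorem g0_rel : ow f g l' * (f.N0 l' * (rl l l').Y1 - f.N1 l' * (rl l l').Y0) + kh f g l' * (rl l l').ζ =
    ah f g l' * ((rl l l').Y0 ^ 2 + (rl l l').Y1 ^ 2) +
    (nn f l' * (g.v0 l - g.v0 l') - sp f g l' * (f.v0 l - f.v0 l')) := by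
  rw [v0_rel f, v0_rel g]
  simp only [kh, ah, nn, sp, ow]
  ring

/-- the increment of `g` relative to `f` -/
theorem g1_rel : ow f g l' * (f.N0 l' * (rl l l').S1 - f.N1 l' * (rl l l').S0) + 2 * ah f g l' * (rl l l').ζ =
    2 * ah f g l' * ((rl l l').Y0 * (rl l l').S0 + (rl l l').Y1 * (rl l l').S1) -
    kh f g l' * ((rl l l').S0 ^ 2 + (rl l l').S1 ^ 2) / 2 +
    (nn f l' * (g.v1 l - g.v1 l') - sp f g l' * (f.v1 l - f.v1 l')) := by
  rw [v1_rel f, v1_rel g]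
  simp only [kh, ah, nn, sp, ow]
  ring

/-- the difference of the own slopes -/
theorem ow_rel : nn f l' * (ow f g l - ow f g l') =
    kh f g l' * (f.N0 l' * (rl l l').S1 - f.N1 l' * (rl l l').S0) -
    2 * ah f g l' * (f.N0 l' * (rl l l').Y1 - f.N1 l' * (rl l l').Y0) +
    ow f g l' * (f.κ * (f.N0 l' * (rl l l').S0 + f.N1 l' * (rl l l').S1) -
      2 * f.α * (f.N0 l' * (rl l l').Y0 + f.N1 l' * (rl l l').Y1)) +
    2 * nn f l' * (f.κ * g.α - f.α * g.κ) * ((rl l l').Y0 * (rl l l').S1 - (rl l l').Y1 * (rl l l').S0) := by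
  simp only [kh, ah, nn, sp, ow, rl, Fu.N0, Fu.N1]
  ring

end

end Vale.Agent.P106.U.Cov5
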