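import Vale.Agent.P106.U.H543.Pair5

/-!
# P106 / U / H543 : two rays of two slabs, the linear inequalities (helper543)
-/

set_option autoImplicit false

namespace Vale.Agent.P106.U.Cov5

open Vale.Agent.P106.K

/-- position difference across the covector -/
def qA (f : Fu) (l l' : Ry) : ℝ := f.N0 l' * (rl l l').Y1 - f.N1 l' * (rl l l').Y0

/-- slope difference across the covector -/
def qB (f : Fu) (l l' : Ry) : ℝ := f.N0 l' * (rl l l').S1 - f.N1 l' * (rl l l').S0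

/-- position difference along the covector -/
def qC (f : Fu) (l l' : Ry) : ℝ := f.N0 l' * (rl l l').Y0 + f.N1 l' * (rl l l').Y1

/-- slope difference along the covector -/
def qD (f : Fu) (l l' : Ry) : ℝ := f.N0 l' * (rl l l').S0 + f.N1 l' * (rl l l').S1

/-- size of the difference -/
noncomputable def qs (f : Fu) (l l' : Ry) : ℝ := |qA f l l'| + |qB f l l'| + |qC f l l'| + |qD f l l'|

/-- the rays are `η`-close -/
def Near (η : ℝ) (l l' : Ry) : Prop :=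
  |(rl l l').Y0| ≤ η ∧ |(rl l l').Y1| ≤ η ∧ |(rl l l').S0| ≤ η ∧ |(rl l l').S1| ≤ η

section

variable {A c0 B ρ : ℝ} {f g : Fu} {h0 h1 h m η : ℝ} {l l' : Ry}

theorem qs_nonneg (f : Fu) (l l' : Ry) : 0 ≤ qs f l l' := by unfold qs; positivity

theorem Sb.Y_le (H : Sb B ρ f g h0 h1) (hl' : l' ∈ KK B ρ f g h0 h1) :
    |(rl l l').Y0| ≤ 3 * qs f l l' ∧ |(rl l l').Y1| ≤ 3 * qs f l l' := by
  have h1 := H.comp hl' (rl l l').Y0 (rl l l').Y1
  have hb := abs_nonneg (qB f l l')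
  have hd := abs_nonneg (qD f l l')
  have e : 3 * (|qA f l l'| + |qC f l l'|) ≤ 3 * qs f l l' := by
    unfold qs
    linarith
  exact ⟨h1.1.trans e, h1.2.trans e⟩

theorem Sb.S_le (H : Sb B ρ f g h0 h1) (hl' : l' ∈ KK B ρ f g h0 h1) :
    |(rl l l').S0| ≤ 3 * qs f l l' ∧ |(rl l l').S1| ≤ 3 * qs f l l' := by
  have h1 := H.comp hl' (rl l l').S0 (rl l l').S1
  have hb := abs_nonneg (qA f l l')
  have hd := abs_nonneg (qC f l l')
  have e : 3 * (|qB f l l'| + |qD f l l'|) ≤ 3 * qs f l l' := by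
    unfold qs
    linarith
  exact ⟨h1.1.trans e, h1.2.trans e⟩

/-- a quadratic form of small vectors -/
theorem quad {u0 u1 v0 v1 s η : ℝ} (a0 : |u0| ≤ η) (a1 : |u1| ≤ η) (b0 : |v0| ≤ 3 * s) (b1 : |v1| ≤ 3 * s)
    (a0' : |u0| ≤ 3 * s) (a1' : |u1| ≤ 3 * s) :
    |u0 * v0| + |u1 * v1| ≤ 6 * (η * s) ∧ |u0 * v0| + |u1 * v1| ≤ 18 * s ^ 2 := by
  have hη : 0 ≤ η := (abs_nonneg _).trans a0
  have hs : 0 ≤ 3 * s := (abs_nonneg _).trans b0
  have c0 := prod_le a0 b0 hη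
  have c1 := prod_le a1 b1 hη
  have d0 := prod_le a0' b0 hs
  have d1 := prod_le a1' b1 hs
  constructor
  · linarith
  · nlinarith

theorem Sb.quads (H : Sb B ρ f g h0 h1) (hl' : l' ∈ KK B ρ f g h0 h1) (hn : Near η l l') :
    (|(rl l l').Y0 ^ 2 + (rl l l').Y1 ^ 2| ≤ 6 * (η * qs f l l') ∧
      |(rl l l').Y0 ^ 2 + (rl l l').Y1 ^ 2| ≤ 18 * qs f l l' ^ 2) ∧
    (|(rl l l').S0 ^ 2 + (rl l l').S1 ^ 2| ≤ 6 * (η * qs f l l') ∧
      |(rl l l').S0 ^ 2 + (rl l l').S1 ^ 2| ≤ 18 * qs f l l' ^ 2) ∧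
    (|(rl l l').Y0 * (rl l l').S0 + (rl l l').Y1 * (rl l l').S1| ≤ 6 * (η * qs f l l') ∧
      |(rl l l').Y0 * (rl l l').S0 + (rl l l').Y1 * (rl l l').S1| ≤ 18 * qs f l l' ^ 2) ∧
    |(rl l l').Y0 * (rl l l').S1 - (rl l l').Y1 * (rl l l').S0| ≤ 6 * (η * qs f l l') := by
  obtain ⟨y0, y1⟩ := H.Y_le (l := l) hl'
  obtain ⟨s0, s1⟩ := H.S_le (l := l) hl'
  obtain ⟨n0, n1, n2, n3⟩ := hn
  have q1 := quad n0 n1 y0 y1 y0 y1
  have q2 := quad n2 n3 s0 s1 s0 s1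
  have q3 := quad n0 n1 s0 s1 y0 y1
  have q4 := quad n0 n1 s1 s0 y0 y1
  have t1 := abs_add_le ((rl l l').Y0 * (rl l l').Y0) ((rl l l').Y1 * (rl l l').Y1)
  have t2 := abs_add_le ((rl l l').S0 * (rl l l').S0) ((rl l l').S1 * (rl l l').S1)
  have t3 := abs_add_le ((rl l l').Y0 * (rl l l').S0) ((rl l l').Y1 * (rl l l').S1)
  have t4 := abs_sub ((rl l l').Y0 * (rl l l').S1) ((rl l l').Y1 * (rl l l').S0)
  have w1 : (rl l l').Y0 ^ 2 + (rl l l').Y1 ^ 2 = (rl l l').Y0 * (rl l l').Y0 + (rl l l').Y1 * (rl l l').Y1 := by ring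
  have w2 : (rl l l').S0 ^ 2 + (rl l l').S1 ^ 2 = (rl l l').S0 * (rl l l').S0 + (rl l l').S1 * (rl l l').S1 := by ring
  rw [w1, w2]
  exact ⟨⟨t1.trans q1.1, t1.trans q1.2⟩, ⟨t2.trans q2.1, t2.trans q2.2⟩, ⟨t3.trans q3.1, t3.trans q3.2⟩, t4.trans q4.1⟩

/-- differences of the values -/
theorem dv (hl : l ∈ KK B ρ f g h0 h1) (hl' : l' ∈ KK B ρ f g h0 h1) :
    |f.v0 l - f.v0 l'| ≤ 2 * (B * ρ) ∧ |f.v1 l - f.v1 l'| ≤ 2 * (B * ρ) ∧ |g.v0 l - g.v0 l'| ≤ 2 * (B * ρ) ∧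
      |g.v1 l - g.v1 l'| ≤ 2 * (B * ρ) := by
  obtain ⟨-, -, -, a0, a1, a2, a3⟩ := hl
  obtain ⟨-, -, -, b0, b1, b2, b3⟩ := hl'
  rw [abs_le] at a0 a1 a2 a3 b0 b1 b2 b3
  refine ⟨?_, ?_, ?_, ?_⟩ <;> rw [abs_le] <;> constructor <;> linarith

/-- [F0] -/
theorem Sb.F0 (H : Sb B ρ f g h0 h1) (hl : l ∈ KK B ρ f g h0 h1) (hl' : l' ∈ KK B ρ f g h0 h1) (hn : Near η l l') :
    |qC f l l'| ≤ 20 * B * (|(rl l l').ζ| + η * qs f l l' + ρ) := by
  have hB := H.B1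
  have e : qC f l l' = (f.v0 l - f.v0 l') - f.κ * (rl l l').ζ + f.α * ((rl l l').Y0 ^ 2 + (rl l l').Y1 ^ 2) := by
    rw [v0_rel]
    unfold qC
    ring
  have q := (H.quads hl' hn).1.1
  have d := (dv hl hl').1
  have p1 := prod_le H.fκ (le_refl |(rl l l').ζ|) (by linarith)
  have p2 := prod_le H.fα q (by linarith)
  have hη : 0 ≤ η := (abs_nonneg _).trans hn.1
  have x0 : 0 ≤ B * (η * qs f l l') := mul_nonneg (by linarith) (mul_nonneg hη (qs_nonneg _ _ _))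
  have x1 : 0 ≤ B * |(rl l l').ζ| := mul_nonneg (by linarith) (abs_nonneg _)
  have x2 : 0 ≤ B * ρ := mul_nonneg (by linarith) H.ρ0.le
  rw [e]
  rw [abs_le] at d p1 p2 ⊢
  constructor <;> linarith

/-- [F1] -/
theorem Sb.F1 (H : Sb B ρ f g h0 h1) (hl : l ∈ KK B ρ f g h0 h1) (hl' : l' ∈ KK B ρ f g h0 h1) (hn : Near η l l') :
    |qD f l l'| ≤ 20 * B * (|(rl l l').ζ| + η * qs f l l' + ρ) := by
  have hB := H.B1
  have e : qD f l l' = (f.v1 l - f.v1 l') - f.κ * ((rl l l').S0 ^ 2 + (rl l l').S1 ^ 2) / 2 -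
      2 * (f.α * (rl l l').ζ) + 2 * (f.α * ((rl l l').Y0 * (rl l l').S0 + (rl l l').Y1 * (rl l l').S1)) := by
    rw [v1_rel]
    unfold qD
    ring
  have q1 := (H.quads hl' hn).2.1.1
  have q2 := (H.quads hl' hn).2.2.1.1
  have d := (dv hl hl').2.1
  have p1 := prod_le H.fα (le_refl |(rl l l').ζ|) (by linarith)
  have p2 := prod_le H.fκ q1 (by linarith)
  have p3 := prod_le H.fα q2 (by linarith)
  have hη : 0 ≤ η := (abs_nonneg _).trans hn.1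
  have x0 : 0 ≤ B * (η * qs f l l') := mul_nonneg (by linarith) (mul_nonneg hη (qs_nonneg _ _ _))
  have x1 : 0 ≤ B * |(rl l l').ζ| := mul_nonneg (by linarith) (abs_nonneg _)
  have x2 : 0 ≤ B * ρ := mul_nonneg (by linarith) H.ρ0.le
  rw [e]
  rw [abs_le] at d p1 p2 p3 ⊢
  constructor <;> linarith

theorem Sb.err (H : Sb B ρ f g h0 h1) (hl' : l' ∈ KK B ρ f g h0 h1) {u v : ℝ} (hu : |u| ≤ 2 * (B * ρ))
    (hv : |v| ≤ 2 * (B * ρ)) : |nn f l' * u - sp f g l' * v| ≤ 27 * B ^ 3 * ρ := by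
  have hB := H.B1
  have hρ := H.ρ0
  have p1 : |nn f l' * u| ≤ 3 / 2 * (2 * (B * ρ)) := by
    apply prod_le _ hu (by norm_num)
    rw [abs_of_nonneg (by linarith [H.nn_lo hl'])]
    exact H.nn_hi hl'
  have p2 := prod_le (H.sp_le hl') hv (by positivity)
  have t := abs_sub (nn f l' * u) (sp f g l' * v)
  have e1 : 12 * B ^ 2 * (2 * (B * ρ)) = 24 * (B ^ 3 * ρ) := by ring
  have e2 : B * ρ ≤ B ^ 3 * ρ := by
    apply mul_le_mul_of_nonneg_right _ hρ.le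
    nlinarith [sq_nonneg B]
  linarith

/-- [G0], both forms -/
theorem Sb.G0 (H : Sb B ρ f g h0 h1) (hl : l ∈ KK B ρ f g h0 h1) (hl' : l' ∈ KK B ρ f g h0 h1) (hn : Near η l l') :
    |ow f g l' * qA f l l' + kh f g l' * (rl l l').ζ| ≤ 300 * B ^ 3 * (η * qs f l l' + ρ) ∧
    |ow f g l' * qA f l l' + kh f g l' * (rl l l').ζ| ≤ 300 * B ^ 3 * (qs f l l' ^ 2 + ρ) := by
  have hB := H.B1
  have hρ := H.ρ0
  have q := (H.quads hl' hn).1
  have d := dv hl hl'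
  have hη : 0 ≤ η := (abs_nonneg _).trans hn.1
  have x0 : 0 ≤ B ^ 3 * (η * qs f l l') := mul_nonneg (by positivity) (mul_nonneg hη (qs_nonneg _ _ _))
  have x1 : 0 ≤ B ^ 3 * qs f l l' ^ 2 := by positivity
  have x2 : 0 ≤ B ^ 3 * ρ := by positivity
  have e := g0_rel f g l l'
  have er := H.err hl' d.2.2.1 d.1
  have p1 := prod_le (H.ah_le hl') q.1 (by positivity)
  have p2 := prod_le (H.ah_le hl') q.2 (by positivity)
  unfold qA
  rw [e]
  constructor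
  · refine (abs_add_le _ _).trans ?_
    linarith
  · refine (abs_add_le _ _).trans ?_
    linarith

/-- [G1], both forms -/
theorem Sb.G1 (H : Sb B ρ f g h0 h1) (hl : l ∈ KK B ρ f g h0 h1) (hl' : l' ∈ KK B ρ f g h0 h1) (hn : Near η l l') :
    |ow f g l' * qB f l l' + 2 * ah f g l' * (rl l l').ζ| ≤ 700 * B ^ 3 * (η * qs f l l' + ρ) ∧
    |ow f g l' * qB f l l' + 2 * ah f g l' * (rl l l').ζ| ≤ 700 * B ^ 3 * (qs f l l' ^ 2 + ρ) := by
  have hB := H.B1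
  have hρ := H.ρ0
  obtain ⟨-, q1, q2, -⟩ := H.quads hl' hn
  have d := dv hl hl'
  have hη : 0 ≤ η := (abs_nonneg _).trans hn.1
  have x0 : 0 ≤ B ^ 3 * (η * qs f l l') := mul_nonneg (by positivity) (mul_nonneg hη (qs_nonneg _ _ _))
  have x1 : 0 ≤ B ^ 3 * qs f l l' ^ 2 := by positivity
  have x2 : 0 ≤ B ^ 3 * ρ := by positivity
  have e := g1_rel f g l l'
  have er := H.err hl' d.2.2.2 d.2.1
  have p1 := prod_le (H.ah_le hl') q2.1 (by positivity)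
  have p2 := prod_le (H.ah_le hl') q2.2 (by positivity)
  have p3 := prod_le (H.kh_le hl') q1.1 (by positivity)
  have p4 := prod_le (H.kh_le hl') q1.2 (by positivity)
  unfold qB
  rw [e]
  set Q2 := (rl l l').Y0 * (rl l l').S0 + (rl l l').Y1 * (rl l l').S1
  set Q1 := (rl l l').S0 ^ 2 + (rl l l').S1 ^ 2
  set E := nn f l' * (g.v1 l - g.v1 l') - sp f g l' * (f.v1 l - f.v1 l')
  have e2 : 2 * ah f g l' * Q2 - kh f g l' * Q1 / 2 + E = 2 * (ah f g l' * Q2) - (kh f g l' * Q1) / 2 + E := by ring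
  rw [e2]
  constructor
  · rw [abs_le] at er p1 p3 ⊢
    constructor <;> linarith
  · rw [abs_le] at er p2 p4 ⊢
    constructor <;> linarith

/-- [O] -/
theorem Dp.O (H : Dp A c0 B ρ f g h0 h1 h m) (hl : l ∈ KK B ρ f g h0 h1) (hl' : l' ∈ KK B ρ f g h0 h1)
    (hs : (0 ≤ ow f g l) = (0 ≤ ow f g l')) (hn : Near η l l') :
    |kh f g l' * qB f l l' - 2 * ah f g l' * qA f l l'| ≤
      3000 * A * B ^ 6 * (h + |qC f l l'| + |qD f l l'| + η * qs f l l') := by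
  have hB := H.B1
  have hA := H.A1
  have q := (H.quads hl' hn).2.2.2
  have hη : 0 ≤ η := (abs_nonneg _).trans hn.1
  have e := ow_rel f g l l'
  have c1 := H.ow_close hl hl' hs
  have c2 := H.ow_le hl'
  have e2 : kh f g l' * qB f l l' - 2 * ah f g l' * qA f l l' = nn f l' * (ow f g l - ow f g l') -
      ow f g l' * (f.κ * qD f l l') + 2 * (ow f g l' * (f.α * qC f l l')) -
      2 * (nn f l' * ((f.κ * g.α - f.α * g.κ) * ((rl l l').Y0 * (rl l l').S1 - (rl l l').Y1 * (rl l l').S0))) := by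
    rw [e]
    unfold qA qB qC qD
    ring
  have hnn : |nn f l'| ≤ 3 / 2 := by
    rw [abs_of_nonneg (by linarith [H.nn_lo hl'])]
    exact H.nn_hi hl'
  have p1 := prod_le hnn c1 (by norm_num)
  have p2 := prod_le c2 (prod_le H.fκ (le_refl |qD f l l'|) (by linarith)) (by positivity)
  have p3 := prod_le c2 (prod_le H.fα (le_refl |qC f l l'|) (by linarith)) (by positivity)
  have p4 : |f.κ * g.α - f.α * g.κ| ≤ 2 * B ^ 2 := by
    have a1 := prod_le H.fκ H.gα (by linarith)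
    have a2 := prod_le H.fα H.gκ (by linarith)
    have a3 := abs_sub (f.κ * g.α) (f.α * g.κ)
    nlinarith
  have p5 := prod_le hnn (prod_le p4 q (by positivity)) (by norm_num)
  have B3 : B ^ 3 ≤ A * B ^ 6 := by
    have b1 : B ^ 3 ≤ B ^ 6 := H.B1' 3 6 (by norm_num)
    have b2 : 0 ≤ B ^ 6 := by positivity
    nlinarith
  have B2 : B ^ 2 ≤ A * B ^ 6 := by
    have b1 : B ^ 2 ≤ B ^ 6 := H.B1' 2 6 (by norm_num)
    have b2 : 0 ≤ B ^ 6 := by positivity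
    nlinarith
  have x1 := mul_le_mul_of_nonneg_right B3 (abs_nonneg (qC f l l'))
  have x2 := mul_le_mul_of_nonneg_right B3 (abs_nonneg (qD f l l'))
  have x3 := mul_le_mul_of_nonneg_right B2 (mul_nonneg hη (qs_nonneg f l l'))
  have x4 : 0 ≤ A * B ^ 6 * |qC f l l'| := by positivity
  have x5 : 0 ≤ A * B ^ 6 * |qD f l l'| := by positivity
  have x6 : 0 ≤ A * B ^ 6 * h := by have := H.h0p; positivity
  have x7 : 0 ≤ A * B ^ 6 * (η * qs f l l') := by have := qs_nonneg f l l'; positivity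
  have y1 : 3 / 2 * (1600 * B ^ 6 * A * h) = 2400 * (A * B ^ 6 * h) := by ring
  have y2 : 12 * B ^ 2 * (B * |qD f l l'|) = 12 * (B ^ 3 * |qD f l l'|) := by ring
  have y3 : 12 * B ^ 2 * (B * |qC f l l'|) = 12 * (B ^ 3 * |qC f l l'|) := by ring
  have y4 : 3 / 2 * (2 * B ^ 2 * (6 * (η * qs f l l'))) = 18 * (B ^ 2 * (η * qs f l l')) := by ring
  rw [y1] at p1
  rw [y2] at p2
  rw [y3] at p3
  rw [y4] at p5
  have y5 : 3000 * A * B ^ 6 * (h + |qC f l l'| + |qD f l l'| + η * qs f l l') = 3000 * (A * B ^ 6 * h) +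
      3000 * (A * B ^ 6 * |qC f l l'|) + 3000 * (A * B ^ 6 * |qD f l l'|) + 3000 * (A * B ^ 6 * (η * qs f l l')) := by
    ring
  rw [e2, y5]
  rw [abs_le] at p1 p2 p3 p5 ⊢
  constructor <;> linarith

end

end Vale.Agent.P106.U.Cov5
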