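import Vale.Agent.P106.U.H543.Geo5

/-!
# P106 / U / H543 : two rays of two slabs (helper543)
-/

set_option autoImplicit false

namespace Vale.Agent.P106.U.Cov5

open Vale.Agent.P106.K

/-- data of the covering lemma -/
structure Dp (A c0 B ρ : ℝ) (f g : Fu) (h0 h1 h m : ℝ) : Prop extends Sb B ρ f g h0 h1 where
  A1 : 1 ≤ A
  c0p : 0 < c0
  c01 : c0 ≤ 1
  h0p : 0 < h
  h1p : h ≤ 1
  m0 : 0 ≤ m
  m2 : m ^ 2 = max (Del f g h0 h1) ρ
  up : h * m ≤ A * ρ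
  lo : ρ ≤ A * (h * m)
  ρc : 1600 * B ^ 6 * ρ ≤ c0 ^ 2

/-- the constant -/
noncomputable def KC (A c0 B : ℝ) : ℝ := 10000 * A * B ^ 6 / c0

section

variable {A c0 B ρ : ℝ} {f g : Fu} {h0 h1 h m : ℝ} {l l' : Ry}

theorem Dp.B1' (H : Dp A c0 B ρ f g h0 h1 h m) (i j : ℕ) (hij : i ≤ j) : B ^ i ≤ B ^ j :=
  pow_le_pow_right₀ H.B1 hij

theorem Dp.KC_ge (H : Dp A c0 B ρ f g h0 h1 h m) : 10000 * A * B ^ 6 ≤ KC A c0 B := by
  unfold KC
  rw [le_div_iff₀ H.c0p]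
  have h1 := H.A1
  have h2 := H.B1
  have h3 := H.c01
  have : 0 ≤ 10000 * A * B ^ 6 := by positivity
  nlinarith

theorem Dp.KC_c0 (H : Dp A c0 B ρ f g h0 h1 h m) : 10000 ≤ KC A c0 B * c0 := by
  unfold KC
  rw [div_mul_cancel₀ _ H.c0p.ne']
  have h1 := H.A1
  have h2 : (1 : ℝ) ≤ B ^ 6 := one_le_pow₀ H.B1
  nlinarith

theorem Dp.KC_B (H : Dp A c0 B ρ f g h0 h1 h m) (i : ℕ) (hi : i ≤ 6) : 10000 * B ^ i ≤ KC A c0 B := by
  refine le_trans ?_ H.KC_ge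
  have h1 := H.A1
  have h2 := H.B1' i 6 hi
  have h3 : 0 ≤ B ^ 6 := by have := H.B1; positivity
  nlinarith

theorem Dp.m_pos (H : Dp A c0 B ρ f g h0 h1 h m) : 0 < m := by
  have h1 : ρ ≤ m ^ 2 := by rw [H.m2]; exact le_max_right _ _
  have h2 := H.ρ0
  rcases H.m0.eq_or_lt with h3 | h3
  · rw [← h3] at h1
    norm_num at h1
    linarith
  · exact h3

theorem Dp.ρm (H : Dp A c0 B ρ f g h0 h1 h m) : ρ ≤ m ^ 2 := by rw [H.m2]; exact le_max_right _ _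

theorem Dp.Dm (H : Dp A c0 B ρ f g h0 h1 h m) : Del f g h0 h1 ≤ m ^ 2 := by rw [H.m2]; exact le_max_left _ _

/-- the size of the own slope -/
theorem Dp.ow_m (H : Dp A c0 B ρ f g h0 h1 h m) (hl : l ∈ KK B ρ f g h0 h1) : |ow f g l| ≤ 21 * B ^ 3 * m := by
  have hB := H.B1
  have e1 := H.ow_near hl
  have e2 := H.ρm
  have e3 := H.Dm
  have e4 := H.m_pos
  have B0 : (1 : ℝ) ≤ B ^ 6 := one_le_pow₀ hB
  rw [abs_le] at e1
  have e5 : ow f g l ^ 2 ≤ (21 * B ^ 3 * m) ^ 2 := by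
    have e6 : (21 * B ^ 3 * m) ^ 2 = 441 * (B ^ 6 * m ^ 2) := by ring
    have e7 : B ^ 6 * ρ ≤ B ^ 6 * m ^ 2 := mul_le_mul_of_nonneg_left e2 (by positivity)
    have e8 : m ^ 2 ≤ B ^ 6 * m ^ 2 := le_mul_of_one_le_left (by positivity) B0
    rw [e6]
    have e9 : 400 * B ^ 6 * ρ = 400 * (B ^ 6 * ρ) := by ring
    linarith
  exact abs_le_of_sq_le_sq e5 (by positivity)

/-- size of `m` -/
theorem Dp.m_le (H : Dp A c0 B ρ f g h0 h1 h m) : m ≤ 7 * B ^ 2 := by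
  have hB := H.B1
  have a1 : Del f g h0 h1 ≤ 8 * B ^ 4 := by
    unfold Del sig
    have t0 := sq_nonneg (tau f g h0 h1)
    have b1 := pow_le_pow_left₀ (abs_nonneg _) H.g0 2
    have b2 := pow_le_pow_left₀ (abs_nonneg _) H.g1 2
    rw [sq_abs] at b1 b2
    have b3 := prod_le H.gκ H.o1 (by linarith)
    have b4 := prod_le H.gα H.o0 (by linarith)
    rw [abs_le] at b3 b4
    have b5 := H.B1' 2 4 (by norm_num)
    have b6 : B * B = B ^ 2 := by ring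
    rw [b6] at b3 b4
    linarith
  have a2 : m ^ 2 ≤ (7 * B ^ 2) ^ 2 := by
    rw [H.m2]
    apply max_le
    · have : (7 * B ^ 2) ^ 2 = 49 * B ^ 4 := by ring
      have : 0 ≤ B ^ 4 := by positivity
      linarith
    · have b1 := H.ρs
      have b2 := H.ρ0
      have b3 : (1 : ℝ) ≤ B ^ 2 := one_le_pow₀ hB
      have b4 : ρ ≤ 1 := by nlinarith
      have b5 : (1 : ℝ) ≤ B ^ 4 := one_le_pow₀ hB
      have : (7 * B ^ 2) ^ 2 = 49 * B ^ 4 := by ring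
      linarith
  have := abs_le_of_sq_le_sq a2 (by positivity)
  exact (le_abs_self m).trans this

/-- difference of two own slopes of the same sign -/
theorem own_diff' {u v Δ ρ m K : ℝ} (hu : |u ^ 2 - Δ| ≤ K * ρ) (hv : |v ^ 2 - Δ| ≤ K * ρ) (huv : 0 ≤ u * v) (hρ : 0 < ρ)
    (hK : 1 ≤ K) (hm0 : 0 ≤ m) (hm : m ^ 2 = max Δ ρ) : |u - v| * m ≤ 4 * K * ρ := by
  rw [abs_le] at hu hv
  have hab : |u - v| * |u + v| ≤ 2 * K * ρ := by
    rw [← abs_mul, abs_le]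
    constructor <;> nlinarith
  have ha := abs_nonneg (u - v)
  have hb := abs_nonneg (u + v)
  have ea := sq_abs (u - v)
  have eb := sq_abs (u + v)
  have hKρ : 0 < K * ρ := by positivity
  have h1 : |u - v| ≤ |u + v| := by
    apply sq_le_sq.1
    nlinarith
  rcases le_total (2 * (K * ρ)) Δ with h | h
  · have h2 : m ^ 2 = Δ := by
      rw [hm]
      apply max_eq_left
      nlinarith
    have h3 : m ≤ 2 * |u + v| := by
      have : m ^ 2 ≤ (2 * |u + v|) ^ 2 := by nlinarith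
      exact (abs_le_of_sq_le_sq' this (by positivity)).2
    nlinarith
  · have h2 : m ^ 2 ≤ 2 * (K * ρ) := by
      rw [hm]
      exact max_le h (by nlinarith)
    have h3 : |u - v| ^ 2 ≤ 2 * (K * ρ) := by nlinarith
    have h4 : (|u - v| * m) ^ 2 ≤ (2 * (K * ρ)) ^ 2 := by
      rw [mul_pow]
      have := mul_le_mul h3 h2 (by positivity) (by positivity)
      nlinarith
    have := (abs_le_of_sq_le_sq' h4 (by positivity)).2
    linarith

theorem Dp.ow_close (H : Dp A c0 B ρ f g h0 h1 h m) (hl : l ∈ KK B ρ f g h0 h1) (hl' : l' ∈ KK B ρ f g h0 h1)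
    (hs : (0 ≤ ow f g l) = (0 ≤ ow f g l')) : |ow f g l - ow f g l'| ≤ 1600 * B ^ 6 * A * h := by
  have h1' : 0 ≤ ow f g l * ow f g l' := by
    by_cases h0 : 0 ≤ ow f g l
    · exact mul_nonneg h0 (hs ▸ h0)
    · have h0' : ¬ 0 ≤ ow f g l' := hs ▸ h0
      push Not at h0 h0'
      exact (mul_pos_of_neg_of_neg h0 h0').le
  have hK : 1 ≤ 400 * B ^ 6 := by
    have : (1 : ℝ) ≤ B ^ 6 := one_le_pow₀ H.B1
    linarith
  have h2 := own_diff' (H.ow_near hl) (H.ow_near hl') h1' H.ρ0 hK H.m0 H.m2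
  have h3 := H.m_pos
  have h4 := H.lo
  have h6 : 0 ≤ B ^ 6 := by have := H.B1; positivity
  have h5 : |ow f g l - ow f g l'| * m ≤ 1600 * B ^ 6 * A * h * m := by
    have : 4 * (400 * B ^ 6) * ρ ≤ 4 * (400 * B ^ 6) * (A * (h * m)) := mul_le_mul_of_nonneg_left h4 (by positivity)
    calc _ ≤ _ := h2
      _ ≤ _ := this
      _ = _ := by ring
  exact le_of_mul_le_mul_right h5 h3

end

end Vale.Agent.P106.U.Cov5
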