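import Vale.Agent.P106.U.H543.Cov5

/-!
# P106 / U / H543 : the choice of `p` in the covering lemma for two slabs (helper543)

`meet5` : two slabs of thickness `B C' 2^-X` around light rays of `ℝ^{3+1}` which do not agree better meet in at most
`N 2^(3 p - X)` planks `K.pl p`, with `p ≤ X ≤ 2 p + N`.
-/

set_option autoImplicit false

namespace Vale.Agent.P106.U.Cov5

open Finset Vale.Agent.P106.K Vale.Agent.P127.Stk Vale.Agent.P127.Stk.Bs Vale.Agent.P127.U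

/-- `Sb` without the smallness of `ρ` -/
structure Sb0 (B : ℝ) (f g : Fu) (h0 h1 : ℝ) : Prop where
  B1 : 1 ≤ B
  n2 : f.n0 ^ 2 + f.n1 ^ 2 = 1
  fκ : |f.κ| ≤ B
  fα : |f.α| ≤ B
  g0 : |g.n0| ≤ B
  g1 : |g.n1| ≤ B
  gκ : |g.κ| ≤ B
  gα : |g.α| ≤ B
  o0 : |h0| ≤ B
  o1 : |h1| ≤ B

theorem Sb0.Del_le {B : ℝ} {f g : Fu} {h0 h1 : ℝ} (H : Sb0 B f g h0 h1) : Del f g h0 h1 ≤ 8 * B ^ 2 := by
  have hB := H.B1
  have a0 : g.n0 ^ 2 ≤ B ^ 2 := sq_le_sq' (abs_le.1 H.g0).1 (abs_le.1 H.g0).2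
  have a1 : g.n1 ^ 2 ≤ B ^ 2 := sq_le_sq' (abs_le.1 H.g1).1 (abs_le.1 H.g1).2
  have a2 := prod_le H.gκ H.o1 (by linarith)
  have a3 := prod_le H.gα H.o0 (by linarith)
  rw [abs_le] at a2 a3
  unfold Del sig
  nlinarith [sq_nonneg (tau f g h0 h1)]

/-- the rays of a bounded set are in a bounded number of planks of level `0` -/
theorem pl0 (B : ℝ) : ∃ U : Finset ((Fin 2 → ℤ) × (Fin 2 → ℤ) × ℤ), ∀ l : Ry, (∀ k, |l.y k| ≤ B) → (∀ k, |l.s k| ≤ B) →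
    |l.z| ≤ B → pl 0 l ∈ U := by
  classical
  refine ⟨(Fintype.piFinset fun _ : Fin 2 => Icc (-((⌈B⌉₊ * 2 ^ 0 : ℕ) : ℤ)) ((⌈B⌉₊ * 2 ^ 0 : ℕ) : ℤ)) ×ˢ
    ((Fintype.piFinset fun _ : Fin 2 => Icc (-((⌈B⌉₊ * 2 ^ 0 : ℕ) : ℤ)) ((⌈B⌉₊ * 2 ^ 0 : ℕ) : ℤ)) ×ˢ
      Icc (-((⌈3 * B⌉₊ * 2 ^ 0 : ℕ) : ℤ)) ((⌈3 * B⌉₊ * 2 ^ 0 : ℕ) : ℤ)), ?_⟩
  intro l hy hs hz
  have hB : 0 ≤ B := (abs_nonneg _).trans hz
  rw [pl_eq, mem_product, mem_product, Fintype.mem_piFinset, Fintype.mem_piFinset]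
  refine ⟨fun k => fl1_range' 0 _ ((hs k).trans (Nat.le_ceil _)), fun k => fl1_range' 0 _ ((hy k).trans (Nat.le_ceil _)),
    fl1_range' 0 _ (le_trans ?_ (Nat.le_ceil _))⟩
  have h1 : ∀ k : Fin 2, |l.y k * (l.s k - (fl 0 l.s k : ℝ) / 2 ^ 0)| ≤ B := by
    intro k
    have h2 := Int.floor_le ((2 : ℝ) ^ 0 * l.s k)
    have h3 := Int.lt_floor_add_one ((2 : ℝ) ^ 0 * l.s k)
    have h4 : |l.s k - (fl 0 l.s k : ℝ) / 2 ^ 0| ≤ 1 := by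
      rw [abs_le]
      unfold fl
      simp only [pow_zero, one_mul, div_one] at h2 h3 ⊢
      constructor <;> linarith
    have := prod_le (hy k) h4 hB
    linarith
  have a0 := h1 0
  have a1 := h1 1
  unfold tz
  rw [Fin.sum_univ_two]
  rw [abs_le] at a0 a1 hz ⊢
  constructor <;> linarith

/-- **the covering lemma for two slabs, with the choice of `p`** -/
theorem meet5 (B C' c0 : ℝ) (hC' : 0 < C') (hc0 : 0 < c0) (hc1 : c0 ≤ 1) : ∃ N : ℕ, ∀ (f g : Fu) (h0 h1 : ℝ) (X : ℕ),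
    Sb0 B f g h0 h1 →
    (c0 ^ 2 ≤ Del f g h0 h1 ∨ c0 ≤ |g.κ - tau f g h0 h1 * f.κ| ∨ c0 ≤ |g.α - tau f g h0 h1 * f.α|) →
    ∃ p : ℕ, p ≤ X ∧ X ≤ 2 * p + N ∧ ∃ U : Finset ((Fin 2 → ℤ) × (Fin 2 → ℤ) × ℤ), U.card * 2 ^ X ≤ N * 2 ^ (3 * p) ∧
      ∀ l ∈ KK B (C' * (1 / 2) ^ X) f g h0 h1, pl p l ∈ U := by
  classical
  set A : ℝ := 2 + 3 * B / C' with hA
  obtain ⟨C, hC, hcov⟩ := cov5 A B c0
  obtain ⟨U0, hU0⟩ := pl0 B
  set Y : ℝ := 12 * B ^ 2 * C' + 1600 * B ^ 6 * C' / c0 ^ 2 with hY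
  obtain ⟨X0, hX0⟩ : ∃ X0 : ℕ, Y < 2 ^ X0 := pow_unbounded_of_one_lt _ (by norm_num)
  obtain ⟨K, hK⟩ : ∃ K : ℕ, 4 * C' < 2 ^ K := pow_unbounded_of_one_lt _ (by norm_num)
  refine ⟨X0 + K + U0.card * 2 ^ X0 + ⌈C * C'⌉₊, ?_⟩
  intro f g h0 h1 X H hc
  rcases le_or_gt X X0 with hX | hX
  · refine ⟨0, Nat.zero_le _, by omega, U0, ?_, fun l hl => hU0 l hl.1 hl.2.1 hl.2.2.1⟩
    rw [mul_zero, pow_zero, mul_one]
    have : U0.card * 2 ^ X ≤ U0.card * 2 ^ X0 := Nat.mul_le_mul_left _ (Nat.pow_le_pow_right (by norm_num) hX)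
    omega
  have hB := H.B1
  set ρ : ℝ := C' * (1 / 2) ^ X with hρ
  have hρ0 : 0 < ρ := by positivity
  have hYρ : Y * (1 / 2 : ℝ) ^ X ≤ 1 := by
    rw [one_div, inv_pow, ← div_eq_mul_inv, div_le_one (by positivity)]
    exact hX0.le.trans (pow_le_pow_right₀ (by norm_num) hX.le)
  have hs1 : 12 * B ^ 2 * ρ ≤ 1 := by
    refine le_trans ?_ hYρ
    have : 0 ≤ 1600 * B ^ 6 * C' / c0 ^ 2 * (1 / 2 : ℝ) ^ X := by positivity
    rw [hρ, hY]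
    linarith
  have hs2 : 1600 * B ^ 6 * ρ ≤ c0 ^ 2 := by
    have h1 : 1600 * B ^ 6 * C' / c0 ^ 2 * (1 / 2 : ℝ) ^ X ≤ 1 := by
      refine le_trans ?_ hYρ
      have : 0 ≤ 12 * B ^ 2 * C' * (1 / 2 : ℝ) ^ X := by positivity
      rw [hY]
      linarith
    have h2 : 1600 * B ^ 6 * ρ = 1600 * B ^ 6 * C' / c0 ^ 2 * (1 / 2 : ℝ) ^ X * c0 ^ 2 := by
      rw [hρ]
      field_simp
    rw [h2]
    nlinarith [sq_nonneg c0]
  set m : ℝ := Real.sqrt (max (Del f g h0 h1) ρ) with hm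
  have hmx : 0 ≤ max (Del f g h0 h1) ρ := hρ0.le.trans (le_max_right _ _)
  have hm2 : m ^ 2 = max (Del f g h0 h1) ρ := Real.sq_sqrt hmx
  have hm0 : 0 ≤ m := Real.sqrt_nonneg _
  have hρ1 : ρ ≤ 1 := by nlinarith [one_le_pow₀ (n := 2) hB]
  have hmρ : ρ ≤ m ^ 2 := hm2 ▸ le_max_right _ _
  have hmp : 0 < m := by
    rcases hm0.eq_or_lt with h | h
    · rw [← h] at hmρ
      linarith
    · exact h
  have hmB : m ≤ 3 * B := by
    have h1 : m ^ 2 ≤ (3 * B) ^ 2 := by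
      rw [hm2]
      refine max_le (H.Del_le.trans ?_) ?_
      · nlinarith
      · nlinarith [one_le_pow₀ (n := 2) hB]
    exact le_of_sq_le_sq h1 (by linarith)
  have hρm : ρ ≤ m := by
    have h1 : ρ ^ 2 ≤ m ^ 2 := by nlinarith
    exact le_of_sq_le_sq h1 hm0
  -- the level
  obtain ⟨q, hq1, hq2⟩ : ∃ q : ℕ, (2 : ℝ) ^ q ≤ m / ρ ∧ m / ρ < 2 ^ (q + 1) :=
    exists_nat_pow_near ((one_le_div hρ0).2 hρm) (by norm_num)
  rw [le_div_iff₀ hρ0] at hq1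
  rw [div_lt_iff₀ hρ0] at hq2
  have hq3 : m < 2 * (2 ^ q * ρ) := by rw [pow_succ] at hq2; linarith
  set p : ℕ := min q X with hp
  have hpX : p ≤ X := min_le_right _ _
  have h2p : (0 : ℝ) < 2 ^ p := by positivity
  have ehp : (1 / 2 : ℝ) ^ p = 1 / 2 ^ p := by rw [div_pow, one_pow]
  have hA2 : (2 : ℝ) ≤ A := by
    have : 0 ≤ 3 * B / C' := by positivity
    rw [hA]
    linarith
  have hlo : ρ ≤ A * ((1 / 2 : ℝ) ^ p * m) := by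
    have h1 : (2 : ℝ) ^ p ≤ 2 ^ q := pow_le_pow_right₀ (by norm_num) (min_le_left _ _)
    have h2 : ρ ≤ (1 / 2 : ℝ) ^ p * m := by
      rw [ehp, one_div_mul_eq_div, le_div_iff₀ h2p]
      nlinarith
    have h3 : 0 ≤ (1 / 2 : ℝ) ^ p * m := by positivity
    nlinarith
  have hup : (1 / 2 : ℝ) ^ p * m ≤ A * ρ := by
    rw [ehp, one_div_mul_eq_div, div_le_iff₀ h2p]
    rcases le_total q X with h | h
    · rw [hp, min_eq_left h]
      have h3 : 0 < ρ * 2 ^ q := by positivity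
      have h4 : 2 * (ρ * 2 ^ q) ≤ A * (ρ * 2 ^ q) := mul_le_mul_of_nonneg_right hA2 h3.le
      linarith
    · rw [hp, min_eq_right h, hρ]
      have h3 : A * (C' * (1 / 2) ^ X) * 2 ^ X = A * C' := by
        rw [one_div, inv_pow]
        field_simp
      rw [h3, hA, add_mul, div_mul_cancel₀ _ hC'.ne']
      nlinarith
  have hX2 : X ≤ 2 * p + K := by
    have h1 : ρ ≤ 4 * (2 ^ (2 * p) * ρ ^ 2) ∨ X ≤ p := by
      rcases le_total q X with h | h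
      · left
        rw [hp, min_eq_left h]
        have h3 : m ^ 2 ≤ (2 * (2 ^ q * ρ)) ^ 2 := pow_le_pow_left₀ hm0 hq3.le 2
        calc ρ ≤ m ^ 2 := hmρ
          _ ≤ _ := h3
          _ = _ := by rw [mul_comm 2 q, pow_mul]; ring
      · right
        rw [hp, min_eq_right h]
    rcases h1 with h1 | h1
    · have h2 : 1 ≤ 4 * (2 ^ (2 * p) * ρ) := by
        have h3 : ρ * 1 ≤ ρ * (4 * (2 ^ (2 * p) * ρ)) := by
          calc ρ * 1 = ρ := mul_one _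
            _ ≤ _ := h1
            _ = _ := by ring
        exact le_of_mul_le_mul_left h3 hρ0
      have h4 : (2 : ℝ) ^ X ≤ 4 * C' * 2 ^ (2 * p) := by
        calc (2 : ℝ) ^ X = 2 ^ X * 1 := (mul_one _).symm
          _ ≤ 2 ^ X * (4 * (2 ^ (2 * p) * ρ)) := by gcongr
          _ = 4 * C' * 2 ^ (2 * p) * ((1 / 2) ^ X * 2 ^ X) := by rw [hρ]; ring
          _ = _ := by rw [← mul_pow, one_div_mul_cancel (by norm_num), one_pow, mul_one]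
      have h5 : (2 : ℝ) ^ X < 2 ^ (2 * p + K) := by
        calc (2 : ℝ) ^ X ≤ 4 * C' * 2 ^ (2 * p) := h4
          _ < 2 ^ K * 2 ^ (2 * p) := by gcongr
          _ = _ := by rw [← pow_add, add_comm]
      exact ((pow_lt_pow_iff_right₀ (by norm_num : (1 : ℝ) < 2)).1 h5).le
    · omega
  have hDp : Dp A c0 B ρ f g h0 h1 ((1 / 2 : ℝ) ^ p) m :=
    { B1 := H.B1, n2 := H.n2, fκ := H.fκ, fα := H.fα, g0 := H.g0, g1 := H.g1, gκ := H.gκ, gα := H.gα, o0 := H.o0,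
      o1 := H.o1, ρ0 := hρ0, ρs := hs1, A1 := by linarith, c0p := hc0, c01 := hc1, h0p := by positivity,
      h1p := pow_le_one₀ (by norm_num) (by norm_num), m0 := hm0, m2 := hm2, up := hup, lo := hlo, ρc := hs2 }
  obtain ⟨U, hU, hU'⟩ := hcov f g h0 h1 ρ m p hDp (by
    rcases hc with hc | hc
    · left
      refine le_of_sq_le_sq ?_ hm0
      rw [hm2]
      exact hc.trans (le_max_left _ _)
    · exact Or.inr hc)
  refine ⟨p, hpX, by omega, U, ?_, hU'⟩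
  have h1 : (U.card : ℝ) * 2 ^ X ≤ C * C' * 2 ^ (3 * p) := by
    calc (U.card : ℝ) * 2 ^ X ≤ C * ρ * 2 ^ (3 * p) * 2 ^ X := by gcongr
      _ = C * C' * 2 ^ (3 * p) * ((1 / 2) ^ X * 2 ^ X) := by rw [hρ]; ring
      _ = _ := by rw [← mul_pow, one_div_mul_cancel (by norm_num), one_pow, mul_one]
  have h2 : C * C' ≤ (⌈C * C'⌉₊ : ℝ) := Nat.le_ceil _
  have h3 : (U.card : ℝ) * 2 ^ X ≤ (⌈C * C'⌉₊ : ℝ) * 2 ^ (3 * p) := h1.trans (by gcongr)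
  have h4 : U.card * 2 ^ X ≤ ⌈C * C'⌉₊ * 2 ^ (3 * p) := by exact_mod_cast h3
  exact h4.trans (Nat.mul_le_mul_right _ (by omega))

end Vale.Agent.P106.U.Cov5
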