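import Vale.Agent.P106.U.H543.GrowR
import Vale.Agent.P106.U.H465.Meet
import Vale.Agent.P127.U.PLa

/-!
# P106 / U / H543 : the TOP PIECE of the RISE lemma (helper543)

* `mi_top` : abstract Shannon.
* `planks` : the planks `pl p` of the rays of a natural ball of level `0`.
* `meetX` : two boxes of shape `(0, q)`, `(0, R)` whose frames do not agree up to `2^(X - 1 - R)` at a common ray meet in at most
  `N 2^(3 p - X)` planks of some level `p ≤ X`.
* `top` : **TOP PIECE**.  If the letter `D` gives, with `(W, t_h, C, G, E)`, a box of shape `(0, R)` around the ray which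
  does not agree with `W` up to `2^(X - 1 - R)`, then `X log 2 ≤ I(D ; l | W, t_h, C, G, E) + 4 X P(bad) + small`.
-/

set_option autoImplicit false

namespace Vale.Agent.P106.U.Top543

open Finset Vale.Agent.P127 Vale.Agent.P127.Stk Vale.Agent.P127.U Vale.Agent.P106.W Vale.Agent.P106.K Vale.Agent.P106.U
open Vale.Agent.P106.U.H428 Vale.Agent.P106.U.G480 Vale.Agent.P106.U.GR543

/-- abstract Shannon: the last piece of the chain -/
theorem mi_top {Ω : Type} [Fintype Ω] {S T U V : Type*} (P : Law Ω) (D : Ω → T) (l : Ω → S) (K : Ω → U) (p : Ω → ℕ)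
    (Y : Ω → V) (hp : Fn P p (fun ω => (D ω, K ω))) (hY : Fn P Y (fun ω => (l ω, (p ω, K ω)))) :
    Stk.hc P Y (fun ω => (p ω, K ω)) - Stk.hc P Y (fun ω => (D ω, K ω)) ≤ Stk.mi P D l K := by
  have h1 := mi_cond_le P l K hp
  have h2 : mi P D Y (fun ω => (p ω, K ω)) ≤ mi P D l (fun ω => (p ω, K ω)) := mi_mono_right P D hY
  have h3 : mi P D Y (fun ω => (p ω, K ω)) = mi P Y D (fun ω => (p ω, K ω)) := mi_symm P _ _ _
  have h4 : mi P Y D (fun ω => (p ω, K ω)) = hc P Y (fun ω => (p ω, K ω)) - hc P Y (fun ω => (D ω, (p ω, K ω))) := rfl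
  have h5 : hc P Y (fun ω => (D ω, (p ω, K ω))) ≤ hc P Y (fun ω => (D ω, K ω)) :=
    hc_mono_right P Y fun ω ω' _ _ e => by
      simp only [Prod.mk.injEq] at e ⊢
      exact ⟨e.1, e.2.2⟩
  linarith

/-- **the chain with the last piece** -/
theorem mi_last {Ω : Type} [Fintype Ω] {S T U V : Type*} (P : Law Ω) (D : Ω → T) (l : Ω → S) (K : Ω → U) (J : Ω → V)
    (hJ : Fn P J K) : mi P D K J + mi P D l K ≤ hc P D J := by
  have h1 := mi_pair P D K l J
  have h2 : mi P D l (fun ω => (K ω, J ω)) = mi P D l K :=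
    mi_congr_cond P D l (fun ω ω' _ _ e => Prod.ext e (hJ ω ω' (by assumption) (by assumption) e))
      (fun ω ω' _ _ e => congrArg Prod.fst e)
  have h3 := mi_le_hc P D (fun ω => (K ω, l ω)) J
  linarith

/-- **the planks of a natural ball** -/
theorem planks (c : ℝ) (hc : 0 ≤ c) : ∃ N : ℕ, 0 < N ∧ ∀ (p : ℕ) (m' : Ry), ∃ Q : Finset Cell, Q.card ≤ N * 2 ^ (6 * p) ∧
    ∀ m, Nr c 0 m m' → pl p m ∈ Q := by
  obtain ⟨N, hN⟩ := exists_nat_ge (c + 2 * c * (c + 1))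
  have hEN : c ≤ N := by nlinarith [mul_nonneg hc (by linarith : (0:ℝ) ≤ c + 1)]
  refine ⟨(2 * N + 3) ^ 5, by positivity, fun p m' => ?_⟩
  let g : (Fin 2 → ℤ) → ℤ := fun x => fl1 (2 * p) (m'.z + ∑ k, m'.y k * (m'.s k - (x k : ℝ) / 2 ^ p))
  refine ⟨((Iv (N * 2 ^ p) (fl p m'.s)) ×ˢ (Iv (N * 2 ^ p) (fl p m'.y))).biUnion fun x =>
    (Iz (N * 2 ^ (2 * p)) (g x.1)).image fun w => (x.1, x.2, w), ?_, fun m hm => ?_⟩
  · refine Finset.card_biUnion_le.trans ?_
    have a1 : 2 * (N * 2 ^ p) + 3 ≤ (2 * N + 3) * 2 ^ p := by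
      have : 1 ≤ 2 ^ p := Nat.one_le_two_pow
      nlinarith
    have a2 : 2 * (N * 2 ^ (2 * p)) + 3 ≤ (2 * N + 3) * 2 ^ (2 * p) := by
      have : 1 ≤ 2 ^ (2 * p) := Nat.one_le_two_pow
      nlinarith
    calc ∑ x ∈ (Iv (N * 2 ^ p) (fl p m'.s)) ×ˢ (Iv (N * 2 ^ p) (fl p m'.y)),
          ((Iz (N * 2 ^ (2 * p)) (g x.1)).image fun w => (x.1, x.2, w)).card
        ≤ ∑ x ∈ (Iv (N * 2 ^ p) (fl p m'.s)) ×ˢ (Iv (N * 2 ^ p) (fl p m'.y)), (2 * (N * 2 ^ (2 * p)) + 3) := by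
          refine Finset.sum_le_sum fun x _ => ?_
          exact Finset.card_image_le.trans (Iz_card _ _).le
      _ = (2 * (N * 2 ^ p) + 3) ^ 4 * (2 * (N * 2 ^ (2 * p)) + 3) := by
          rw [Finset.sum_const, Finset.card_product, Iv_card, Iv_card, smul_eq_mul]
          ring
      _ ≤ ((2 * N + 3) * 2 ^ p) ^ 4 * ((2 * N + 3) * 2 ^ (2 * p)) :=
          Nat.mul_le_mul (Nat.pow_le_pow_left a1 4) a2
      _ = (2 * N + 3) ^ 5 * 2 ^ (6 * p) := by
          rw [mul_pow, ← pow_mul, show 6 * p = p * 4 + 2 * p by ring, pow_add]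
          ring
  · have hP : (0 : ℝ) < 2 ^ p := by positivity
    have up : ∀ {x y : ℝ}, |x - y| ≤ c * (1 / 2 : ℝ) ^ 0 → |x - y| ≤ (c * 2 ^ p) * (1 / 2 : ℝ) ^ p := by
      intro x y h
      rw [mul_assoc, pw_b]
      simpa using h
    have hN1 : c * 2 ^ p ≤ ((N * 2 ^ p : ℕ) : ℝ) := by
      push_cast
      exact mul_le_mul_of_nonneg_right hEN hP.le
    rw [Finset.mem_biUnion]
    refine ⟨(fl p m.s, fl p m.y), ?_, ?_⟩
    · rw [Finset.mem_product]
      exact ⟨mem_Iv.2 fun k => fl1_near_mem (up (hm.s k)) hN1, mem_Iv.2 fun k => fl1_near_mem (up (hm.y k)) hN1⟩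
    · rw [Finset.mem_image]
      refine ⟨fl1 (2 * p) (m.z + ∑ k, m.y k * (m.s k - (fl p m.s k : ℝ) / 2 ^ p)), ?_, rfl⟩
      refine fl1_near_mem (E := (c + 2 * c * (c + 1)) * 2 ^ (2 * p)) ?_ (by
        push_cast
        exact mul_le_mul_of_nonneg_right hN (by positivity))
      rw [mul_assoc, pw_b, mul_one]
      set s0 : Fin 2 → ℝ := fun k => (fl p m.s k : ℝ) / 2 ^ p with hs0
      have e : m.z + ∑ k, m.y k * (m.s k - s0 k) - (m'.z + ∑ k, m'.y k * (m'.s k - s0 k)) =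
          ze m m' + ((m.y 0 - m'.y 0) * (m'.s 0 - s0 0) + (m.y 1 - m'.y 1) * (m'.s 1 - s0 1)) := by
        simp only [ze, Fin.sum_univ_two]
        ring
      have h10 : (1 / 2 : ℝ) ^ p ≤ 1 := pow_le_one₀ (by norm_num) (by norm_num)
      have hy0 : ∀ k, |m.y k - m'.y k| ≤ c := fun k => by simpa using hm.y k
      have hs1 : ∀ k, |m.s k - m'.s k| ≤ c := fun k => by simpa using hm.s k
      have hz0 : |ze m m'| ≤ c := by simpa using hm.z
      have hs : ∀ k, |m'.s k - s0 k| ≤ c + 1 := fun k => by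
        have h1 : m'.s k - s0 k = -(m.s k - m'.s k) + (m.s k - s0 k) := by ring
        have h2 := abs_add_le (-(m.s k - m'.s k)) (m.s k - s0 k)
        rw [abs_neg] at h2
        have h3 := hs1 k
        have h4 : |m.s k - s0 k| ≤ (1 / 2 : ℝ) ^ p := fl1_near p (m.s k)
        rw [h1]
        linarith
      have hk : ∀ k, |(m.y k - m'.y k) * (m'.s k - s0 k)| ≤ c * (c + 1) := fun k => by
        rw [abs_mul]
        exact mul_le_mul (hy0 k) (hs k) (abs_nonneg _) hc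
      rw [e]
      have k0 := abs_le.1 (hk 0)
      have k1 := abs_le.1 (hk 1)
      have k2 := abs_le.1 hz0
      rw [abs_le]
      constructor <;> linarith

theorem Agr.mono {δ δ' : ℝ} (h : δ ≤ δ') {B B' : Cbx} {l : Ry} (hA : Agr δ B B' l) : Agr δ' B B' l := by
  obtain ⟨σ, h1, h2, h3, h4⟩ := hA
  exact ⟨σ, h1, fun k => (h2 k).trans h, h3.trans h, h4.trans h⟩

/-- thicker box -/
noncomputable def thk (B : Cbx) (R : ℕ) : Cbx := { B with u1 := (1 / 2 : ℝ) ^ R }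

theorem thk_bin {c : ℝ} (hc : 0 ≤ c) {B : Cbx} {R : ℕ} (h : B.u1 ≤ (1 / 2 : ℝ) ^ R) {l : Ry} (hl : Bin c B 0 l) :
    Bin c (thk B R) 0 l := by
  obtain ⟨i1, i2, i3, i4, i5⟩ := hl
  exact ⟨i1, i2, i3, i4.trans (mul_le_mul_of_nonneg_left h hc), i5.trans (mul_le_mul_of_nonneg_left h hc)⟩

theorem thk_agr {δ : ℝ} {B B' : Cbx} {R R' : ℕ} {l : Ry} : Agr δ (thk B R) (thk B' R') l ↔ Agr δ B B' l := Iff.rfl

/-- **the meet of two boxes of cap `1`, in planks** -/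
theorem meetX (c : ℝ) (hc : 1 ≤ c) : ∃ N : ℕ, 0 < N ∧ ∀ (q R X : ℕ) (B B' : Cbx) (l0 : Ry), X ≤ R → R ≤ q →
    Shp c 0 q B → Shp c 0 R B' → Bin c B 0 l0 → Bin c B' 0 l0 →
    (X = 0 ∨ ¬ Agr (2 ^ (X - 1) * (1 / 2) ^ R) B B' l0) →
    ∃ p : ℕ, p ≤ X ∧ ∃ U : Finset Cell, U.card * 2 ^ X ≤ N * 2 ^ (3 * p) ∧
      ∀ l, Bin c B 0 l → Bin c B' 0 l → pl p l ∈ U := by
  classical
  obtain ⟨c', C, hc', hM⟩ := H465.pMeet c hc
  obtain ⟨M, hcl⟩ := cells c' (by linarith)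
  refine ⟨M * C + 1, by omega, ?_⟩
  intro q R X B B' l0 hXR hRq hB hB' hl hl' hX
  have hc0 : 0 ≤ c := by linarith
  have hex : ∃ Y : ℕ, Agr (2 ^ Y * (1 / 2) ^ R) B B' l0 ∨ Y = R := ⟨R, Or.inr rfl⟩
  set Y := Nat.find hex with hY
  have hY1 : Agr (2 ^ Y * (1 / 2) ^ R) B B' l0 ∨ Y = R := Nat.find_spec hex
  have hYR : Y ≤ R := Nat.find_min' hex (Or.inr rfl)
  have hXY : X ≤ Y := by
    by_contra hcon
    push Not at hcon
    rcases hX with h | h
    · omega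
    · rcases hY1 with h1 | h1
      · refine h (Agr.mono ?_ h1)
        have : (2 : ℝ) ^ Y ≤ 2 ^ (X - 1) := pow_le_pow_right₀ (by norm_num) (by omega)
        exact mul_le_mul_of_nonneg_right this (by positivity)
      · omega
  have hmin : Y = 0 ∨ ¬ Agr (2 ^ (Y - 1) * (1 / 2) ^ R) B B' l0 := by
    rcases Nat.eq_zero_or_pos Y with h | h
    · exact Or.inl h
    · right
      intro hA
      have : Y ≤ Y - 1 := Nat.find_min' hex (Or.inl hA)
      omega
  set R0 : ℕ := R - (Y - X) with hR0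
  have e2 : (2 : ℝ) ^ X * (1 / 2) ^ R0 = 2 ^ Y * (1 / 2) ^ R := by
    have h1 : R = R0 + (Y - X) := by omega
    have h2 : Y = X + (Y - X) := by omega
    conv_rhs => rw [h1, h2, pow_add, pow_add]
    rw [show X + (Y - X) - X = Y - X by omega]
    have h3 : (2 : ℝ) ^ (Y - X) * (1 / 2) ^ (Y - X) = 1 := pw_b _
    calc (2 : ℝ) ^ X * (1 / 2) ^ R0 = 2 ^ X * (1 / 2) ^ R0 * 1 := by ring
      _ = 2 ^ X * (1 / 2) ^ R0 * ((2 : ℝ) ^ (Y - X) * (1 / 2) ^ (Y - X)) := by rw [h3]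
      _ = _ := by ring
  have s1 : Shp c 0 R0 (thk B R0) := ⟨hB.u2, rfl, hB.α2, hB.κ2⟩
  have s2 : Shp c 0 R0 (thk B' R0) := ⟨hB'.u2, rfl, hB'.α2, hB'.κ2⟩
  have hu : B.u1 ≤ (1 / 2 : ℝ) ^ R0 := by
    rw [hB.u1]
    exact pow_le_pow_of_le_one (by norm_num) (by norm_num) (by omega)
  have hu' : B'.u1 ≤ (1 / 2 : ℝ) ^ R0 := by
    rw [hB'.u1]
    exact pow_le_pow_of_le_one (by norm_num) (by norm_num) (by omega)
  obtain ⟨p, n, -, -, hpX, hn, Mb, hMb, hcov⟩ := hM 0 R0 X (thk B R0) (thk B' R0) l0 (Nat.zero_le _) (by omega) s1 s2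
    (thk_bin hc0 hu hl) (thk_bin hc0 hu' hl') (by
      rw [thk_agr, Nat.sub_zero, e2]
      rcases hY1 with h | h
      · exact Or.inl h
      · right
        omega) (by
      rw [thk_agr, Nat.sub_zero]
      rcases hmin with h | h
      · left
        omega
      · rcases Nat.eq_zero_or_pos X with hX0 | hX0
        · exact Or.inl hX0
        · right
          have e3 : (2 : ℝ) ^ (X - 1) * (1 / 2) ^ R0 = 2 ^ (Y - 1) * (1 / 2) ^ R := by
            have h1 : (2 : ℝ) ^ X = 2 * 2 ^ (X - 1) := by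
              rw [← pow_succ', Nat.sub_add_cancel hX0]
            have h2 : (2 : ℝ) ^ Y = 2 * 2 ^ (Y - 1) := by
              rw [← pow_succ', Nat.sub_add_cancel (by omega)]
            rw [h1, h2] at e2
            nlinarith
          rw [e3]
          exact h)
  choose Q hQ1 hQ2 using fun i : Fin n => hcl p (cn (Mb i))
  refine ⟨p, hpX, Finset.univ.biUnion Q, ?_, fun l hl1 hl2 => ?_⟩
  · have h1 : (Finset.univ.biUnion Q).card ≤ n * M := by
      refine Finset.card_biUnion_le.trans ?_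
      calc ∑ i : Fin n, (Q i).card ≤ ∑ _i : Fin n, M := Finset.sum_le_sum fun i _ => hQ1 i
        _ = n * M := by simp
    have h2 : n * 2 ^ X ≤ C * 2 ^ (3 * p) := by exact_mod_cast hn
    calc (Finset.univ.biUnion Q).card * 2 ^ X ≤ n * M * 2 ^ X := Nat.mul_le_mul_right _ h1
      _ = M * (n * 2 ^ X) := by ring
      _ ≤ M * (C * 2 ^ (3 * p)) := Nat.mul_le_mul_left _ h2
      _ = M * C * 2 ^ (3 * p) := by ring
      _ ≤ (M * C + 1) * 2 ^ (3 * p) := Nat.mul_le_mul_right _ (Nat.le_succ _)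
  · obtain ⟨i, hi⟩ := hcov l (thk_bin hc0 hu hl1) (thk_bin hc0 hu' hl2)
    rw [Finset.mem_biUnion]
    refine ⟨i, Finset.mem_univ _, hQ2 i l ?_⟩
    have := bin_nr (hMb i) hi
    rwa [zero_add] at this

/-- the ray of the block depends on the first digits of the time only -/
theorem bl_fl {a : ℕ} {t t' : ℝ} (h : fl1 a t = fl1 a t') (l : Ry) : bl a l t = bl a l t' := by
  have : qa a t = qa a t' := by
    unfold qa
    rw [h]
  unfold bl
  rw [this]

/-- the variables of the last cell -/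
noncomputable def kW {Ω γ δ : Type} (W : Ω → Cbx) (h : ℕ) (t : Ω → ℝ) (C : Ω → γ) (G : Ω → δ) : Ω → Cbx × ℤ × γ × δ :=
  fun ω => (W ω, fl1 h (t ω), C ω, G ω)

open Classical in
/-- **TOP PIECE** -/
theorem top (lam N k k' β β' : ℝ) (h0 : 0 ≤ lam) (h1 : lam ≤ 1) (hk : 0 ≤ k) (hkk : k ≤ k') (hk' : k' ≤ lam) (hN : 0 ≤ N)
    (hF : FIXA lam N k' β') (c c1 : ℝ) (hc : 1 ≤ c) (hcc : c ≤ c1) (ε : ℝ) (hε : 0 < ε) : ∃ K : ℝ, 0 ≤ K ∧
      ∀ (d : ℝ) (Ω : Type) [Fintype Ω]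
      (γ : Type) (P : Law Ω) (l : Ω → Ry) (t : Ω → ℝ) (C : Ω → γ) (L h q : ℕ) (W : Ω → Cbx), 1 ≤ h →
      NEx c lam N k β d P l t C L h q W →
      ∀ (Ω' : Type) [Fintype Ω'] (P' : Law Ω') (π : Ω' → Ω), (∀ ω, P'.pr π ω = P.w ω) →
      ∀ (δ ζ θ : Type) (G : Ω' → δ) (D : Ω' → ζ) (E : Ω' → θ) (R X : ℕ) (B : Ω' → Cbx) (good : Ω' → Prop),
      X ≤ R → R ≤ q →
      (∀ ω, 0 < P'.w ω → good ω → Shp c1 0 R (B ω) ∧ Bin c1 (B ω) 0 (bl h (l (π ω)) (t (π ω))) ∧
        (X = 0 ∨ ¬ Agr (2 ^ (X - 1) * (1 / 2) ^ R) (W (π ω)) (B ω) (bl h (l (π ω)) (t (π ω))))) →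
      Fn P' B (fun ω => (D ω, (kW (fun ω => W (π ω)) h (fun ω => t (π ω)) (fun ω => C (π ω)) G ω, E ω))) →
      X * Real.log 2 ≤
        Stk.mi P' D (fun ω => l (π ω))
          (fun ω => (kW (fun ω => W (π ω)) h (fun ω => t (π ω)) (fun ω => C (π ω)) G ω, E ω)) +
        4 * X * Real.log 2 * P'.ex (fun ω => if good ω then 0 else 1) +
        (β' + ε - β + d) * h * Real.log 2 + (1 + N) * Real.log (X + 1) +
        Stk.hc P' E (kW (fun ω => W (π ω)) h (fun ω => t (π ω)) (fun ω => C (π ω)) G) +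
        Stk.hc P' G (fun ω => (W (π ω), fl1 h (t (π ω)), C (π ω))) +
        N * Stk.hc P' G (fun ω => (l (π ω), C (π ω))) + K := by
  obtain ⟨K, hK0, hK⟩ := growR lam N k k' β β' h0 h1 hk hkk hN hF c hc ε hε
  obtain ⟨N1, hN1, hM⟩ := meetX c1 (hc.trans hcc)
  obtain ⟨N2, hN2, hPl⟩ := planks c1 (by linarith)
  have hl2 : 0 < Real.log 2 := Real.log_pos (by norm_num)
  have hln1 : 0 ≤ Real.log N1 := Real.log_natCast_nonneg _
  have hln2 : 0 ≤ Real.log N2 := Real.log_natCast_nonneg _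
  refine ⟨K + Real.log 2 + Real.log N1 + Real.log N2, by linarith, ?_⟩
  intro d Ω _ γ P l t C L h q W hh hne Ω' _ P' π g1 δ ζ θ G D E R X B good hXR hRq hB hFnB
  have hc0 : 0 ≤ c := by linarith
  have hpos : ∀ ω, 0 < P'.w ω → 0 < P.w (π ω) := fun ω hω => by
    rw [← g1]
    exact P'.pr_pos π hω
  set kk : Ω' → (Cbx × ℤ × γ × δ) × θ :=
    fun ω => (kW (fun ω => W (π ω)) h (fun ω => t (π ω)) (fun ω => C (π ω)) G ω, E ω) with hkk'
  set key : Ω' → ζ × ((Cbx × ℤ × γ × δ) × θ) := fun ω => (D ω, kk ω) with hkey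
  have hkW : ∀ ω ω', key ω = key ω' → W (π ω) = W (π ω') ∧ fl1 h (t (π ω)) = fl1 h (t (π ω')) := by
    intro ω ω' e
    simp only [hkey, hkk', kW, Prod.mk.injEq] at e
    exact ⟨e.2.1.1, e.2.1.2.1⟩
  have hWS : ∀ ω, 0 < P'.w ω → Shp c1 0 q (W (π ω)) ∧ Bin c1 (W (π ω)) 0 (bl h (l (π ω)) (t (π ω))) := by
    intro ω hω
    obtain ⟨w1, w2, w3⟩ := hne.lb (π ω) (hpos ω hω)
    have w4 := LbOk.cls hcc w1
    exact ⟨⟨by rw [w2, pow_zero], w3, w4.α2, w4.κ2⟩, w4.inn⟩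
  -- the level for every key
  have hex : ∀ z : ζ × ((Cbx × ℤ × γ × δ) × θ), ∃ (p : ℕ) (U V : Finset Cell), p ≤ X ∧ V.card ≤ N2 * 2 ^ (6 * p) ∧
      (∀ ω, 0 < P'.w ω → key ω = z → plb p h (l (π ω)) (t (π ω)) ∈ V) ∧
      ∀ ω, 0 < P'.w ω → key ω = z → good ω → plb p h (l (π ω)) (t (π ω)) ∈ U ∧ U.card * 2 ^ X ≤ N1 * 2 ^ (3 * p) := by
    intro z
    have hVex : ∀ p : ℕ, ∃ V : Finset Cell, V.card ≤ N2 * 2 ^ (6 * p) ∧
        ∀ ω, 0 < P'.w ω → key ω = z → plb p h (l (π ω)) (t (π ω)) ∈ V := by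
      intro p
      obtain ⟨V, hV1, hV2⟩ := hPl p (cn z.2.1.1)
      refine ⟨V, hV1, fun ω hω e => hV2 _ ?_⟩
      have e1 : z.2.1.1 = W (π ω) := by
        rw [← e]
        rfl
      rw [e1]
      exact bin_nr (hWS ω hω).1 (hWS ω hω).2
    by_cases hg : ∃ ω, 0 < P'.w ω ∧ key ω = z ∧ good ω
    · obtain ⟨ω0, hω0, e0, hg0⟩ := hg
      obtain ⟨b1, b2, b3⟩ := hB ω0 hω0 hg0
      obtain ⟨p, hpX, U, hU, hcov⟩ := hM q R X (W (π ω0)) (B ω0) (bl h (l (π ω0)) (t (π ω0))) hXR hRq (hWS ω0 hω0).1 b1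
        (hWS ω0 hω0).2 b2 b3
      obtain ⟨V, hV1, hV2⟩ := hVex p
      refine ⟨p, U, V, hpX, hV1, hV2, fun ω hω e hgω => ⟨hcov _ ?_ ?_, hU⟩⟩
      · have := (hWS ω hω).2
        rwa [(hkW ω ω0 (e.trans e0.symm)).1] at this
      · have := (hB ω hω hgω).2.1
        rwa [hFnB ω ω0 hω hω0 (e.trans e0.symm)] at this
    · obtain ⟨V, hV1, hV2⟩ := hVex 0
      exact ⟨0, ∅, V, Nat.zero_le _, hV1, hV2, fun ω hω e hgω => absurd ⟨ω, hω, e, hgω⟩ hg⟩
  choose pf Uf Vf hpf hVf1 hVf2 hUf using hex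
  set p : Ω' → ℕ := fun ω => pf (key ω) with hp
  have hpX : ∀ ω, p ω ≤ X := fun ω => hpf _
  have hpq : ∀ ω, p ω ≤ q := fun ω => (hpX ω).trans (hXR.trans hRq)
  set Y : Ω' → Cell := fun ω => plb (p ω) h (l (π ω)) (t (π ω)) with hY
  -- GROW
  have key1 := hK d Ω γ P l t C L h q W hh hne Ω' P' π g1 (δ × ℕ) (fun ω => (G ω, p ω)) (fun z => min z.2 q)
    (fun z => min_le_right _ _)
  have emin : ∀ ω, min (p ω) q = p ω := fun ω => min_eq_left (hpq ω)
  simp only [emin] at key1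
  -- entropies of the letters
  have hcp : ∀ {T : Type} (Z : Ω' → T), Stk.hc P' p Z ≤ Real.log (X + 1) := by
    intro T Z
    have h2 := Stk.hc_le_log P' p Z (X + 1) fun ω _ => ⟨Finset.range (X + 1), (Finset.card_range _).le, fun ω' _ _ =>
      Finset.mem_range.2 (by have := hpX ω'; omega)⟩
    push_cast at h2
    exact h2
  have b1 : Stk.hc P' (fun ω => (G ω, p ω)) (fun ω => (W (π ω), fl1 h (t (π ω)), C (π ω))) ≤
      Stk.hc P' G (fun ω => (W (π ω), fl1 h (t (π ω)), C (π ω))) + Real.log (X + 1) :=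
    (Apx.hc_pair_le P' G p _).trans (by have := hcp (fun ω => (W (π ω), fl1 h (t (π ω)), C (π ω))); linarith)
  have b2 : Stk.hc P' (fun ω => (G ω, p ω)) (fun ω => (l (π ω), C (π ω))) ≤
      Stk.hc P' G (fun ω => (l (π ω), C (π ω))) + Real.log (X + 1) :=
    (Apx.hc_pair_le P' G p _).trans (by have := hcp (fun ω => (l (π ω), C (π ω))); linarith)
  have b3 := mul_le_mul_of_nonneg_left b2 hN
  -- the extra letter `E`
  have b4 : Stk.hc P' Y (fun ω => (W (π ω), fl1 h (t (π ω)), C (π ω), (G ω, p ω))) ≤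
      Stk.hc P' Y (fun ω => (p ω, kk ω)) +
        Stk.hc P' E (kW (fun ω => W (π ω)) h (fun ω => t (π ω)) (fun ω => C (π ω)) G) := by
    have f1 := Stk.hc_le_add' P' Y E (fun ω => (W (π ω), fl1 h (t (π ω)), C (π ω), (G ω, p ω)))
    have f2 := Stk.hc_mono_right P' Y (Y := fun ω => (p ω, kk ω))
      (Y' := fun ω => (E ω, (W (π ω), fl1 h (t (π ω)), C (π ω), (G ω, p ω)))) (fun ω ω' _ _ e => by
        simp only [hkk', kW, Prod.mk.injEq] at e ⊢
        exact ⟨e.2.2.2.2.2, ⟨e.2.1, e.2.2.1, e.2.2.2.1, e.2.2.2.2.1⟩, e.1⟩)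
    have f3 := Stk.hc_mono_right P' E
      (Y := kW (fun ω => W (π ω)) h (fun ω => t (π ω)) (fun ω => C (π ω)) G)
      (Y' := fun ω => (W (π ω), fl1 h (t (π ω)), C (π ω), (G ω, p ω))) (fun ω ω' _ _ e => by
        simp only [kW, Prod.mk.injEq] at e ⊢
        exact ⟨e.1, e.2.1, e.2.2.1, e.2.2.2.1⟩)
    linarith
  -- Shannon
  have b5 := mi_top P' D (fun ω => l (π ω)) kk p Y (fun ω ω' _ _ e => congrArg pf e) (fun ω ω' _ _ e => by
    simp only [Prod.mk.injEq] at e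
    obtain ⟨e1, e2, e3⟩ := e
    have e4 : fl1 h (t (π ω)) = fl1 h (t (π ω')) := by
      simp only [hkk', kW, Prod.mk.injEq] at e3
      exact e3.1.2.1
    show plb (p ω) h (l (π ω)) (t (π ω)) = plb (p ω') h (l (π ω')) (t (π ω'))
    unfold plb
    rw [e2, e1, bl_fl e4])
  -- count
  have b6 : Stk.hc P' Y key ≤ 3 * P'.ex (fun ω => (p ω : ℝ)) * Real.log 2 - X * Real.log 2 +
      4 * X * Real.log 2 * P'.ex (fun ω => if good ω then 0 else 1) + Real.log 2 + Real.log N1 + Real.log N2 := by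
    have f1 := Stk.hc_le_add' P' Y (fun ω => decide (good ω)) key
    have f2 : Stk.hc P' (fun ω => decide (good ω)) key ≤ Real.log 2 := by
      have := Stk.hc_le_log P' (fun ω => decide (good ω)) key 2 fun ω _ => ⟨Finset.univ, by simp, fun ω' _ _ =>
        Finset.mem_univ _⟩
      exact_mod_cast this
    have f3 := Vale.Agent.P127.U.PL.hc_le_exlog P' Y (fun ω => (decide (good ω), key ω))
      (fun ω => if good ω then (Uf (key ω)).card else (Vf (key ω)).card) (fun ω hω => by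
        by_cases hg : good ω
        · refine ⟨Uf (key ω), by rw [if_pos hg], fun ω' hω' e => ?_⟩
          simp only [Prod.mk.injEq, decide_eq_decide] at e
          have hg' : good ω' := e.1.2 hg
          have := (hUf (key ω) ω' hω' e.2 hg').1
          have e5 : p ω' = pf (key ω) := by rw [hp]; simp only [e.2]
          show plb (p ω') h (l (π ω')) (t (π ω')) ∈ _
          rw [e5]
          exact this
        · refine ⟨Vf (key ω), by rw [if_neg hg], fun ω' hω' e => ?_⟩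
          simp only [Prod.mk.injEq] at e
          have := hVf2 (key ω) ω' hω' e.2
          have e5 : p ω' = pf (key ω) := by rw [hp]; simp only [e.2]
          show plb (p ω') h (l (π ω')) (t (π ω')) ∈ _
          rw [e5]
          exact this)
    have f4 : P'.ex (fun ω => Real.log ((if good ω then (Uf (key ω)).card else (Vf (key ω)).card : ℕ) : ℝ)) ≤
        P'.ex (fun ω => (3 * Real.log 2) * (p ω : ℝ) + (4 * X * Real.log 2) * (if good ω then 0 else 1) +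
          (-(X * Real.log 2) + Real.log N1 + Real.log N2)) := by
      refine P'.ex_mono fun ω hω => ?_
      have hpω : (p ω : ℝ) ≤ X := by exact_mod_cast hpX ω
      by_cases hg : good ω
      · rw [if_pos hg, if_pos hg]
        obtain ⟨u1, u2⟩ := hUf (key ω) ω hω rfl hg
        have u3 : 0 < (Uf (key ω)).card := Finset.card_pos.2 ⟨_, u1⟩
        have u4 : ((Uf (key ω)).card : ℝ) * 2 ^ X ≤ N1 * 2 ^ (3 * p ω) := by exact_mod_cast u2
        have u5 : (0 : ℝ) < (Uf (key ω)).card := by exact_mod_cast u3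
        have u6 := Real.log_le_log (by positivity) u4
        have hN1' : (0 : ℝ) < N1 := by exact_mod_cast hN1
        rw [Real.log_mul u5.ne' (by positivity), Real.log_mul hN1'.ne' (by positivity), Real.log_pow, Real.log_pow] at u6
        push_cast at u6
        linarith
      · rw [if_neg hg, if_neg hg]
        have u1 : 0 < (Vf (key ω)).card := Finset.card_pos.2 ⟨_, hVf2 (key ω) ω hω rfl⟩
        have u2 : ((Vf (key ω)).card : ℝ) ≤ N2 * 2 ^ (6 * p ω) := by exact_mod_cast hVf1 (key ω)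
        have u5 : (0 : ℝ) < (Vf (key ω)).card := by exact_mod_cast u1
        have u6 := Real.log_le_log u5 u2
        have hN2' : (0 : ℝ) < N2 := by exact_mod_cast hN2
        rw [Real.log_mul hN2'.ne' (by positivity), Real.log_pow] at u6
        push_cast at u6
        nlinarith
    rw [P'.ex_add, P'.ex_add, P'.ex_const_mul, P'.ex_const_mul, P'.ex_const] at f4
    linarith
  have hEp : 0 ≤ P'.ex (fun ω => (p ω : ℝ)) := P'.ex_nonneg fun ω _ => Nat.cast_nonneg _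
  have b7 : (lam - k') * P'.ex (fun ω => (p ω : ℝ)) * Real.log 2 ≥ 0 :=
    mul_nonneg (mul_nonneg (by linarith) hEp) hl2.le
  have b8 : Stk.hc P' Y (fun ω => (D ω, kk ω)) = Stk.hc P' Y key := rfl
  rw [b8] at b5
  nlinarith

end Vale.Agent.P106.U.Top543
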