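import Vale.Agent.P106.U.H543.Top

/-!
# P106 / U / H543 : the top piece of the RISE lemma with a second slab of cap `b0` (helper543)

* `mk_box` : box with a given covector, `κ`, `α` at a given ray.
* `subW` : a box of cap `1` recentred at one of its rays, cap `2^-b0`.
* `meetB` : `meetX` for boxes of shape `(b0, R)`.
* `topB` : **TOP PIECE**, second slab of shape `(b0, R)`.
-/

set_option autoImplicit false

namespace Vale.Agent.P106.U.Top543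

open Finset Vale.Agent.P127 Vale.Agent.P127.Stk Vale.Agent.P127.U Vale.Agent.P106.W Vale.Agent.P106.K Vale.Agent.P106.U
open Vale.Agent.P106.U.H428 Vale.Agent.P106.U.G480 Vale.Agent.P106.U.GR543
open Vale.Agent.P122.C2 (fn)

/-- value of the functional with covector `n` at the ray `m0`, without constant term -/
def E0 (n : Fin 2 → ℝ) (κ α : ℝ) (m0 l : Ry) : ℝ :=
  (∑ k, n k * (l.y k - m0.y k)) + κ * ze l m0 - α * ∑ k, (l.y k - m0.y k) ^ 2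

/-- increment -/
noncomputable def E1 (n : Fin 2 → ℝ) (κ α : ℝ) (m0 l : Ry) : ℝ :=
  (∑ k, n k * (l.s k - m0.s k)) + κ * (∑ k, (l.s k - m0.s k) ^ 2) / 2 +
    2 * α * (ze l m0 - ∑ k, (l.y k - m0.y k) * (l.s k - m0.s k))

/-- **box with a given covector** -/
theorem mk_box {n : Fin 2 → ℝ} {κ α L : ℝ} (hL : 0 < L) (hn : n 0 ^ 2 + n 1 ^ 2 = L ^ 2) (m0 : Ry) (b R : ℕ) :
    ∃ B : Cbx, B.u2 = (1 / 2 : ℝ) ^ b ∧ B.u1 = (1 / 2 : ℝ) ^ R ∧ B.κ = κ / L ∧ B.α = α / L ∧ cn B = m0 ∧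
      ∀ l, G0 B l = E0 n κ α m0 l / L ∧ G1 B l = E1 n κ α m0 l / L ∧
        ∀ k, nrm B l k = (n k + κ * (l.s k - m0.s k) - 2 * α * (l.y k - m0.y k)) / L := by
  obtain ⟨θ, hc, hs⟩ := exists_angle (x := n 1 / L) (y := -(n 0) / L) (by
    rw [div_pow, div_pow, ← add_div, div_eq_one_iff_eq (by positivity)]
    linarith)
  refine ⟨⟨θ, (1 / 2 : ℝ) ^ R, (1 / 2 : ℝ) ^ b, κ / L, α / L, m0.y, m0.s, m0.z⟩, rfl, rfl, rfl, rfl, rfl, fun l => ?_⟩
  have hL0 := hL.ne'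
  refine ⟨?_, ?_, fun k => ?_⟩
  · rw [eq_div_iff hL0]
    simp only [G0, Cbx.g0, E0, ze, fn, Fin.sum_univ_two, hc, hs, Pi.sub_apply]
    field_simp
  · rw [eq_div_iff hL0]
    simp only [G1, Cbx.g1, E1, ze, fn, Fin.sum_univ_two, hc, hs, Pi.sub_apply]
    field_simp
    ring
  · rw [eq_div_iff hL0]
    fin_cases k
    · simp only [nrm, hc, hs, Fin.zero_eta, Matrix.cons_val_zero]
      field_simp
    · simp only [nrm, hc, hs, Fin.mk_one, Matrix.cons_val_one, Matrix.cons_val_fin_one]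
      field_simp

theorem E0_G {B : Cbx} (m0 l : Ry) : E0 (nv B m0) B.κ B.α m0 l = G0 B l - G0 B m0 := by
  rw [G0_eq B l m0]
  unfold E0
  ring

theorem E1_G {B : Cbx} (m0 l : Ry) : E1 (nv B m0) B.κ B.α m0 l = G1 B l - G1 B m0 := by
  rw [G1_eq B l m0]
  unfold E1
  ring

/-- **recentring** of a box of cap `1` -/
theorem subW {c D : ℝ} (hc : 1 ≤ c) {W : Cbx} {q R : ℕ} (b0 : ℕ) {m0 : Ry} (hW : Shp c 0 q W) (hRq : R ≤ q)
    (hsm : 24 * c ^ 2 * (1 / 2 : ℝ) ^ q ≤ 1) (hin : Bin c W 0 m0) :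
    ∃ (W' : Cbx) (L : ℝ), 1 / 2 ≤ L ∧ |L - 1| ≤ 6 * c ^ 2 * (1 / 2 : ℝ) ^ q ∧ Shp (2 * c) b0 R W' ∧
      (∀ l k, nrm W' l k = nrm W l k / L) ∧ W'.κ = W.κ / L ∧ W'.α = W.α / L ∧
      ∀ l, Bin c W 0 l → Nr D b0 l m0 → Bin (max D (4 * c)) W' 0 l := by
  have hc0 : 0 < c := by linarith
  have hq : (0 : ℝ) < (1 / 2 : ℝ) ^ q := by positivity
  have h0 := bin_g0 hW hin
  have h1 := bin_g1 hW hin
  have hα : |W.α| ≤ c := by simpa [hW.u2] using hW.α2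
  have hκ : |W.κ| ≤ c := by simpa [hW.u2] using hW.κ2
  have k1 : |W.κ * G1 W m0| ≤ c ^ 2 * (1 / 2 : ℝ) ^ q := by
    rw [abs_mul]
    calc |W.κ| * |G1 W m0| ≤ c * (c * (1 / 2 : ℝ) ^ q) := mul_le_mul hκ h1 (abs_nonneg _) hc0.le
      _ = _ := by ring
  have k2 : |W.α * G0 W m0| ≤ c ^ 2 * (1 / 2 : ℝ) ^ q := by
    rw [abs_mul]
    calc |W.α| * |G0 W m0| ≤ c * (c * (1 / 2 : ℝ) ^ q) := mul_le_mul hα h0 (abs_nonneg _) hc0.le
      _ = _ := by ring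
  have hsq := nv_sq W m0
  set X := nv W m0 0 ^ 2 + nv W m0 1 ^ 2 with hX
  have hX1 : |X - 1| ≤ 6 * c ^ 2 * (1 / 2 : ℝ) ^ q := by
    have a1 := abs_le.1 k1
    have a2 := abs_le.1 k2
    rw [abs_le]
    constructor <;> nlinarith
  have hX2 : |X - 1| ≤ 1 / 4 := hX1.trans (by linarith)
  have hX3 := abs_le.1 hX2
  have hX0 : 0 < X := by linarith
  set L := Real.sqrt X with hLd
  have hL0 : 0 < L := Real.sqrt_pos.2 hX0
  have hLs : L ^ 2 = X := Real.sq_sqrt hX0.le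
  have hL : 1 / 2 ≤ L := Real.le_sqrt_of_sq_le (by norm_num; linarith)
  have hL1 : |L - 1| ≤ 6 * c ^ 2 * (1 / 2 : ℝ) ^ q := by
    have e : |L - 1| * (L + 1) = |X - 1| := by
      rw [← hLs, ← abs_of_pos (by linarith : 0 < L + 1), ← abs_mul]
      congr 1
      ring
    have : |L - 1| * 1 ≤ |L - 1| * (L + 1) := mul_le_mul_of_nonneg_left (by linarith) (abs_nonneg _)
    linarith
  obtain ⟨W', u2, u1, κ', α', hcn, hg⟩ := mk_box (n := nv W m0) (κ := W.κ) (α := W.α) hL0 (by rw [hLs]) m0 b0 R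
  have hdiv : ∀ x : ℝ, |x| ≤ c → |x / L| * (1 / 2 : ℝ) ^ b0 ≤ 2 * c := by
    intro x hx
    rw [abs_div, abs_of_pos hL0, div_mul_eq_mul_div, div_le_iff₀ hL0]
    have h10 : (1 / 2 : ℝ) ^ b0 ≤ 1 := pow_le_one₀ (by norm_num) (by norm_num)
    calc |x| * (1 / 2 : ℝ) ^ b0 ≤ |x| * 1 := mul_le_mul_of_nonneg_left h10 (abs_nonneg _)
      _ ≤ c := by linarith
      _ = 2 * c * (1 / 2) := by ring
      _ ≤ 2 * c * L := mul_le_mul_of_nonneg_left hL (by positivity)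
  refine ⟨W', L, hL, hL1, ⟨u2, u1, by rw [α', u2]; exact hdiv _ hα, by rw [κ', u2]; exact hdiv _ hκ⟩, ?_, κ', α', ?_⟩
  · intro l k
    rw [(hg l).2.2 k, nrm_eq, nv_sub W l m0 k]
  · intro l hl hn
    have g0 := bin_g0 hW hl
    have g1 := bin_g1 hW hl
    have hqR : (1 / 2 : ℝ) ^ q ≤ (1 / 2 : ℝ) ^ R := pow_le_pow_of_le_one (by norm_num) (by norm_num) hRq
    have fin : ∀ x y : ℝ, |x| ≤ c * (1 / 2 : ℝ) ^ q → |y| ≤ c * (1 / 2 : ℝ) ^ q →
        |(x - y) / L| ≤ max D (4 * c) * (1 / 2 : ℝ) ^ R := by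
      intro x y hx hy
      rw [abs_div, abs_of_pos hL0, div_le_iff₀ hL0]
      have h3 := abs_sub x y
      have h4 : c * (1 / 2 : ℝ) ^ q ≤ c * (1 / 2 : ℝ) ^ R := mul_le_mul_of_nonneg_left hqR hc0.le
      have h5 : 4 * c * (1 / 2 : ℝ) ^ R * (1 / 2) ≤ max D (4 * c) * (1 / 2 : ℝ) ^ R * L := by
        refine mul_le_mul (mul_le_mul_of_nonneg_right (le_max_right _ _) (by positivity)) hL (by norm_num) ?_
        have : 0 ≤ max D (4 * c) := le_max_of_le_right (by linarith)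
        positivity
      linarith
    refine bin_of u2 u1 ?_ ?_ ?_
    · rw [hcn]
      exact hn.mono (le_max_left _ _)
    · rw [(hg l).1, E0_G]
      exact fin _ _ g0 h0
    · rw [(hg l).2.1, E1_G]
      exact fin _ _ g1 h1

/-- **the meet of two boxes of cap `2^-b0`, in planks** -/
theorem meetB (c : ℝ) (hc : 1 ≤ c) : ∃ N : ℕ, 0 < N ∧ ∀ (b0 R X : ℕ) (B B' : Cbx) (l0 : Ry), b0 + X ≤ R →
    Shp c b0 R B → Shp c b0 R B' → Bin c B 0 l0 → Bin c B' 0 l0 →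
    (X = 0 ∨ ¬ Agr (2 ^ (X - 1) * (1 / 2) ^ (R - b0)) B B' l0) →
    ∃ p : ℕ, p ≤ X ∧ ∃ U : Finset Cell, U.card * 2 ^ X ≤ N * 2 ^ (3 * p) ∧
      ∀ l, Bin c B 0 l → Bin c B' 0 l → pl (b0 + p) l ∈ U := by
  classical
  obtain ⟨c', C, hc', hM⟩ := H465.pMeet c hc
  obtain ⟨M, hcl⟩ := cells c' (by linarith)
  refine ⟨M * C + 1, by omega, ?_⟩
  intro b0 R X B B' l0 hXR hB hB' hl hl' hX
  have hc0 : 0 ≤ c := by linarith
  have hex : ∃ Y : ℕ, Agr (2 ^ Y * (1 / 2) ^ (R - b0)) B B' l0 ∨ Y = R - b0 := ⟨R - b0, Or.inr rfl⟩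
  set Y := Nat.find hex with hY
  have hY1 : Agr (2 ^ Y * (1 / 2) ^ (R - b0)) B B' l0 ∨ Y = R - b0 := Nat.find_spec hex
  have hYR : Y ≤ R - b0 := Nat.find_min' hex (Or.inr rfl)
  have hXY : X ≤ Y := by
    by_contra hcon
    push Not at hcon
    rcases hX with h | h
    · omega
    · rcases hY1 with h1 | h1
      · refine h (Agr.mono ?_ h1)
        have : (2 : ℝ) ^ Y ≤ 2 ^ (X - 1) := pow_le_pow_right₀ (by norm_num) (by omega)
        exact mul_le_mul_of_nonneg_right this (by positivity)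
      · omega
  have hmin : Y = 0 ∨ ¬ Agr (2 ^ (Y - 1) * (1 / 2) ^ (R - b0)) B B' l0 := by
    rcases Nat.eq_zero_or_pos Y with h | h
    · exact Or.inl h
    · right
      intro hA
      have : Y ≤ Y - 1 := Nat.find_min' hex (Or.inl hA)
      omega
  set R0 : ℕ := R - (Y - X) with hR0
  have e2 : (2 : ℝ) ^ X * (1 / 2) ^ (R0 - b0) = 2 ^ Y * (1 / 2) ^ (R - b0) := by
    have h1 : R - b0 = (R0 - b0) + (Y - X) := by omega
    have h2 : Y = X + (Y - X) := by omega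
    conv_rhs => rw [h1, h2, pow_add, pow_add]
    rw [show X + (Y - X) - X = Y - X by omega]
    have h3 : (2 : ℝ) ^ (Y - X) * (1 / 2) ^ (Y - X) = 1 := pw_b _
    calc (2 : ℝ) ^ X * (1 / 2) ^ (R0 - b0) = 2 ^ X * (1 / 2) ^ (R0 - b0) * 1 := by ring
      _ = 2 ^ X * (1 / 2) ^ (R0 - b0) * ((2 : ℝ) ^ (Y - X) * (1 / 2) ^ (Y - X)) := by rw [h3]
      _ = _ := by ring
  have s1 : Shp c b0 R0 (thk B R0) := ⟨hB.u2, rfl, hB.α2, hB.κ2⟩
  have s2 : Shp c b0 R0 (thk B' R0) := ⟨hB'.u2, rfl, hB'.α2, hB'.κ2⟩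
  have hu : B.u1 ≤ (1 / 2 : ℝ) ^ R0 := by
    rw [hB.u1]
    exact pow_le_pow_of_le_one (by norm_num) (by norm_num) (by omega)
  have hu' : B'.u1 ≤ (1 / 2 : ℝ) ^ R0 := by
    rw [hB'.u1]
    exact pow_le_pow_of_le_one (by norm_num) (by norm_num) (by omega)
  obtain ⟨p, n, -, -, hpX, hn, Mb, hMb, hcov⟩ := hM b0 R0 X (thk B R0) (thk B' R0) l0 (by omega) (by omega) s1 s2
    (thk_bin hc0 hu hl) (thk_bin hc0 hu' hl') (by
      rw [thk_agr, e2]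
      rcases hY1 with h | h
      · exact Or.inl h
      · right
        omega) (by
      rw [thk_agr]
      rcases hmin with h | h
      · left
        omega
      · rcases Nat.eq_zero_or_pos X with hX0 | hX0
        · exact Or.inl hX0
        · right
          have e3 : (2 : ℝ) ^ (X - 1) * (1 / 2) ^ (R0 - b0) = 2 ^ (Y - 1) * (1 / 2) ^ (R - b0) := by
            have h1 : (2 : ℝ) ^ X = 2 * 2 ^ (X - 1) := by
              rw [← pow_succ', Nat.sub_add_cancel hX0]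
            have h2 : (2 : ℝ) ^ Y = 2 * 2 ^ (Y - 1) := by
              rw [← pow_succ', Nat.sub_add_cancel (by omega)]
            rw [h1, h2] at e2
            nlinarith
          rw [e3]
          exact h)
  choose Q hQ1 hQ2 using fun i : Fin n => hcl (b0 + p) (cn (Mb i))
  refine ⟨p, hpX, Finset.univ.biUnion Q, ?_, fun l hl1 hl2 => ?_⟩
  · have h1 : (Finset.univ.biUnion Q).card ≤ n * M := by
      refine Finset.card_biUnion_le.trans ?_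
      calc ∑ i : Fin n, (Q i).card ≤ ∑ _i : Fin n, M := Finset.sum_le_sum fun i _ => hQ1 i
        _ = n * M := by simp
    have h2 : n * 2 ^ X ≤ C * 2 ^ (3 * p) := by exact_mod_cast hn
    calc (Finset.univ.biUnion Q).card * 2 ^ X ≤ n * M * 2 ^ X := Nat.mul_le_mul_right _ h1
      _ = M * (n * 2 ^ X) := by ring
      _ ≤ M * (C * 2 ^ (3 * p)) := Nat.mul_le_mul_left _ h2
      _ = M * C * 2 ^ (3 * p) := by ring
      _ ≤ (M * C + 1) * 2 ^ (3 * p) := Nat.mul_le_mul_right _ (Nat.le_succ _)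
  · obtain ⟨i, hi⟩ := hcov l (thk_bin hc0 hu hl1) (thk_bin hc0 hu' hl2)
    rw [Finset.mem_biUnion]
    exact ⟨i, Finset.mem_univ _, hQ2 i l (bin_nr (hMb i) hi)⟩

/-- agreement of the frames with given units -/
def AgrU (δ u : ℝ) (B B' : Cbx) (l : Ry) : Prop :=
  ∃ σ : ℝ, (σ = 1 ∨ σ = -1) ∧ (∀ k, |nrm B' l k - σ * nrm B l k| ≤ δ) ∧ |B'.κ - σ * B.κ| * u ≤ δ ∧
    |B'.α - σ * B.α| * u ≤ δ

theorem div_close {c L q : ℝ} (hq : 0 ≤ q) (hL : 1 / 2 ≤ L) (hL1 : |L - 1| ≤ 6 * c ^ 2 * q) {x M : ℝ} (hM : 0 ≤ M)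
    (hx : |x| ≤ M) : |x / L - x| ≤ 12 * c ^ 2 * M * q := by
  have hL0 : 0 < L := by linarith
  have e : x / L - x = x * (1 - L) / L := by field_simp
  rw [e, abs_div, abs_of_pos hL0, div_le_iff₀ hL0, abs_mul, abs_sub_comm 1 L]
  calc |x| * |L - 1| ≤ M * (6 * c ^ 2 * q) := mul_le_mul hx hL1 (abs_nonneg _) hM
    _ = 12 * c ^ 2 * M * q * (1 / 2) := by ring
    _ ≤ 12 * c ^ 2 * M * q * L := mul_le_mul_of_nonneg_left hL (by positivity)

theorem nrm_le {c : ℝ} (hc : 1 ≤ c) {W : Cbx} {q : ℕ} {m0 : Ry} (hW : Shp c 0 q W)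
    (hsm : 24 * c ^ 2 * (1 / 2 : ℝ) ^ q ≤ 1) (hWm : Bin c W 0 m0) (k : Fin 2) : |nrm W m0 k| ≤ 2 := by
  have hc0 : 0 < c := by linarith
  have hsq := nv_sq W m0
  have g0 := bin_g0 hW hWm
  have g1 := bin_g1 hW hWm
  have hα' : |W.α| ≤ c := by simpa [hW.u2] using hW.α2
  have hκ' : |W.κ| ≤ c := by simpa [hW.u2] using hW.κ2
  have k1 : |W.κ * G1 W m0| ≤ c ^ 2 * (1 / 2 : ℝ) ^ q := by
    rw [abs_mul]
    calc |W.κ| * |G1 W m0| ≤ c * (c * (1 / 2 : ℝ) ^ q) := mul_le_mul hκ' g1 (abs_nonneg _) hc0.le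
      _ = _ := by ring
  have k2 : |W.α * G0 W m0| ≤ c ^ 2 * (1 / 2 : ℝ) ^ q := by
    rw [abs_mul]
    calc |W.α| * |G0 W m0| ≤ c * (c * (1 / 2 : ℝ) ^ q) := mul_le_mul hα' g0 (abs_nonneg _) hc0.le
      _ = _ := by ring
  have a1 := abs_le.1 k1
  have a2 := abs_le.1 k2
  have hs2 : nv W m0 0 ^ 2 + nv W m0 1 ^ 2 ≤ 2 ^ 2 := by
    rw [hsq]
    linarith [a1.2, a2.1]
  rw [nrm_eq]
  refine abs_le_of_sq_le_sq ?_ (by norm_num)
  fin_cases k
  · exact le_trans (le_add_of_nonneg_right (sq_nonneg _)) hs2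
  · exact le_trans (le_add_of_nonneg_left (sq_nonneg _)) hs2

/-- passage from the recentred box to the box -/
theorem agr_tr {c L q δ u : ℝ} (hc : 1 ≤ c) (hq : 0 ≤ q) (hqd : q ≤ δ) (hu0 : 0 ≤ u) (hu1 : u ≤ 1) (hL : 1 / 2 ≤ L)
    (hL1 : |L - 1| ≤ 6 * c ^ 2 * q) {W W' B : Cbx} {m0 : Ry} (hnb : ∀ k, |nrm W m0 k| ≤ 2) (hκb : |W.κ| ≤ c) (hαb : |W.α| ≤ c)
    (hn : ∀ k, nrm W' m0 k = nrm W m0 k / L) (hκ : W'.κ = W.κ / L) (hα : W'.α = W.α / L) (hu : W'.u2 = u)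
    (hA : Agr δ W' B m0) : AgrU ((1 + 24 * c ^ 3) * δ) u W B m0 := by
  have hc0 : 0 ≤ c := by linarith
  have h23 : c ^ 2 ≤ c ^ 3 := pow_le_pow_right₀ hc (by norm_num)
  have hc3 : 0 ≤ c ^ 3 := by positivity
  obtain ⟨σ, hσ, j1, j2, j3⟩ := hA
  have hσa : |σ| = 1 := by rcases hσ with h | h <;> simp [h]
  refine ⟨σ, hσ, fun k => ?_, ?_, ?_⟩
  · have h1 := j1 k
    rw [hn] at h1
    have h2 := div_close hq hL hL1 (by norm_num : (0:ℝ) ≤ 2) (hnb k)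
    have e : nrm B m0 k - σ * nrm W m0 k = (nrm B m0 k - σ * (nrm W m0 k / L)) + σ * (nrm W m0 k / L - nrm W m0 k) := by
      ring
    rw [e]
    refine (abs_add_le _ _).trans ?_
    rw [abs_mul σ, hσa, one_mul]
    have h5 : 12 * c ^ 2 * 2 * q ≤ 24 * c ^ 3 * δ := by
      calc 12 * c ^ 2 * 2 * q = 24 * c ^ 2 * q := by ring
        _ ≤ 24 * c ^ 3 * δ := mul_le_mul (by linarith) hqd hq (by positivity)
    linarith
  · rw [hκ, hu] at j2
    have h2 := div_close hq hL hL1 hc0 hκb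
    have h4 := abs_add_le (B.κ - σ * (W.κ / L)) (σ * (W.κ / L - W.κ))
    rw [abs_mul σ, hσa, one_mul] at h4
    have h5 : |W.κ / L - W.κ| * u ≤ 12 * c ^ 2 * c * q * 1 := mul_le_mul h2 hu1 hu0 (by positivity)
    have h6 := mul_le_mul_of_nonneg_right h4 hu0
    have h7 : 12 * c ^ 2 * c * q * 1 ≤ 24 * c ^ 3 * δ := by
      calc 12 * c ^ 2 * c * q * 1 = 12 * c ^ 3 * q := by ring
        _ ≤ 24 * c ^ 3 * δ := mul_le_mul (by linarith) hqd hq (by positivity)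
    have e2 : B.κ - σ * (W.κ / L) + σ * (W.κ / L - W.κ) = B.κ - σ * W.κ := by ring
    rw [e2, add_mul] at h6
    linarith
  · rw [hα, hu] at j3
    have h2 := div_close hq hL hL1 hc0 hαb
    have h4 := abs_add_le (B.α - σ * (W.α / L)) (σ * (W.α / L - W.α))
    rw [abs_mul σ, hσa, one_mul] at h4
    have h5 : |W.α / L - W.α| * u ≤ 12 * c ^ 2 * c * q * 1 := mul_le_mul h2 hu1 hu0 (by positivity)
    have h6 := mul_le_mul_of_nonneg_right h4 hu0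
    have h7 : 12 * c ^ 2 * c * q * 1 ≤ 24 * c ^ 3 * δ := by
      calc 12 * c ^ 2 * c * q * 1 = 12 * c ^ 3 * q := by ring
        _ ≤ 24 * c ^ 3 * δ := mul_le_mul (by linarith) hqd hq (by positivity)
    have e2 : B.α - σ * (W.α / L) + σ * (W.α / L - W.α) = B.α - σ * W.α := by ring
    rw [e2, add_mul] at h6
    linarith

/-- **the meet of a box of cap `1` and a box of cap `2^-b0`** -/
theorem meetW (c c1 : ℝ) (hc : 1 ≤ c) (hcc : c ≤ c1) : ∃ N : ℕ, 0 < N ∧ ∀ (q b0 R X : ℕ) (W B : Cbx) (m0 : Ry), b0 + X ≤ R →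
    R ≤ q → 24 * c ^ 2 * (1 / 2 : ℝ) ^ q ≤ 1 → Shp c 0 q W → Shp c1 b0 R B → Bin c W 0 m0 → Bin c1 B 0 m0 →
    (X = 0 ∨ ¬ AgrU ((1 + 24 * c ^ 3) * (2 ^ (X - 1) * (1 / 2) ^ (R - b0))) ((1 / 2) ^ b0) W B m0) →
    ∃ p : ℕ, p ≤ X ∧ ∃ U : Finset Cell, U.card * 2 ^ X ≤ N * 2 ^ (3 * p) ∧
      ∀ l, Bin c W 0 l → Bin c1 B 0 l → pl (b0 + p) l ∈ U := by
  have hc1 : 0 ≤ c1 := by linarith
  set D0 : ℝ := c1 + c1 + 2 * (c1 + c1) * c1 with hD0
  set c2 : ℝ := max (max D0 (4 * c)) (max (2 * c) c1) with hc2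
  have hc21 : 1 ≤ c2 := hc.trans ((hcc.trans (le_max_right _ _)).trans (le_max_right _ _))
  have hc2c1 : c1 ≤ c2 := (le_max_right _ _).trans (le_max_right _ _)
  have hc22 : 2 * c ≤ c2 := (le_max_left _ _).trans (le_max_right _ _)
  have hc2D : max D0 (4 * c) ≤ c2 := le_max_left _ _
  obtain ⟨N, hN, hM⟩ := meetB c2 hc21
  refine ⟨N, hN, ?_⟩
  intro q b0 R X W B m0 hbX hRq hsm hW hB hWm hBm hX
  have hc0 : 0 < c := by linarith
  obtain ⟨W', L, hL, hL1, hS, hn, hκ, hα, hsub⟩ := subW (D := D0) hc b0 (R := R) hW hRq hsm hWm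
  have cls : ∀ {x : ℝ} {B : Cbx} {b R : ℕ}, x ≤ c2 → Shp x b R B → Shp c2 b R B := fun h s =>
    ⟨s.u2, s.u1, s.α2.trans h, s.κ2.trans h⟩
  have bcl : ∀ {x : ℝ} {B : Cbx} {b R : ℕ} {l : Ry}, x ≤ c2 → Shp x b R B → Bin x B 0 l → Bin c2 B 0 l := by
    intro x B b R l h s hl
    exact bin_of s.u2 s.u1 ((bin_nr s hl).mono h) ((bin_g0 s hl).trans (mul_le_mul_of_nonneg_right h (by positivity)))
      ((bin_g1 s hl).trans (mul_le_mul_of_nonneg_right h (by positivity)))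
  have hB0 : ∀ l, Bin c W 0 l → Bin c1 B 0 l → Nr D0 b0 l m0 := by
    intro l _ hl2
    exact Nr.trans' hc1 hc1 (bin_nr hB hl2) (bin_nr hB hBm)
  have bclW : ∀ l, Bin c W 0 l → Bin c1 B 0 l → Bin c2 W' 0 l := by
    intro l hl1 hl2
    have h1 := hsub l hl1 (hB0 l hl1 hl2)
    obtain ⟨i1, i2, i3, i4, i5⟩ := h1
    have p2 : 0 ≤ W'.u2 := by rw [hS.u2]; positivity
    have p1 : 0 ≤ W'.u1 := by rw [hS.u1]; positivity
    have p3 : (0 : ℝ) ≤ max (W'.u2 ^ 2) 0 := le_max_right _ _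
    exact ⟨fun k => (i1 k).trans (mul_le_mul_of_nonneg_right hc2D p2), fun k => (i2 k).trans (mul_le_mul_of_nonneg_right hc2D p2),
      i3.trans (mul_le_mul_of_nonneg_right hc2D p3), i4.trans (mul_le_mul_of_nonneg_right hc2D p1),
      i5.trans (mul_le_mul_of_nonneg_right hc2D p1)⟩
  obtain ⟨p, hpX, U, hU, hcov⟩ := hM b0 R X W' B m0 hbX (cls hc22 hS) (cls hc2c1 hB) (bclW m0 hWm hBm) (bcl hc2c1 hB hBm) (by
    rcases hX with hX | hX
    · exact Or.inl hX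
    · rcases Nat.eq_zero_or_pos X with hX0 | hX0
      · exact Or.inl hX0
      · right
        intro hA
        refine hX (agr_tr hc (by positivity) ?_ (by positivity) (pow_le_one₀ (by norm_num) (by norm_num)) hL hL1
          (nrm_le hc hW hsm hWm) (by simpa [hW.u2] using hW.κ2) (by simpa [hW.u2] using hW.α2) (hn m0) hκ hα hS.u2 hA)
        have h1 : (1 / 2 : ℝ) ^ q ≤ (1 / 2 : ℝ) ^ (R - b0) :=
          pow_le_pow_of_le_one (by norm_num) (by norm_num) (by omega)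
        have h2 : (1 : ℝ) ≤ 2 ^ (X - 1) := one_le_pow₀ (by norm_num)
        have h3 : (0 : ℝ) < (1 / 2 : ℝ) ^ (R - b0) := by positivity
        nlinarith)
  exact ⟨p, hpX, U, hU, fun l hl1 hl2 => hcov l (bclW l hl1 hl2) (bcl hc2c1 hB hl2)⟩

open Classical in
/-- counting of the letter `Y` given the key -/
theorem count_hc {Ω' : Type} [Fintype Ω'] (P' : Law Ω') {κ : Type*} (key : Ω' → κ) (Y : Ω' → Cell) (p : Ω' → ℕ)
    (X b0 N1 N2 : ℕ) (good : Ω' → Prop) (hN1 : 0 < N1) (hN2 : 0 < N2) (hpX : ∀ ω, p ω ≤ X)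
    (hU : ∀ ω, 0 < P'.w ω → good ω → ∃ U : Finset Cell, U.card * 2 ^ X ≤ N1 * 2 ^ (3 * p ω) ∧
      ∀ ω', 0 < P'.w ω' → key ω' = key ω → good ω' → Y ω' ∈ U)
    (hV : ∀ ω, 0 < P'.w ω → ∃ V : Finset Cell, V.card ≤ N2 * 2 ^ (6 * (b0 + p ω)) ∧
      ∀ ω', 0 < P'.w ω' → key ω' = key ω → Y ω' ∈ V) :
    Stk.hc P' Y key ≤ 3 * P'.ex (fun ω => (p ω : ℝ)) * Real.log 2 - X * Real.log 2 +
      (4 * X + 6 * b0) * Real.log 2 * P'.ex (fun ω => if good ω then 0 else 1) +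
      Real.log 2 + Real.log N1 + Real.log N2 := by
  have hl2 : 0 < Real.log 2 := Real.log_pos (by norm_num)
  have hln1 : 0 ≤ Real.log N1 := Real.log_natCast_nonneg _
  have hln2 : 0 ≤ Real.log N2 := Real.log_natCast_nonneg _
  choose! Uf hU1 hU2 using hU
  choose! Vf hV1 hV2 using hV
  have f1 := Stk.hc_le_add' P' Y (fun ω => decide (good ω)) key
  have f2 : Stk.hc P' (fun ω => decide (good ω)) key ≤ Real.log 2 := by
    have := Stk.hc_le_log P' (fun ω => decide (good ω)) key 2 fun ω _ => ⟨Finset.univ, by simp, fun ω' _ _ =>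
      Finset.mem_univ _⟩
    exact_mod_cast this
  have f3 := Vale.Agent.P127.U.PL.hc_le_exlog P' Y (fun ω => (decide (good ω), key ω))
    (fun ω => if good ω then (Uf ω).card else (Vf ω).card) (fun ω hω => by
      by_cases hg : good ω
      · refine ⟨Uf ω, by rw [if_pos hg], fun ω' hω' e => ?_⟩
        simp only [Prod.mk.injEq, decide_eq_decide] at e
        exact hU2 ω hω hg ω' hω' e.2 (e.1.2 hg)
      · refine ⟨Vf ω, by rw [if_neg hg], fun ω' hω' e => ?_⟩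
        simp only [Prod.mk.injEq] at e
        exact hV2 ω hω ω' hω' e.2)
  have f4 : P'.ex (fun ω => Real.log ((if good ω then (Uf ω).card else (Vf ω).card : ℕ) : ℝ)) ≤
      P'.ex (fun ω => (3 * Real.log 2) * (p ω : ℝ) + ((4 * X + 6 * b0) * Real.log 2) * (if good ω then 0 else 1) +
        (-(X * Real.log 2) + Real.log N1 + Real.log N2)) := by
    refine P'.ex_mono fun ω hω => ?_
    have hpω : (p ω : ℝ) ≤ X := by exact_mod_cast hpX ω
    by_cases hg : good ω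
    · rw [if_pos hg, if_pos hg]
      have u3 : 0 < (Uf ω).card := Finset.card_pos.2 ⟨_, hU2 ω hω hg ω hω rfl hg⟩
      have u4 : ((Uf ω).card : ℝ) * 2 ^ X ≤ N1 * 2 ^ (3 * p ω) := by exact_mod_cast hU1 ω hω hg
      have u5 : (0 : ℝ) < (Uf ω).card := by exact_mod_cast u3
      have u6 := Real.log_le_log (by positivity) u4
      have hN1' : (0 : ℝ) < N1 := by exact_mod_cast hN1
      rw [Real.log_mul u5.ne' (by positivity), Real.log_mul hN1'.ne' (by positivity), Real.log_pow, Real.log_pow] at u6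
      push_cast at u6
      linarith
    · rw [if_neg hg, if_neg hg]
      have u1 : 0 < (Vf ω).card := Finset.card_pos.2 ⟨_, hV2 ω hω ω hω rfl⟩
      have u2 : ((Vf ω).card : ℝ) ≤ N2 * 2 ^ (6 * (b0 + p ω)) := by exact_mod_cast hV1 ω hω
      have u5 : (0 : ℝ) < (Vf ω).card := by exact_mod_cast u1
      have u6 := Real.log_le_log u5 u2
      have hN2' : (0 : ℝ) < N2 := by exact_mod_cast hN2
      rw [Real.log_mul hN2'.ne' (by positivity), Real.log_pow] at u6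
      push_cast at u6
      have u7 := mul_le_mul_of_nonneg_right hpω hl2.le
      linarith
  rw [P'.ex_add, P'.ex_add, P'.ex_const_mul, P'.ex_const_mul, P'.ex_const] at f4
  linarith

/-- the letters `p` and `E` -/
theorem letters_top {Ω' γ δ θ : Type} [Fintype Ω'] (P' : Law Ω') (W : Ω' → Cbx) (h : ℕ) (l : Ω' → Ry) (t : Ω' → ℝ) (C : Ω' → γ)
    (G : Ω' → δ) (E : Ω' → θ) (p : Ω' → ℕ) (q : ℕ) (hp : ∀ ω, p ω ≤ q) (Y : Ω' → Cell) :
    Stk.hc P' (fun ω => (G ω, p ω)) (fun ω => (W ω, fl1 h (t ω), C ω)) ≤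
      Stk.hc P' G (fun ω => (W ω, fl1 h (t ω), C ω)) + Real.log (q + 1) ∧
    Stk.hc P' (fun ω => (G ω, p ω)) (fun ω => (l ω, C ω)) ≤ Stk.hc P' G (fun ω => (l ω, C ω)) + Real.log (q + 1) ∧
    Stk.hc P' Y (fun ω => (W ω, fl1 h (t ω), C ω, (G ω, p ω))) ≤
      Stk.hc P' Y (fun ω => (p ω, (kW W h t C G ω, E ω))) + Stk.hc P' E (kW W h t C G) := by
  have hcp : ∀ {T : Type} (Z : Ω' → T), Stk.hc P' p Z ≤ Real.log (q + 1) := by
    intro T Z
    have h2 := Stk.hc_le_log P' p Z (q + 1) fun ω _ => ⟨Finset.range (q + 1), (Finset.card_range _).le, fun ω' _ _ =>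
      Finset.mem_range.2 (by have := hp ω'; omega)⟩
    push_cast at h2
    exact h2
  refine ⟨?_, ?_, ?_⟩
  · have h1 := Apx.hc_pair_le P' G p (fun ω => (W ω, fl1 h (t ω), C ω))
    have h2 := hcp (fun ω => (W ω, fl1 h (t ω), C ω))
    linarith
  · have h1 := Apx.hc_pair_le P' G p (fun ω => (l ω, C ω))
    have h2 := hcp (fun ω => (l ω, C ω))
    linarith
  · have f1 := Stk.hc_le_add' P' Y E (fun ω => (W ω, fl1 h (t ω), C ω, (G ω, p ω)))
    have f2 := Stk.hc_mono_right P' Y (Y := fun ω => (p ω, (kW W h t C G ω, E ω)))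
      (Y' := fun ω => (E ω, (W ω, fl1 h (t ω), C ω, (G ω, p ω)))) (fun ω ω' _ _ e => by
        simp only [kW, Prod.mk.injEq] at e ⊢
        exact ⟨e.2.2.2.2.2, ⟨e.2.1, e.2.2.1, e.2.2.2.1, e.2.2.2.2.1⟩, e.1⟩)
    have f3 := Stk.hc_mono_right P' E
      (Y := kW W h t C G)
      (Y' := fun ω => (W ω, fl1 h (t ω), C ω, (G ω, p ω))) (fun ω ω' _ _ e => by
        simp only [kW, Prod.mk.injEq] at e ⊢
        exact ⟨e.1, e.2.1, e.2.2.1, e.2.2.2.1⟩)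
    linarith

/-- the levels for the keys -/
theorem keys_top {Ω' : Type} (S : Ω' → Prop) {κ : Type*} (key : Ω' → κ) (l : Ω' → Ry) (t : Ω' → ℝ) (h : ℕ)
    (X b0 N1 N2 : ℕ) (good : Ω' → Prop) (W B : Ω' → Cbx) (inW inB : Cbx → Ry → Prop)
    (hkW : ∀ ω ω', S ω → S ω' → key ω = key ω' → W ω = W ω') (hkB : ∀ ω ω', S ω → S ω' → key ω = key ω' → B ω = B ω')
    (hiW : ∀ ω, S ω → inW (W ω) (bl h (l ω) (t ω))) (hiB : ∀ ω, S ω → good ω → inB (B ω) (bl h (l ω) (t ω)))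
    (hM : ∀ ω, S ω → good ω → ∃ p : ℕ, p ≤ X ∧ ∃ U : Finset Cell, U.card * 2 ^ X ≤ N1 * 2 ^ (3 * p) ∧
      ∀ m, inW (W ω) m → inB (B ω) m → pl (b0 + p) m ∈ U)
    (hV : ∀ (n : ℕ) (W0 : Cbx), ∃ V : Finset Cell, V.card ≤ N2 * 2 ^ (6 * n) ∧
      ∀ ω, S ω → W ω = W0 → plb n h (l ω) (t ω) ∈ V) :
    ∃ pf : κ → ℕ, (∀ z, pf z ≤ X) ∧
      (∀ ω, S ω → good ω → ∃ U : Finset Cell, U.card * 2 ^ X ≤ N1 * 2 ^ (3 * pf (key ω)) ∧
        ∀ ω', S ω' → key ω' = key ω → good ω' → plb (b0 + pf (key ω')) h (l ω') (t ω') ∈ U) ∧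
      ∀ ω, S ω → ∃ V : Finset Cell, V.card ≤ N2 * 2 ^ (6 * (b0 + pf (key ω))) ∧
        ∀ ω', S ω' → key ω' = key ω → plb (b0 + pf (key ω')) h (l ω') (t ω') ∈ V := by
  classical
  have hex : ∀ z : κ, ∃ (p : ℕ) (U : Finset Cell), p ≤ X ∧
      ∀ ω, S ω → key ω = z → good ω → plb (b0 + p) h (l ω) (t ω) ∈ U ∧ U.card * 2 ^ X ≤ N1 * 2 ^ (3 * p) := by
    intro z
    by_cases hg : ∃ ω, S ω ∧ key ω = z ∧ good ω
    · obtain ⟨ω0, hω0, e0, hg0⟩ := hg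
      obtain ⟨p, hpX, U, hU, hcov⟩ := hM ω0 hω0 hg0
      refine ⟨p, U, hpX, fun ω hω e hgω => ⟨hcov _ ?_ ?_, hU⟩⟩
      · have := hiW ω hω
        rwa [hkW ω ω0 hω hω0 (e.trans e0.symm)] at this
      · have := hiB ω hω hgω
        rwa [hkB ω ω0 hω hω0 (e.trans e0.symm)] at this
    · exact ⟨0, ∅, Nat.zero_le _, fun ω hω e hgω => absurd ⟨ω, hω, e, hgω⟩ hg⟩
  choose pf Uf hpf hUf using hex
  refine ⟨pf, hpf, fun ω hω hg => ⟨Uf (key ω), (hUf (key ω) ω hω rfl hg).2, fun ω' hω' e hg' => ?_⟩, fun ω hω => ?_⟩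
  · rw [e]
    exact (hUf (key ω) ω' hω' e hg').1
  · obtain ⟨V, hV1, hV2⟩ := hV (b0 + pf (key ω)) (W ω)
    refine ⟨V, hV1, fun ω' hω' e => ?_⟩
    rw [e]
    exact hV2 ω' hω' (hkW ω' ω hω' hω e)

open Classical in
/-- **TOP PIECE**, second slab of shape `(b0, R)` -/
theorem topB (lam N k k' β β' : ℝ) (h0 : 0 ≤ lam) (h1 : lam ≤ 1) (hk : 0 ≤ k) (hkk : k ≤ k') (hk' : k' ≤ lam) (hN : 0 ≤ N)
    (hF : FIXA lam N k' β') (c c1 : ℝ) (hc : 1 ≤ c) (hcc : c ≤ c1) (ε : ℝ) (hε : 0 < ε) : ∃ K : ℝ, 0 ≤ K ∧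
      ∀ (d : ℝ) (Ω : Type) [Fintype Ω]
      (γ : Type) (P : Law Ω) (l : Ω → Ry) (t : Ω → ℝ) (C : Ω → γ) (L h q : ℕ) (W : Ω → Cbx), 1 ≤ h →
      NEx c lam N k β d P l t C L h q W →
      ∀ (Ω' : Type) [Fintype Ω'] (P' : Law Ω') (π : Ω' → Ω), (∀ ω, P'.pr π ω = P.w ω) →
      ∀ (δ ζ θ : Type) (G : Ω' → δ) (D : Ω' → ζ) (E : Ω' → θ) (b0 R X : ℕ) (B : Ω' → Cbx) (good : Ω' → Prop),
      b0 + X ≤ R → R ≤ q →
      (∀ ω, 0 < P'.w ω → good ω → Shp c1 b0 R (B ω) ∧ Bin c1 (B ω) 0 (bl h (l (π ω)) (t (π ω))) ∧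
        (X = 0 ∨ ¬ AgrU ((1 + 24 * c ^ 3) * (2 ^ (X - 1) * (1 / 2) ^ (R - b0))) ((1 / 2) ^ b0) (W (π ω)) (B ω)
          (bl h (l (π ω)) (t (π ω))))) →
      Fn P' B (fun ω => (D ω, (kW (fun ω => W (π ω)) h (fun ω => t (π ω)) (fun ω => C (π ω)) G ω, E ω))) →
      X * Real.log 2 ≤
        Stk.mi P' D (fun ω => l (π ω))
          (fun ω => (kW (fun ω => W (π ω)) h (fun ω => t (π ω)) (fun ω => C (π ω)) G ω, E ω)) +
        (4 * X + 6 * b0) * Real.log 2 * P'.ex (fun ω => if good ω then 0 else 1) +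
        (β' + ε - β + d) * h * Real.log 2 + (1 + N) * Real.log (X + 1) +
        Stk.hc P' E (kW (fun ω => W (π ω)) h (fun ω => t (π ω)) (fun ω => C (π ω)) G) +
        Stk.hc P' G (fun ω => (W (π ω), fl1 h (t (π ω)), C (π ω))) +
        N * Stk.hc P' G (fun ω => (l (π ω), C (π ω))) + K := by
  obtain ⟨K, hK0, hK⟩ := growR lam N k k' β β' h0 h1 hk hkk hN hF c hc ε hε
  obtain ⟨N1, hN1, hM⟩ := meetW c c1 hc hcc
  obtain ⟨N2, hN2, hPl⟩ := planks c (by linarith)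
  have hl2 : 0 < Real.log 2 := Real.log_pos (by norm_num)
  have hln1 : 0 ≤ Real.log N1 := Real.log_natCast_nonneg _
  have hln2 : 0 ≤ Real.log N2 := Real.log_natCast_nonneg _
  have hlc : 0 ≤ Real.log (24 * c ^ 2) := Real.log_nonneg (by nlinarith)
  refine ⟨K + Real.log 2 + Real.log N1 + Real.log N2 + Real.log (24 * c ^ 2), by linarith, ?_⟩
  intro d Ω _ γ P l t C L h q W hh hne Ω' _ P' π g1 δ ζ θ G D E b0 R X B good hXR hRq hB hFnB
  have hc0 : 0 ≤ c := by linarith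
  have hpos : ∀ ω, 0 < P'.w ω → 0 < P.w (π ω) := fun ω hω => by
    rw [← g1]
    exact P'.pr_pos π hω
  have hWS : ∀ ω, 0 < P'.w ω → Shp c 0 q (W (π ω)) ∧ Bin c (W (π ω)) 0 (bl h (l (π ω)) (t (π ω))) := by
    intro ω hω
    obtain ⟨w1, w2, w3⟩ := hne.lb (π ω) (hpos ω hω)
    exact ⟨⟨by rw [w2, pow_zero], w3, w1.α2, w1.κ2⟩, w1.inn⟩
  have hVex : ∀ (n : ℕ) (W0 : Cbx), ∃ V : Finset Cell, V.card ≤ N2 * 2 ^ (6 * n) ∧
      ∀ ω, 0 < P'.w ω → W (π ω) = W0 → plb n h (l (π ω)) (t (π ω)) ∈ V := by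
    intro n W0
    obtain ⟨V, hV1, hV2⟩ := hPl n (cn W0)
    refine ⟨V, hV1, fun ω hω e => hV2 _ ?_⟩
    rw [← e]
    exact bin_nr (hWS ω hω).1 (hWS ω hω).2
  have hPb : 0 ≤ P'.ex (fun ω => if good ω then (0:ℝ) else 1) := P'.ex_nonneg fun ω _ => by split_ifs <;> norm_num
  have hmi := Stk.mi_nonneg P' D (fun ω => l (π ω))
    (fun ω => (kW (fun ω => W (π ω)) h (fun ω => t (π ω)) (fun ω => C (π ω)) G ω, E ω))
  have hE0 := Stk.hc_nonneg P' E (kW (fun ω => W (π ω)) h (fun ω => t (π ω)) (fun ω => C (π ω)) G)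
  have hlq : 0 ≤ Real.log ((X : ℝ) + 1) := Real.log_nonneg (by have : (0 : ℝ) ≤ X := Nat.cast_nonneg X
                                                               linarith)
  rcases le_or_gt (24 * c ^ 2 * (1 / 2 : ℝ) ^ q) 1 with hsm | hsm
  swap
  · -- the trivial case
    have key0 := hK d Ω γ P l t C L h q W hh hne Ω' P' π g1 δ G (fun _ => 0) (fun _ => Nat.zero_le _)
    have e0 : P'.ex (fun _ => ((0 : ℕ) : ℝ)) = 0 := by rw [P'.ex_const]; simp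
    have e1 : Stk.hc P' (fun ω => plb 0 h (l (π ω)) (t (π ω))) (fun ω => (W (π ω), fl1 h (t (π ω)), C (π ω), G ω)) ≤
        Real.log N2 := by
      refine Stk.hc_le_log P' _ _ N2 fun ω hω => ?_
      obtain ⟨V, hV1, hV2⟩ := hVex 0 (W (π ω))
      refine ⟨V, by simpa using hV1, fun ω' hω' e => hV2 ω' hω' ?_⟩
      simp only [Prod.mk.injEq] at e
      exact e.1
    have e2 : (X : ℝ) * Real.log 2 ≤ Real.log (24 * c ^ 2) := by
      have h3 : (2 : ℝ) ^ q ≤ 24 * c ^ 2 := by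
        have h4 : (0 : ℝ) < 2 ^ q := by positivity
        have h5 : 24 * c ^ 2 * (1 / 2 : ℝ) ^ q * 2 ^ q = 24 * c ^ 2 := by
          rw [mul_assoc, ← mul_pow]
          norm_num
        nlinarith
      have h6 := Real.log_le_log (by positivity) h3
      rw [Real.log_pow] at h6
      have h7 : (X : ℝ) ≤ q := by exact_mod_cast (by omega : X ≤ q)
      nlinarith
    have e3 : 0 ≤ (4 * (X : ℝ) + 6 * b0) * Real.log 2 * P'.ex (fun ω => if good ω then (0:ℝ) else 1) := by positivity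
    have e4 : 0 ≤ (1 + N) * Real.log ((X : ℝ) + 1) := mul_nonneg (by linarith) hlq
    rw [e0] at key0
    linarith
  set kk : Ω' → (Cbx × ℤ × γ × δ) × θ :=
    fun ω => (kW (fun ω => W (π ω)) h (fun ω => t (π ω)) (fun ω => C (π ω)) G ω, E ω) with hkk'
  set key : Ω' → ζ × ((Cbx × ℤ × γ × δ) × θ) := fun ω => (D ω, kk ω) with hkey
  have hkW : ∀ ω ω', key ω = key ω' → W (π ω) = W (π ω') := by
    intro ω ω' e
    simp only [hkey, hkk', kW, Prod.mk.injEq] at e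
    exact e.2.1.1
  obtain ⟨pf, hpf, hpU, hpV⟩ := keys_top (fun ω => 0 < P'.w ω) key (fun ω => l (π ω)) (fun ω => t (π ω)) h X b0 N1 N2 good
    (fun ω => W (π ω)) B (fun B m => Bin c B 0 m) (fun B m => Bin c1 B 0 m) (fun ω ω' _ _ e => hkW ω ω' e)
    (fun ω ω' hω hω' e => hFnB ω ω' hω hω' e) (fun ω hω => (hWS ω hω).2) (fun ω hω hg => (hB ω hω hg).2.1)
    (fun ω hω hg => hM q b0 R X (W (π ω)) (B ω) (bl h (l (π ω)) (t (π ω))) hXR hRq hsm
        (hWS ω hω).1 (hB ω hω hg).1 (hWS ω hω).2 (hB ω hω hg).2.1 (hB ω hω hg).2.2) hVex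
  set p : Ω' → ℕ := fun ω => pf (key ω) with hp
  have hpX : ∀ ω, p ω ≤ X := fun ω => hpf _
  have hpq : ∀ ω, b0 + p ω ≤ q := fun ω => by have := hpX ω; omega
  set Y : Ω' → Cell := fun ω => plb (b0 + p ω) h (l (π ω)) (t (π ω)) with hY
  -- GROW
  have key1 := hK d Ω γ P l t C L h q W hh hne Ω' P' π g1 (δ × ℕ) (fun ω => (G ω, p ω)) (fun z => min (b0 + z.2) q)
    (fun z => min_le_right _ _)
  have emin : ∀ ω, min (b0 + p ω) q = b0 + p ω := fun ω => min_eq_left (hpq ω)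
  simp only [emin] at key1
  have eex : P'.ex (fun ω => ((b0 + p ω : ℕ) : ℝ)) = b0 + P'.ex (fun ω => (p ω : ℝ)) := by
    have : (fun ω => ((b0 + p ω : ℕ) : ℝ)) = fun ω => (b0 : ℝ) + (p ω : ℝ) := by
      funext ω
      push_cast
      ring
    rw [this, P'.ex_add, P'.ex_const]
  rw [eex] at key1
  obtain ⟨b1, b2, b4⟩ := letters_top P' (fun ω => W (π ω)) h (fun ω => l (π ω)) (fun ω => t (π ω)) (fun ω => C (π ω)) G E p X
    hpX Y
  have b3 := mul_le_mul_of_nonneg_left b2 hN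
  -- Shannon
  have b5 := mi_top P' D (fun ω => l (π ω)) kk p Y (fun ω ω' _ _ e => congrArg pf e) (fun ω ω' _ _ e => by
    simp only [Prod.mk.injEq] at e
    obtain ⟨e1, e2, e3⟩ := e
    have e4 : fl1 h (t (π ω)) = fl1 h (t (π ω')) := by
      simp only [hkk', kW, Prod.mk.injEq] at e3
      exact e3.1.2.1
    show plb (b0 + p ω) h (l (π ω)) (t (π ω)) = plb (b0 + p ω') h (l (π ω')) (t (π ω'))
    unfold plb
    rw [e2, e1, bl_fl e4])
  -- count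
  have b6 : Stk.hc P' Y (fun ω => (D ω, kk ω)) ≤ 3 * P'.ex (fun ω => (p ω : ℝ)) * Real.log 2 - X * Real.log 2 +
      (4 * X + 6 * b0) * Real.log 2 * P'.ex (fun ω => if good ω then 0 else 1) +
      Real.log 2 + Real.log N1 + Real.log N2 := count_hc P' key Y p X b0 N1 N2 good hN1 hN2 hpX hpU hpV
  have hEp : 0 ≤ P'.ex (fun ω => (p ω : ℝ)) := P'.ex_nonneg fun ω _ => Nat.cast_nonneg _
  have b7 : 0 ≤ (lam - k') * P'.ex (fun ω => (p ω : ℝ)) * Real.log 2 :=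
    mul_nonneg (mul_nonneg (by linarith) hEp) hl2.le
  have b9 : 0 ≤ (3 + lam - k') * b0 * Real.log 2 :=
    mul_nonneg (mul_nonneg (by linarith) (Nat.cast_nonneg _)) hl2.le
  have e1 : (3 + lam) * (b0 + P'.ex (fun ω => (p ω : ℝ))) * Real.log 2 =
      k' * (b0 + P'.ex (fun ω => (p ω : ℝ))) * Real.log 2 + 3 * P'.ex (fun ω => (p ω : ℝ)) * Real.log 2 +
      (lam - k') * P'.ex (fun ω => (p ω : ℝ)) * Real.log 2 + (3 + lam - k') * b0 * Real.log 2 := by ring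
  rw [e1] at key1
  have e2 : (1 + N) * Real.log ((X : ℝ) + 1) = Real.log (X + 1) + N * Real.log (X + 1) := by ring
  rw [e2]
  rw [mul_add] at b3
  linarith

end Vale.Agent.P106.U.Top543
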