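import Vale.Agent.P106.U.H543.TopB
import Vale.Agent.P106.U.H118.Rise
import Vale.Agent.P106.U.H786.Adp2
import Vale.Agent.P106.U.CellW

/-!
# P106 / U / H543 : the top piece of RISE in the cells of the path (helper543)

* `topG` : **TOP PIECE**, general form: the meet is given as a covering by planks for every key.
* `boxF` : box with the covector, `κ`, `α` of a functional `Cell.Fu` at a ray.
* `topC` : **TOP PIECE in the cells of `U/Cell.lean`** (overhang of a heavy interval behind the last step).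
-/

set_option autoImplicit false

namespace Vale.Agent.P106.U.Top543

open Finset Vale.Agent.P127 Vale.Agent.P127.Stk Vale.Agent.P127.U Vale.Agent.P106.W Vale.Agent.P106.K Vale.Agent.P106.U
open Vale.Agent.P106.U.H428 Vale.Agent.P106.U.G480 Vale.Agent.P106.U.GR543
open Vale.Agent.P122.C2 (fn fw)

/-- the levels for the keys -/
theorem keys_topG {Ω' : Type} (S : Ω' → Prop) {κ : Type*} (key : Ω' → κ) (l : Ω' → Ry) (t : Ω' → ℝ) (h : ℕ)
    (X b0 N1 N2 : ℕ) (good : Ω' → Prop)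
    (hM : ∀ ω, S ω → good ω → ∃ p : ℕ, p ≤ X ∧ ∃ U : Finset Cell, U.card * 2 ^ X ≤ N1 * 2 ^ (3 * p) ∧
      ∀ ω', S ω' → good ω' → key ω' = key ω → plb (b0 + p) h (l ω') (t ω') ∈ U)
    (hV : ∀ (n : ℕ) (ω : Ω'), S ω → ∃ V : Finset Cell, V.card ≤ N2 * 2 ^ (6 * n) ∧
      ∀ ω', S ω' → key ω' = key ω → plb n h (l ω') (t ω') ∈ V) :
    ∃ pf : κ → ℕ, (∀ z, pf z ≤ X) ∧
      (∀ ω, S ω → good ω → ∃ U : Finset Cell, U.card * 2 ^ X ≤ N1 * 2 ^ (3 * pf (key ω)) ∧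
        ∀ ω', S ω' → key ω' = key ω → good ω' → plb (b0 + pf (key ω')) h (l ω') (t ω') ∈ U) ∧
      ∀ ω, S ω → ∃ V : Finset Cell, V.card ≤ N2 * 2 ^ (6 * (b0 + pf (key ω))) ∧
        ∀ ω', S ω' → key ω' = key ω → plb (b0 + pf (key ω')) h (l ω') (t ω') ∈ V := by
  classical
  have hex : ∀ z : κ, ∃ (p : ℕ) (U : Finset Cell), p ≤ X ∧
      ∀ ω, S ω → key ω = z → good ω → plb (b0 + p) h (l ω) (t ω) ∈ U ∧ U.card * 2 ^ X ≤ N1 * 2 ^ (3 * p) := by
    intro z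
    by_cases hg : ∃ ω, S ω ∧ key ω = z ∧ good ω
    · obtain ⟨ω0, hω0, e0, hg0⟩ := hg
      obtain ⟨p, hpX, U, hU, hcov⟩ := hM ω0 hω0 hg0
      exact ⟨p, U, hpX, fun ω hω e hgω => ⟨hcov ω hω hgω (e.trans e0.symm), hU⟩⟩
    · exact ⟨0, ∅, Nat.zero_le _, fun ω hω e hgω => absurd ⟨ω, hω, e, hgω⟩ hg⟩
  choose pf Uf hpf hUf using hex
  refine ⟨pf, hpf, fun ω hω hg => ⟨Uf (key ω), (hUf (key ω) ω hω rfl hg).2, fun ω' hω' e hg' => ?_⟩, fun ω hω => ?_⟩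
  · rw [e]
    exact (hUf (key ω) ω' hω' e hg').1
  · obtain ⟨V, hV1, hV2⟩ := hV (b0 + pf (key ω)) ω hω
    refine ⟨V, hV1, fun ω' hω' e => ?_⟩
    rw [e]
    exact hV2 ω' hω' e

open Classical in
/-- **TOP PIECE**, general form -/
theorem topG (lam N k k' β β' : ℝ) (h0 : 0 ≤ lam) (h1 : lam ≤ 1) (hk : 0 ≤ k) (hkk : k ≤ k') (hk' : k' ≤ lam) (hN : 0 ≤ N)
    (hF : FIXA lam N k' β') (c : ℝ) (hc : 1 ≤ c) (ε : ℝ) (hε : 0 < ε) : ∃ K : ℝ, 0 ≤ K ∧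
      ∀ (d : ℝ) (Ω : Type) [Fintype Ω]
      (γ : Type) (P : Law Ω) (l : Ω → Ry) (t : Ω → ℝ) (C : Ω → γ) (L h q : ℕ) (W : Ω → Cbx), 1 ≤ h →
      NEx c lam N k β d P l t C L h q W →
      ∀ (Ω' : Type) [Fintype Ω'] (P' : Law Ω') (π : Ω' → Ω), (∀ ω, P'.pr π ω = P.w ω) →
      ∀ (δ ζ θ : Type) (G : Ω' → δ) (D : Ω' → ζ) (E : Ω' → θ) (b0 X N1 : ℕ) (good : Ω' → Prop), 0 < N1 →
      b0 + X ≤ q →
      (∀ ω, 0 < P'.w ω → good ω → ∃ p : ℕ, p ≤ X ∧ ∃ U : Finset Cell, U.card * 2 ^ X ≤ N1 * 2 ^ (3 * p) ∧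
        ∀ ω', 0 < P'.w ω' → good ω' →
          (D ω', (kW (fun ω => W (π ω)) h (fun ω => t (π ω)) (fun ω => C (π ω)) G ω', E ω')) =
            (D ω, (kW (fun ω => W (π ω)) h (fun ω => t (π ω)) (fun ω => C (π ω)) G ω, E ω)) →
          plb (b0 + p) h (l (π ω')) (t (π ω')) ∈ U) →
      X * Real.log 2 ≤
        Stk.mi P' D (fun ω => l (π ω))
          (fun ω => (kW (fun ω => W (π ω)) h (fun ω => t (π ω)) (fun ω => C (π ω)) G ω, E ω)) +
        (4 * X + 6 * b0) * Real.log 2 * P'.ex (fun ω => if good ω then 0 else 1) +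
        (β' + ε - β + d) * h * Real.log 2 + (1 + N) * Real.log (X + 1) +
        Stk.hc P' E (kW (fun ω => W (π ω)) h (fun ω => t (π ω)) (fun ω => C (π ω)) G) +
        Stk.hc P' G (fun ω => (W (π ω), fl1 h (t (π ω)), C (π ω))) +
        N * Stk.hc P' G (fun ω => (l (π ω), C (π ω))) + Real.log N1 + K := by
  obtain ⟨K, hK0, hK⟩ := growR lam N k k' β β' h0 h1 hk hkk hN hF c hc ε hε
  obtain ⟨N2, hN2, hPl⟩ := planks c (by linarith)
  have hl2 : 0 < Real.log 2 := Real.log_pos (by norm_num)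
  have hln2 : 0 ≤ Real.log N2 := Real.log_natCast_nonneg _
  refine ⟨K + Real.log 2 + Real.log N2, by linarith, ?_⟩
  intro d Ω _ γ P l t C L h q W hh hne Ω' _ P' π g1 δ ζ θ G D E b0 X N1 good hN1 hXq hM
  have hc0 : 0 ≤ c := by linarith
  have hpos : ∀ ω, 0 < P'.w ω → 0 < P.w (π ω) := fun ω hω => by
    rw [← g1]
    exact P'.pr_pos π hω
  have hWS : ∀ ω, 0 < P'.w ω → Shp c 0 q (W (π ω)) ∧ Bin c (W (π ω)) 0 (bl h (l (π ω)) (t (π ω))) := by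
    intro ω hω
    obtain ⟨w1, w2, w3⟩ := hne.lb (π ω) (hpos ω hω)
    exact ⟨⟨by rw [w2, pow_zero], w3, w1.α2, w1.κ2⟩, w1.inn⟩
  have hVex : ∀ (n : ℕ) (W0 : Cbx), ∃ V : Finset Cell, V.card ≤ N2 * 2 ^ (6 * n) ∧
      ∀ ω, 0 < P'.w ω → W (π ω) = W0 → plb n h (l (π ω)) (t (π ω)) ∈ V := by
    intro n W0
    obtain ⟨V, hV1, hV2⟩ := hPl n (cn W0)
    refine ⟨V, hV1, fun ω hω e => hV2 _ ?_⟩
    rw [← e]
    exact bin_nr (hWS ω hω).1 (hWS ω hω).2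
  set kk : Ω' → (Cbx × ℤ × γ × δ) × θ :=
    fun ω => (kW (fun ω => W (π ω)) h (fun ω => t (π ω)) (fun ω => C (π ω)) G ω, E ω) with hkk'
  set key : Ω' → ζ × ((Cbx × ℤ × γ × δ) × θ) := fun ω => (D ω, kk ω) with hkey
  have hkW : ∀ ω ω', key ω = key ω' → W (π ω) = W (π ω') := by
    intro ω ω' e
    simp only [hkey, hkk', kW, Prod.mk.injEq] at e
    exact e.2.1.1
  obtain ⟨pf, hpf, hpU, hpV⟩ := keys_topG (fun ω => 0 < P'.w ω) key (fun ω => l (π ω)) (fun ω => t (π ω)) h X b0 N1 N2 good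
    hM (fun n ω hω => by
      obtain ⟨V, hV1, hV2⟩ := hVex n (W (π ω))
      exact ⟨V, hV1, fun ω' hω' e => hV2 ω' hω' (hkW ω' ω e)⟩)
  set p : Ω' → ℕ := fun ω => pf (key ω) with hp
  have hpX : ∀ ω, p ω ≤ X := fun ω => hpf _
  have hpq : ∀ ω, b0 + p ω ≤ q := fun ω => by have := hpX ω; omega
  set Y : Ω' → Cell := fun ω => plb (b0 + p ω) h (l (π ω)) (t (π ω)) with hY
  -- GROW
  have key1 := hK d Ω γ P l t C L h q W hh hne Ω' P' π g1 (δ × ℕ) (fun ω => (G ω, p ω)) (fun z => min (b0 + z.2) q)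
    (fun z => min_le_right _ _)
  have emin : ∀ ω, min (b0 + p ω) q = b0 + p ω := fun ω => min_eq_left (hpq ω)
  simp only [emin] at key1
  have eex : P'.ex (fun ω => ((b0 + p ω : ℕ) : ℝ)) = b0 + P'.ex (fun ω => (p ω : ℝ)) := by
    have : (fun ω => ((b0 + p ω : ℕ) : ℝ)) = fun ω => (b0 : ℝ) + (p ω : ℝ) := by
      funext ω
      push_cast
      ring
    rw [this, P'.ex_add, P'.ex_const]
  rw [eex] at key1
  obtain ⟨b1, b2, b4⟩ := letters_top P' (fun ω => W (π ω)) h (fun ω => l (π ω)) (fun ω => t (π ω)) (fun ω => C (π ω)) G E p X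
    hpX Y
  have b3 := mul_le_mul_of_nonneg_left b2 hN
  -- Shannon
  have b5 := mi_top P' D (fun ω => l (π ω)) kk p Y (fun ω ω' _ _ e => congrArg pf e) (fun ω ω' _ _ e => by
    simp only [Prod.mk.injEq] at e
    obtain ⟨e1, e2, e3⟩ := e
    have e4 : fl1 h (t (π ω)) = fl1 h (t (π ω')) := by
      simp only [hkk', kW, Prod.mk.injEq] at e3
      exact e3.1.2.1
    show plb (b0 + p ω) h (l (π ω)) (t (π ω)) = plb (b0 + p ω') h (l (π ω')) (t (π ω'))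
    unfold plb
    rw [e2, e1, bl_fl e4])
  -- count
  have b6 : Stk.hc P' Y (fun ω => (D ω, kk ω)) ≤ 3 * P'.ex (fun ω => (p ω : ℝ)) * Real.log 2 - X * Real.log 2 +
      (4 * X + 6 * b0) * Real.log 2 * P'.ex (fun ω => if good ω then 0 else 1) +
      Real.log 2 + Real.log N1 + Real.log N2 := count_hc P' key Y p X b0 N1 N2 good hN1 hN2 hpX hpU hpV
  have hEp : 0 ≤ P'.ex (fun ω => (p ω : ℝ)) := P'.ex_nonneg fun ω _ => Nat.cast_nonneg _
  have b7 : 0 ≤ (lam - k') * P'.ex (fun ω => (p ω : ℝ)) * Real.log 2 :=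
    mul_nonneg (mul_nonneg (by linarith) hEp) hl2.le
  have b9 : 0 ≤ (3 + lam - k') * b0 * Real.log 2 :=
    mul_nonneg (mul_nonneg (by linarith) (Nat.cast_nonneg _)) hl2.le
  have e1 : (3 + lam) * (b0 + P'.ex (fun ω => (p ω : ℝ))) * Real.log 2 =
      k' * (b0 + P'.ex (fun ω => (p ω : ℝ))) * Real.log 2 + 3 * P'.ex (fun ω => (p ω : ℝ)) * Real.log 2 +
      (lam - k') * P'.ex (fun ω => (p ω : ℝ)) * Real.log 2 + (3 + lam - k') * b0 * Real.log 2 := by ring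
  rw [e1] at key1
  have e2 : (1 + N) * Real.log ((X : ℝ) + 1) = Real.log (X + 1) + N * Real.log (X + 1) := by ring
  rw [e2]
  rw [mul_add] at b3
  linarith

/-! ### the box of a functional -/

open Vale.Agent.P106.U.H786 Vale.Agent.P106.U.H786.Adp
open Vale.Agent.P127.U.CellD (q2 rd q2_pos q2_add q2_le q2_mul_pow rd_sub)

/-- **box of a functional at a ray**, in the block of level `h` of `t0` -/
theorem boxF (θ : ℝ) (h b R : ℕ) (t0 : ℝ) (l0 : Ry) (F : Cell.Fu) {L : ℝ} (hL : 0 < L)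
    (hLs : F.cN (toR θ l0) (qa h t0) ^ 2 + F.cV (toR θ l0) (qa h t0) ^ 2 = L ^ 2) :
    ∃ B : Cbx, B.u2 = (1 / 2 : ℝ) ^ b ∧ B.u1 = (1 / 2 : ℝ) ^ R ∧ B.κ = -F.ka / L ∧ B.α = F.al / 2 / 2 ^ h / L ∧
      cn B = bl h l0 t0 ∧
      (∀ l, G0 B (bl h l t0) = 2 ^ h * (F.g (toR θ l) (qa h t0) - F.g (toR θ l0) (qa h t0)) / L ∧
        G1 B (bl h l t0) = (F.gd (toR θ l) (qa h t0) - F.gd (toR θ l0) (qa h t0)) / L) ∧
      fn θ (nrm B (bl h l0 t0)) = F.cN (toR θ l0) (qa h t0) / L ∧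
      fw θ (nrm B (bl h l0 t0)) = -F.cV (toR θ l0) (qa h t0) / L := by
  set T := qa h t0 with hT
  set cN := F.cN (toR θ l0) T with hcN
  set cV := F.cV (toR θ l0) T with hcV
  have hcs := Real.sin_sq_add_cos_sq θ
  have hp : (0 : ℝ) < 2 ^ h := by positivity
  obtain ⟨B, h2, h1, hκ, hα, hc, hB⟩ := mk_box
    (n := ![-(Real.cos θ) * cV - Real.sin θ * cN, -(Real.sin θ) * cV + Real.cos θ * cN])
    (κ := -F.ka) (α := F.al / 2 / 2 ^ h) hL (by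
      simp only [Matrix.cons_val_zero, Matrix.cons_val_one, Matrix.cons_val_fin_one]
      rw [← hLs]
      linear_combination (cN ^ 2 + cV ^ 2) * hcs) (bl h l0 t0) b R
  refine ⟨B, h2, h1, hκ, hα, hc, fun l => ⟨?_, ?_⟩, ?_, ?_⟩
  · rw [(hB l |> fun _ => (hB (bl h l t0)).1)]
    congr 1
    rw [Cell.Fu.g_sub, ← hcN, ← hcV]
    have hz := bl_dz θ h l0 l t0
    have hsq := norm_sq θ (fun k => l.pos T k - l0.pos T k)
    have hX : (toR θ l).X T - (toR θ l0).X T = fw θ (fun k => l.pos T k - l0.pos T k) := by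
      rw [toR_X, toR_X, fw_sub]
    have hN : (toR θ l).N T - (toR θ l0).N T = fn θ (fun k => l.pos T k - l0.pos T k) := by
      rw [toR_N, toR_N, fn_sub]
    rw [hX, hN]
    have ez : ze (bl h l t0) (bl h l0 t0) = 2 ^ h * (toR θ l0).dz (toR θ l) T := by
      rw [← hz]
      rfl
    unfold E0
    rw [ez]
    simp only [Fin.sum_univ_two, Matrix.cons_val_zero, Matrix.cons_val_one, Matrix.cons_val_fin_one, fw, fn, bl] at hsq ⊢
    rw [← hT]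
    field_simp
    linear_combination F.al * hsq
  · rw [(hB (bl h l t0)).2.1]
    congr 1
    rw [Cell.Fu.gd_sub, ← hcN, ← hcV]
    have hz := bl_dz θ h l0 l t0
    have hsq := norm_sq θ (fun k => l.s k - l0.s k)
    have hdt := dot θ (fun k => l.pos T k - l0.pos T k) (fun k => l.s k - l0.s k)
    have hX : (toR θ l).X T - (toR θ l0).X T = fw θ (fun k => l.pos T k - l0.pos T k) := by
      rw [toR_X, toR_X, fw_sub]
    have hN : (toR θ l).N T - (toR θ l0).N T = fn θ (fun k => l.pos T k - l0.pos T k) := by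
      rw [toR_N, toR_N, fn_sub]
    have hv : (toR θ l).v - (toR θ l0).v = fw θ (fun k => l.s k - l0.s k) := by
      show fw θ l.s - fw θ l0.s = _
      rw [fw_sub]
    have hw : (toR θ l).w - (toR θ l0).w = fn θ (fun k => l.s k - l0.s k) := by
      show fn θ l.s - fn θ l0.s = _
      rw [fn_sub]
    rw [hX, hN, hv, hw]
    have ez : ze (bl h l t0) (bl h l0 t0) = 2 ^ h * (toR θ l0).dz (toR θ l) T := by
      rw [← hz]
      rfl
    unfold E1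
    rw [ez]
    simp only [Fin.sum_univ_two, Matrix.cons_val_zero, Matrix.cons_val_one, Matrix.cons_val_fin_one, fw, fn, bl] at hsq hdt ⊢
    rw [← hT]
    field_simp
    linear_combination F.ka * hsq + 2 * F.al * hdt
  · have e : fn θ (nrm B (bl h l0 t0)) = cN / L := by
      unfold fn
      rw [(hB (bl h l0 t0)).2.2 0, (hB (bl h l0 t0)).2.2 1]
      simp only [sub_self, mul_zero, add_zero, sub_zero, Matrix.cons_val_zero, Matrix.cons_val_one,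
        Matrix.cons_val_fin_one]
      field_simp
      linear_combination cN * hcs
    exact e
  · have e : fw θ (nrm B (bl h l0 t0)) = -cV / L := by
      unfold fw
      rw [(hB (bl h l0 t0)).2.2 0, (hB (bl h l0 t0)).2.2 1]
      simp only [sub_self, mul_zero, add_zero, sub_zero, Matrix.cons_val_zero, Matrix.cons_val_one,
        Matrix.cons_val_fin_one]
      field_simp
      linear_combination (-cV) * hcs
    exact e

/-- agreement of the frames gives agreement of the normalised slopes and kappas -/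
theorem agr_ratio {K δ u : ℝ} (hK : 1 ≤ K) (hδ : 0 ≤ δ) (hu : 0 < u) (hu1 : u ≤ 1) {θ L ρ cG vG kG cH vH kH : ℝ} (hL : 0 < L)
    (hLK : L ≤ 3 * K) (hρ : ρ ≠ 0) (g1 : 1 ≤ K * cG) (h1 : 1 ≤ K * cH) (h2 : |cH| ≤ K) (h3 : |vH| ≤ K) (h4 : |kH| ≤ K)
    {B W : Cbx} {m0 : Ry} (bκ : B.κ = -kG / L) (wκ : W.κ = -kH / ρ) (bc : fn θ (nrm B m0) = cG / L)
    (bv : fw θ (nrm B m0) = -vG / L) (wc : fn θ (nrm W m0) = cH / ρ) (wv : fw θ (nrm W m0) = -vH / ρ)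
    (hA : AgrU δ u W B m0) :
    |vG / cG - vH / cH| ≤ 12 * K ^ 4 * (δ / u) ∧ |kG / cG - kH / cH| ≤ 12 * K ^ 4 * (δ / u) := by
  obtain ⟨σ, hσ, j1, j2, -⟩ := hA
  have hσa : |σ| = 1 := by rcases hσ with h | h <;> simp [h]
  have hK0 : 0 < K := by linarith
  have cG0 : 0 < cG := by
    by_contra hcon
    have := mul_nonneg hK0.le (by linarith : 0 ≤ -cG)
    linarith
  have cH0 : 0 < cH := by
    by_contra hcon
    have := mul_nonneg hK0.le (by linarith : 0 ≤ -cH)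
    linarith
  have hδu : δ ≤ δ / u := by
    rw [le_div_iff₀ hu]
    nlinarith
  have a1 : |cG / L - σ * (cH / ρ)| ≤ 2 * δ := by
    have e : cG / L - σ * (cH / ρ) = fn θ (fun k => nrm B m0 k - σ * nrm W m0 k) := by
      rw [← bc, ← wc]
      simp only [fn]
      ring
    rw [e]
    exact fn_le θ j1
  have a2 : |vG / L - σ * (vH / ρ)| ≤ 2 * δ := by
    have e : vG / L - σ * (vH / ρ) = -(fw θ (fun k => nrm B m0 k - σ * nrm W m0 k)) := by
      have e1 : vG / L = -(fw θ (nrm B m0)) := by rw [bv]; ring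
      have e2 : vH / ρ = -(fw θ (nrm W m0)) := by rw [wv]; ring
      rw [e1, e2]
      simp only [fw]
      ring
    rw [e, abs_neg]
    exact fw_le θ j1
  have a3 : |kG / L - σ * (kH / ρ)| ≤ δ / u := by
    rw [bκ, wκ] at j2
    rw [le_div_iff₀ hu]
    have e : kG / L - σ * (kH / ρ) = -(-kG / L - σ * (-kH / ρ)) := by ring
    rw [e, abs_neg]
    exact j2
  have iG : 1 / cG ≤ K := by
    rw [div_le_iff₀ cG0]
    exact g1
  have iH : 1 / cH ≤ K := by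
    rw [div_le_iff₀ cH0]
    exact h1
  have jG : 0 ≤ 1 / cG := by positivity
  have jH : 0 ≤ 1 / cH := by positivity
  have hL0 := hL.ne'
  have key : ∀ x y D : ℝ, |y| ≤ K → |x / L - σ * (y / ρ)| ≤ D → |x / cG - y / cH| ≤ 3 * K ^ 4 * (D + 2 * δ) := by
    intro x y D hy hD
    have hD0 : 0 ≤ D := (abs_nonneg _).trans hD
    have e : x / cG - y / cH = L * (1 / cG) * (1 / cH) * ((x / L - σ * (y / ρ)) * cH - y * (cG / L - σ * (cH / ρ))) := by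
      field_simp
      ring
    rw [e, abs_mul, abs_of_nonneg (by positivity : 0 ≤ L * (1 / cG) * (1 / cH))]
    have k1 : |(x / L - σ * (y / ρ)) * cH - y * (cG / L - σ * (cH / ρ))| ≤ D * K + K * (2 * δ) := by
      refine (abs_sub _ _).trans ?_
      rw [abs_mul, abs_mul]
      exact add_le_add (mul_le_mul hD h2 (abs_nonneg _) hD0) (mul_le_mul hy a1 (abs_nonneg _) hK0.le)
    have k2 : L * (1 / cG) * (1 / cH) ≤ 3 * K * K * K := by gcongr
    calc L * (1 / cG) * (1 / cH) * |(x / L - σ * (y / ρ)) * cH - y * (cG / L - σ * (cH / ρ))|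
        ≤ 3 * K * K * K * (D * K + K * (2 * δ)) := mul_le_mul k2 k1 (abs_nonneg _) (by positivity)
      _ = _ := by ring
  have hK4 : 0 < K ^ 4 := by positivity
  refine ⟨(key vG vH _ h3 a2).trans ?_, (key kG kH _ h4 a3).trans ?_⟩
  · have := mul_le_mul_of_nonneg_left hδu hK4.le
    linarith
  · have := mul_le_mul_of_nonneg_left hδu hK4.le
    linarith [mul_nonneg hK4.le (hδ.trans hδu)]

/-! ### the pair of copies -/

/-- the second copy gives at the step `i1` a slab which differs from the functional `H` of the end label of the first copy,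
written at the time `rd h t` -/
structure PairOk {Ω τ : Type} (C : Cell.Pth Ω τ) (K : ℝ) (i1 e h : ℕ) (H : Ω → Cell.Fu) (w0 w1 : Ω) : Prop where
  ok : C.Ok K w1
  n1 : 1 ≤ K * (H w0).cN (C.l w0) (rd h (C.t w0))
  n2 : |(H w0).cN (C.l w0) (rd h (C.t w0))| ≤ K
  v : |(H w0).cV (C.l w0) (rd h (C.t w0))| ≤ K
  k : |(H w0).ka| ≤ K
  dif : q2 e ≤ |(C.F i1 w1).cV (C.l w1) (C.s i1 w1) / (C.F i1 w1).cN (C.l w1) (C.s i1 w1) -
      (H w0).cV (C.l w0) (rd h (C.t w0)) / (H w0).cN (C.l w0) (rd h (C.t w0))| ∨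
    q2 e ≤ |((C.F i1 w1).ka - (rd h (C.t w0) - C.s i1 w1) * (C.F i1 w1).al) / (C.F i1 w1).cN (C.l w1) (C.s i1 w1) -
      (H w0).ka / (H w0).cN (C.l w0) (rd h (C.t w0))|

/-- the rounded times of the two copies -/
theorem t_near {Ω τ : Type} {C : Cell.Pth Ω τ} {i i1 h : ℕ} (hi : i ≤ i1) (hah : C.a i1 ≤ h) {w0 w1 : Ω}
    (hT : C.T i w0 = C.T i w1) : |rd h (C.t w0) - C.s i1 w1| ≤ q2 (C.a i) := by
  have hai : C.a i ≤ C.a i1 := C.ha hi
  have e0 : rd (C.a i) (C.t w0) = rd (C.a i) (C.t w1) := by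
    unfold rd
    rw [← C.htm i w0, ← C.htm i w1, hT]
  have d1 : rd (C.a i) (C.t w0) ≤ rd h (C.t w0) := Vale.Agent.P127.U.CellD.rd_mono (hai.trans hah) _
  have d2 : rd h (C.t w0) ≤ C.t w0 := Vale.Agent.P127.U.CellD.rd_le _ _
  have d3 : C.t w0 < rd (C.a i) (C.t w0) + q2 (C.a i) := Vale.Agent.P127.U.CellD.lt_rd _ _
  have d4 : rd (C.a i) (C.t w1) ≤ C.s i1 w1 := Vale.Agent.P127.U.CellD.rd_mono hai _
  have d5 : C.s i1 w1 ≤ C.t w1 := Vale.Agent.P127.U.CellD.rd_le _ _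
  have d6 : C.t w1 < rd (C.a i) (C.t w1) + q2 (C.a i) := Vale.Agent.P127.U.CellD.lt_rd _ _
  rw [abs_le]
  constructor <;> linarith

/-- size of the normal covector -/
theorem len_cv {K cG vG : ℝ} (hK : 1 ≤ K) (n1 : 1 ≤ K * cG) (n2 : cG ≤ K) (v1 : |vG| ≤ 2 * K) :
    ∃ L : ℝ, 0 < L ∧ L ≤ 3 * K ∧ 1 / L ≤ K ∧ cG ^ 2 + vG ^ 2 = L ^ 2 := by
  have hK0 : 0 < K := by linarith
  have cG0 : 0 < cG := by
    by_contra hcon
    have := mul_nonneg hK0.le (by linarith : 0 ≤ -cG)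
    linarith
  have hX0 : 0 < cG ^ 2 + vG ^ 2 := by positivity
  have hL0 : 0 < Real.sqrt (cG ^ 2 + vG ^ 2) := Real.sqrt_pos.2 hX0
  have hLc : cG ≤ Real.sqrt (cG ^ 2 + vG ^ 2) := Real.le_sqrt_of_sq_le (by nlinarith [sq_nonneg vG])
  refine ⟨Real.sqrt (cG ^ 2 + vG ^ 2), hL0, ?_, ?_, (Real.sq_sqrt hX0.le).symm⟩
  · refine Real.sqrt_le_iff.2 ⟨by positivity, ?_⟩
    have a1 : vG ^ 2 ≤ (2 * K) ^ 2 := sq_le_sq' (abs_le.1 v1).1 (abs_le.1 v1).2
    have a2 : cG ^ 2 ≤ K ^ 2 := pow_le_pow_left₀ cG0.le n2 2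
    nlinarith
  · rw [div_le_iff₀ hL0]
    exact n1.trans (mul_le_mul_of_nonneg_left hLc hK0.le)

/-- the frame of the box is bounded -/
theorem frame_le {K L ka al d : ℝ} {ai a1 h b0 : ℕ} (hK : 1 ≤ K) (hL0 : 0 < L) (iL : 1 / L ≤ K) (hka : |ka| ≤ K)
    (hal : |al| * q2 a1 ≤ K) (hd : |d| ≤ q2 ai) (hah : a1 ≤ h) (hb0 : a1 ≤ ai + b0) :
    |al / 2 / 2 ^ h / L| * (1 / 2 : ℝ) ^ b0 ≤ 4 * K ^ 2 ∧ |-(ka - d * al) / L| * (1 / 2 : ℝ) ^ b0 ≤ 4 * K ^ 2 := by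
  have hK0 : 0 < K := by linarith
  have hq0 : 0 < q2 a1 := q2_pos _
  constructor
  · have a1 : |al| * (1 / 2 ^ h) ≤ K := by
      have a2 : (1 : ℝ) / 2 ^ h ≤ q2 a1 := by
        have : (1 : ℝ) / 2 ^ h = q2 h := by
          unfold q2
          rw [one_div_pow]
        rw [this]
        exact q2_le hah
      exact (mul_le_mul_of_nonneg_left a2 (abs_nonneg _)).trans hal
    have a3 : |al / 2 / 2 ^ h / L| = |al| * (1 / 2 ^ h) * (1 / L) / 2 := by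
      rw [abs_div, abs_div, abs_div, abs_of_pos hL0, abs_of_pos (by positivity : (0 : ℝ) < 2 ^ h),
        abs_of_pos (by norm_num : (0 : ℝ) < 2)]
      ring
    rw [a3]
    have a4 : |al| * (1 / 2 ^ h) * (1 / L) ≤ K * K := mul_le_mul a1 iL (by positivity) hK0.le
    have a5 : (1 / 2 : ℝ) ^ b0 ≤ 1 := pow_le_one₀ (by norm_num) (by norm_num)
    calc |al| * (1 / 2 ^ h) * (1 / L) / 2 * (1 / 2 : ℝ) ^ b0 ≤ K * K / 2 * 1 := by gcongr
      _ ≤ 4 * K ^ 2 := by nlinarith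
  · have hk1 : |ka - d * al| * (1 / 2 : ℝ) ^ b0 ≤ 2 * K := by
      have a1 : |d * al| * q2 b0 ≤ K := by
        rw [abs_mul]
        have a2 : q2 ai * q2 b0 ≤ q2 a1 := by
          rw [← q2_add]
          exact q2_le hb0
        have a3 : |d| * |al| ≤ q2 ai * |al| := mul_le_mul_of_nonneg_right hd (abs_nonneg _)
        calc |d| * |al| * q2 b0 ≤ q2 ai * |al| * q2 b0 := mul_le_mul_of_nonneg_right a3 (q2_pos _).le
          _ = |al| * (q2 ai * q2 b0) := by ring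
          _ ≤ |al| * q2 a1 := mul_le_mul_of_nonneg_left a2 (abs_nonneg _)
          _ ≤ K := hal
      have a3 : |ka| * q2 b0 ≤ K := by
        have := Cell.Pth.q2_le_one b0
        calc |ka| * q2 b0 ≤ K * 1 := mul_le_mul hka this (q2_pos _).le hK0.le
          _ = K := mul_one _
      have a4 := mul_le_mul_of_nonneg_right (abs_sub ka (d * al)) (q2_pos b0).le
      rw [add_mul] at a4
      show |ka - d * al| * q2 b0 ≤ 2 * K
      linarith
    rw [abs_div, abs_neg, abs_of_pos hL0]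
    calc |ka - d * al| / L * (1 / 2 : ℝ) ^ b0 = |ka - d * al| * (1 / 2 : ℝ) ^ b0 * (1 / L) := by ring
      _ ≤ 2 * K * K := mul_le_mul hk1 iL (by positivity) (by positivity)
      _ ≤ 4 * K ^ 2 := by nlinarith

/-- values of the functional in the block -/
theorem val_le {K L x y M : ℝ} {h R : ℕ} (hK : 1 ≤ K) (hL0 : 0 < L) (iL : 1 / L ≤ K) (hM : 4 * K ^ 2 ≤ M)
    (hx : |x| ≤ 4 * (q2 h * q2 R)) (hy : |y| ≤ 2 * q2 R) :
    |2 ^ h * x / L| ≤ M * (1 / 2 : ℝ) ^ R ∧ |y / L| ≤ M * (1 / 2 : ℝ) ^ R := by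
  have hK0 : 0 < K := by linarith
  have hR : q2 R = (1 / 2 : ℝ) ^ R := rfl
  have hR0 : 0 < (1 / 2 : ℝ) ^ R := by positivity
  constructor
  · rw [abs_div, abs_of_pos hL0, abs_mul, abs_of_pos (by positivity : (0 : ℝ) < 2 ^ h)]
    have a2 : (2 : ℝ) ^ h * q2 h = 1 := q2_mul_pow h
    have a3 : (2 : ℝ) ^ h * |x| ≤ 4 * (1 / 2 : ℝ) ^ R := by
      calc _ ≤ (2 : ℝ) ^ h * (4 * (q2 h * q2 R)) := mul_le_mul_of_nonneg_left hx (by positivity)
        _ = 4 * ((2 : ℝ) ^ h * q2 h) * q2 R := by ring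
        _ = 4 * q2 R := by rw [a2, mul_one]
    calc (2 : ℝ) ^ h * |x| / L = (2 : ℝ) ^ h * |x| * (1 / L) := by ring
      _ ≤ 4 * (1 / 2 : ℝ) ^ R * K := mul_le_mul a3 iL (by positivity) (by positivity)
      _ = 4 * K * (1 / 2 : ℝ) ^ R := by ring
      _ ≤ M * (1 / 2 : ℝ) ^ R := mul_le_mul_of_nonneg_right ((by nlinarith : 4 * K ≤ 4 * K ^ 2).trans hM) hR0.le
  · rw [abs_div, abs_of_pos hL0]
    calc |y| / L = |y| * (1 / L) := by ring
      _ ≤ 2 * q2 R * K := mul_le_mul hy iL (by positivity) (by positivity)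
      _ = 2 * K * (1 / 2 : ℝ) ^ R := by rw [hR]; ring
      _ ≤ M * (1 / 2 : ℝ) ^ R := mul_le_mul_of_nonneg_right ((by nlinarith : 2 * K ≤ 4 * K ^ 2).trans hM) hR0.le

/-- the second ray of the same cell, at the time of the block -/
theorem cell_near {Ω τ : Type} {C : Cell.Pth Ω τ} {ai i1 b h R : ℕ} (hai : ai ≤ C.a i1) (hah : C.a i1 ≤ h)
    (hlev : C.Lev i1 b) (hR : R + 7 * C.μ + h ≤ C.R i1 b + b + ai) {w1 w1' : Ω} (hc : C.cell i1 b w1' = C.cell i1 b w1)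
    {T : ℝ} (hd : |T - C.s i1 w1| ≤ q2 ai) :
    |((C.F i1 w1).sh (T - C.s i1 w1)).g (C.l w1') T - ((C.F i1 w1).sh (T - C.s i1 w1)).g (C.l w1) T| ≤
        4 * (q2 h * q2 R) ∧
      |((C.F i1 w1).sh (T - C.s i1 w1)).gd (C.l w1') T - ((C.F i1 w1).sh (T - C.s i1 w1)).gd (C.l w1) T| ≤ 2 * q2 R := by
  have hE := (Cell.Pth.Nr_of_cell hlev hc.symm).1.evolve (d := T - C.s i1 w1) (a := q2 ai) hd
  rw [show C.s i1 w1 + (T - C.s i1 w1) = T by ring] at hE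
  have hb8 := hlev.1
  have hR8 := hlev.2
  constructor
  · refine hE.g.trans ?_
    have b1 : q2 (C.a i1 + b + C.R i1 b - 7 * C.μ) ≤ q2 h * q2 R := by
      rw [← q2_add]
      exact q2_le (by omega)
    have b2 : q2 ai * q2 (C.R i1 b + b - 5 * C.μ) ≤ q2 h * q2 R := by
      rw [← q2_add, ← q2_add]
      exact q2_le (by omega)
    linarith
  · refine hE.c.trans ?_
    have : q2 (C.R i1 b + b - 5 * C.μ) ≤ q2 R := q2_le (by omega)
    linarith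

/-- **the box of the second copy** -/
theorem pair_box {Ω τ : Type} {C : Cell.Pth Ω τ} {K : ℝ} (hK : 1 ≤ K) {θ : ℝ} {i i1 b b0 h R : ℕ} {ry : Ω → Ry}
    (hCl : ∀ ω, C.l ω = toR θ (ry ω)) (hi : i ≤ i1) (hah : C.a i1 ≤ h) (hb0 : C.a i1 ≤ C.a i + b0) (hlev : C.Lev i1 b)
    (hR : R + 7 * C.μ + h ≤ C.R i1 b + b + C.a i) {w0 w1 : Ω} (hl : ry w0 = ry w1) (hT : C.T i w0 = C.T i w1)
    (hok : C.Ok K w1) :
    ∃ (B : Cbx) (L : ℝ), 0 < L ∧ L ≤ 3 * K ∧ Shp (max 6 (4 * K ^ 2)) b0 R B ∧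
      B.κ = -((C.F i1 w1).ka - (rd h (C.t w0) - C.s i1 w1) * (C.F i1 w1).al) / L ∧
      fn θ (nrm B (bl h (ry w0) (C.t w0))) = (C.F i1 w1).cN (C.l w1) (C.s i1 w1) / L ∧
      fw θ (nrm B (bl h (ry w0) (C.t w0))) = -(C.F i1 w1).cV (C.l w1) (C.s i1 w1) / L ∧
      ∀ w0' w1', ry w0' = ry w1' → C.cell i1 b w1' = C.cell i1 b w1 → fl1 h (C.t w0') = fl1 h (C.t w0) →
        plb b0 h (ry w0') (C.t w0') = plb b0 h (ry w0) (C.t w0) →
        Bin (max 6 (4 * K ^ 2)) B 0 (bl h (ry w0') (C.t w0')) := by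
  have hK0 : 0 < K := by linarith
  have hlw : C.l w1 = toR θ (ry w0) := by rw [hCl, hl]
  have hai : C.a i ≤ C.a i1 := C.ha hi
  have hd := t_near hi hah hT
  have hqa : qa h (C.t w0) = rd h (C.t w0) := rfl
  generalize hTd : rd h (C.t w0) = T at *
  have eT : C.s i1 w1 + (T - C.s i1 w1) = T := by ring
  have hGN : ((C.F i1 w1).sh (T - C.s i1 w1)).cN (toR θ (ry w0)) (qa h (C.t w0)) = (C.F i1 w1).cN (C.l w1) (C.s i1 w1) := by
    have e := Cell.Fu.cN_sh (C.F i1 w1) (C.l w1) (C.s i1 w1) (T - C.s i1 w1)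
    rw [eT] at e
    rw [hqa, ← hlw]
    exact e
  have hGV : ((C.F i1 w1).sh (T - C.s i1 w1)).cV (toR θ (ry w0)) (qa h (C.t w0)) = (C.F i1 w1).cV (C.l w1) (C.s i1 w1) := by
    have e := Cell.Fu.cV_sh (C.F i1 w1) (C.l w1) (C.s i1 w1) (T - C.s i1 w1)
    rw [eT] at e
    rw [hqa, ← hlw]
    exact e
  have n1 := hok.n1 i1
  have n2 := hok.n2 i1
  have v1 : |(C.F i1 w1).cV (C.l w1) (C.s i1 w1)| ≤ 2 * K := by
    have hrf := C.R_le_rf i1 b
    have hp : |rd (C.rf i1) (C.p w1)| ≤ 2 * q2 (2 * C.μ) := Cell.Pth.p_le hok (by have := hlev.2; omega)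
    have hq1 := Cell.Pth.q2_le_one (2 * C.μ)
    rw [Cell.Pth.F_cV i1 w1, abs_mul]
    exact mul_le_mul (by linarith) (Cell.Pth.cN_abs hok hK i1) (abs_nonneg _) (by norm_num)
  obtain ⟨L, hL0, hLK, iL, hLs⟩ := len_cv hK n1 n2 v1
  obtain ⟨B, u2, u1, κB, αB, hcn, hg, hfn, hfw⟩ := boxF θ h b0 R (C.t w0) (ry w0) ((C.F i1 w1).sh (T - C.s i1 w1)) hL0
    (by rw [hGN, hGV, hLs])
  obtain ⟨f1, f2⟩ := frame_le hK hL0 iL (hok.k1 i1) (hok.a1 i1) hd hah hb0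
  have hM : 4 * K ^ 2 ≤ max (6 : ℝ) (4 * K ^ 2) := le_max_right _ _
  refine ⟨B, L, hL0, hLK, ⟨u2, u1, ?_, ?_⟩, by rw [κB]; rfl, by rw [hfn, hGN], by rw [hfw, hGV], ?_⟩
  · rw [αB, u2]
    exact f1.trans hM
  · rw [κB, u2]
    exact f2.trans hM
  · intro w0' w1' hl' hcell hth hpl
    have hb' : bl h (ry w0') (C.t w0') = bl h (ry w0') (C.t w0) := bl_fl hth _
    have hw' : C.l w1' = toR θ (ry w0') := by rw [hCl, hl']
    obtain ⟨c1, c2⟩ := cell_near hai hah hlev hR hcell hd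
    rw [hw', hlw] at c1 c2
    obtain ⟨d1, d2⟩ := val_le hK hL0 iL hM c1 c2
    have hnr : Nr 6 b0 (bl h (ry w0') (C.t w0')) (bl h (ry w0) (C.t w0)) := nr_cell hpl
    rw [hb'] at hnr ⊢
    refine bin_of u2 u1 ?_ ?_ ?_
    · rw [hcn]
      exact hnr.mono (le_max_left _ _)
    · rw [(hg (ry w0')).1, hqa]
      exact d1
    · rw [(hg (ry w0')).2, hqa]
      exact d2

/-- a multiple of the functional of the label -/
def sclF (ρ : ℝ) (F : Cell.Fu) : Cell.Fu := ⟨ρ * F.ga, ρ * F.ph, ρ * F.ka, ρ * F.al⟩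

theorem sclF_cN (ρ : ℝ) (F : Cell.Fu) (l : Cell.Ray) (s : ℝ) : (sclF ρ F).cN l s = ρ * F.cN l s := by
  simp only [sclF, Cell.Fu.cN]
  ring

theorem sclF_cV (ρ : ℝ) (F : Cell.Fu) (l : Cell.Ray) (s : ℝ) : (sclF ρ F).cV l s = ρ * F.cV l s := by
  simp only [sclF, Cell.Fu.cV]
  ring

/-- **the boxes do not agree** -/
theorem pair_na {Ω τ : Type} {C : Cell.Pth Ω τ} {K c : ℝ} (hK : 1 ≤ K) (hc : 1 ≤ c) {z : ℕ}
    (hz : 12 * K ^ 4 * (1 + 24 * c ^ 3) < 2 ^ (z + 1)) {θ : ℝ} {i1 b0 e X h : ℕ} (hX : 1 ≤ X) {ry : Ω → Ry} {H : Ω → Cell.Fu}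
    (hCl : ∀ ω, C.l ω = toR θ (ry ω)) {w0 w1 : Ω} (hP : PairOk C K i1 e h H w0 w1)
    {W B : Cbx} {ρ : ℝ} (hρ : ρ ≠ 0) (hH : H w0 = sclF ρ (FW θ h W (C.t w0))) {L : ℝ} (hL : 0 < L) (hLK : L ≤ 3 * K)
    (bκ : B.κ = -((C.F i1 w1).ka - (rd h (C.t w0) - C.s i1 w1) * (C.F i1 w1).al) / L)
    (bc : fn θ (nrm B (bl h (ry w0) (C.t w0))) = (C.F i1 w1).cN (C.l w1) (C.s i1 w1) / L)
    (bv : fw θ (nrm B (bl h (ry w0) (C.t w0))) = -(C.F i1 w1).cV (C.l w1) (C.s i1 w1) / L) :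
    ¬ AgrU ((1 + 24 * c ^ 3) * (2 ^ (X - 1) * (1 / 2) ^ (X + 2 * b0 + e + z - b0))) ((1 / 2) ^ b0) W B
      (bl h (ry w0) (C.t w0)) := by
  intro hA
  have hK0 : 0 < K := by linarith
  have hc3 : 0 < 1 + 24 * c ^ 3 := by positivity
  set δ : ℝ := (1 + 24 * c ^ 3) * (2 ^ (X - 1) * (1 / 2) ^ (X + 2 * b0 + e + z - b0)) with hδ
  have hu : (0 : ℝ) < (1 / 2) ^ b0 := by positivity
  have wc : fn θ (nrm W (bl h (ry w0) (C.t w0))) = (H w0).cN (C.l w0) (rd h (C.t w0)) / ρ := by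
    have e1 := FW_cN θ h W (C.t w0) (ry w0)
    rw [hH, sclF_cN, hCl]
    rw [mul_div_assoc, mul_comm ρ, div_mul_cancel₀ _ hρ]
    show _ = (FW θ h W (C.t w0)).cN (toR θ (ry w0)) (qa h (C.t w0))
    rw [e1]
    congr 1
    funext k
    rw [nrm_eq]
    exact (fuW_cov h W (C.t w0) (ry w0) k).symm
  have wv : fw θ (nrm W (bl h (ry w0) (C.t w0))) = -(H w0).cV (C.l w0) (rd h (C.t w0)) / ρ := by
    have e1 := FW_cV θ h W (C.t w0) (ry w0)
    rw [hH, sclF_cV, hCl]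
    have e2 : -(ρ * (FW θ h W (C.t w0)).cV (toR θ (ry w0)) (rd h (C.t w0))) / ρ =
        -(FW θ h W (C.t w0)).cV (toR θ (ry w0)) (rd h (C.t w0)) := by
      field_simp
    rw [e2]
    show _ = -(FW θ h W (C.t w0)).cV (toR θ (ry w0)) (qa h (C.t w0))
    rw [e1, neg_neg]
    congr 1
    funext k
    rw [nrm_eq]
    exact (fuW_cov h W (C.t w0) (ry w0) k).symm
  have wκ : W.κ = -(H w0).ka / ρ := by
    have e1 := FW_ka θ h W (C.t w0)
    rw [hH]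
    show W.κ = -(ρ * (FW θ h W (C.t w0)).ka) / ρ
    rw [e1]
    field_simp
  obtain ⟨r1, r2⟩ := agr_ratio hK (δ := δ) (u := (1 / 2) ^ b0) (by positivity) hu (pow_le_one₀ (by norm_num) (by norm_num)) hL hLK
    hρ (hP.ok.n1 i1) hP.n1 hP.n2 hP.v hP.k bκ wκ bc bv wc wv hA
  have e3 : δ / (1 / 2) ^ b0 = (1 + 24 * c ^ 3) * (q2 e * (1 / 2) ^ (z + 1)) := by
    rw [hδ, div_eq_iff hu.ne']
    have e4 : (1 / 2 : ℝ) ^ (X + 2 * b0 + e + z - b0) = (1 / 2 : ℝ) ^ (X - 1) * ((1 / 2 : ℝ) ^ (z + 1) * (q2 e * (1 / 2 : ℝ) ^ b0)) := by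
      unfold q2
      rw [← pow_add, ← pow_add, ← pow_add]
      congr 1
      omega
    have e5 : (2 : ℝ) ^ (X - 1) * (1 / 2 : ℝ) ^ (X - 1) = 1 := pw_b _
    rw [e4]
    linear_combination (1 + 24 * c ^ 3) * ((1 / 2 : ℝ) ^ (z + 1) * (q2 e * (1 / 2 : ℝ) ^ b0)) * e5
  have e6 : 12 * K ^ 4 * (δ / (1 / 2) ^ b0) < q2 e := by
    rw [e3]
    have e7 : (1 / 2 : ℝ) ^ (z + 1) * 2 ^ (z + 1) = 1 := by rw [mul_comm]; exact pw_b _
    have e8 : 0 < (1 / 2 : ℝ) ^ (z + 1) := by positivity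
    have e9 := mul_lt_mul_of_pos_left hz (mul_pos (q2_pos e) e8)
    have e10 : q2 e * (1 / 2 : ℝ) ^ (z + 1) * 2 ^ (z + 1) = q2 e := by rw [mul_assoc, e7, mul_one]
    linarith
  rcases hP.dif with h1 | h1 <;> linarith

open Classical in
theorem ex_prE {Ω : Type} [Fintype Ω] (P : Law Ω) (good : Ω → Prop) :
    P.ex (fun ω => if good ω then 0 else 1) = prE P (fun ω => ¬ good ω) := by
  unfold prE Law.ex
  rw [Finset.sum_filter]
  refine Finset.sum_congr rfl fun ω _ => ?_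
  show P.w ω * (if good ω then 0 else 1) = _
  by_cases h : good ω
  · rw [if_pos h, if_neg (not_not.2 h), mul_zero]
  · rw [if_neg h, if_pos h, mul_one]

/-- the letter `E` of the top piece -/
theorem hc_E {Ω' δ γ ζ : Type} [Fintype Ω'] (P' : Law Ω') {c : ℝ} (hc : 1 ≤ c) {N2 N3 : ℕ} (hN2 : 0 < N2)
    (hN3 : 4 * c ≤ N3) {W : Ω' → Cbx} {h q : ℕ} {l : Ω' → Ry} {t : Ω' → ℝ} {Cc : Ω' → γ} {G : Ω' → δ}
    (hWS : ∀ ω, 0 < P'.w ω → Shp c 0 q (W ω) ∧ Bin c (W ω) 0 (bl h (l ω) (t ω)))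
    (hPl : ∀ (p : ℕ) (m' : Ry), ∃ Q : Finset Cell, Q.card ≤ N2 * 2 ^ (6 * p) ∧ ∀ m, Nr c 0 m m' → pl p m ∈ Q)
    (θ : ℝ) (b b0 : ℕ) (E : Ω' → ζ) :
    Stk.hc P' (fun ω => (plb b0 h (l ω) (t ω), E ω)) (kW W h t Cc G) ≤
      (6 * b0 + b) * Real.log 2 + Stk.hc P' E (fun ω => (fl1 b (toR θ (l ω)).v, kW W h t Cc G ω)) +
      Real.log N2 + Real.log (2 * N3 + 3) := by
  have h1 := Apx.hc_pair_le P' (fun ω => plb b0 h (l ω) (t ω)) E (kW W h t Cc G)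
  have h2 := Stk.hc_le_add' P' E (fun ω => fl1 b (toR θ (l ω)).v) (kW W h t Cc G)
  have h3 : Stk.hc P' (fun ω => plb b0 h (l ω) (t ω)) (kW W h t Cc G) ≤ Real.log N2 + 6 * b0 * Real.log 2 := by
    have h4 := Stk.hc_le_log P' (fun ω => plb b0 h (l ω) (t ω)) (kW W h t Cc G) (N2 * 2 ^ (6 * b0)) fun ω hω => by
      obtain ⟨V, hV1, hV2⟩ := hPl b0 (cn (W ω))
      refine ⟨V, hV1, fun ω' hω' e => hV2 _ ?_⟩
      simp only [kW, Prod.mk.injEq] at e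
      rw [← e.1]
      exact bin_nr (hWS ω' hω').1 (hWS ω' hω').2
    refine h4.trans (le_of_eq ?_)
    push_cast
    rw [Real.log_mul (by positivity) (by positivity), Real.log_pow]
    push_cast
    ring
  have h5 : Stk.hc P' (fun ω => fl1 b (toR θ (l ω)).v) (kW W h t Cc G) ≤ Real.log (2 * N3 + 3) + b * Real.log 2 := by
    have h6 := Stk.hc_le_log P' (fun ω => fl1 b (toR θ (l ω)).v) (kW W h t Cc G) ((2 * N3 + 3) * 2 ^ b) fun ω hω => by
      refine ⟨Iz (N3 * 2 ^ b) (fl1 b (toR θ (l ω)).v), ?_, fun ω' hω' e => ?_⟩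
      · rw [Iz_card]
        have : 1 ≤ 2 ^ b := Nat.one_le_two_pow
        nlinarith
      · simp only [kW, Prod.mk.injEq] at e
        have eq : qa h (t ω') = qa h (t ω) := by
          unfold qa
          rw [e.2.1]
        have hb := box_close hc θ (by rw [(hWS ω hω).1.u2]) (by rw [(hWS ω hω).1.u1]) (hWS ω hω).2
          (by rw [← e.1]; exact (hWS ω' hω').2) eq
        have hv := hb.v
        rw [pow_zero, mul_one] at hv
        refine fl1_near_mem (E := 4 * c * 2 ^ b) ?_ ?_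
        · rw [mul_assoc, pw_b, mul_one]
          exact hv
        · push_cast
          exact mul_le_mul_of_nonneg_right hN3 (by positivity)
    refine h6.trans (le_of_eq ?_)
    push_cast
    rw [Real.log_mul (by positivity) (by positivity), Real.log_pow]
  linarith

/-- the meet of the label of the first copy and the cell of the second copy -/
theorem pair_meet {Ω τ : Type} {C : Cell.Pth Ω τ} {K c : ℝ} (hK : 1 ≤ K) (hc : 1 ≤ c) {z N1 : ℕ}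
    (hz : 12 * K ^ 4 * (1 + 24 * c ^ 3) < 2 ^ (z + 1))
    (hM : ∀ (q b0 R X : ℕ) (W B : Cbx) (m0 : Ry), b0 + X ≤ R →
      R ≤ q → 24 * c ^ 2 * (1 / 2 : ℝ) ^ q ≤ 1 → Shp c 0 q W → Shp (max c (max 6 (4 * K ^ 2))) b0 R B → Bin c W 0 m0 →
      Bin (max c (max 6 (4 * K ^ 2))) B 0 m0 →
      (X = 0 ∨ ¬ AgrU ((1 + 24 * c ^ 3) * (2 ^ (X - 1) * (1 / 2) ^ (R - b0))) ((1 / 2) ^ b0) W B m0) →
      ∃ p : ℕ, p ≤ X ∧ ∃ U : Finset Cell, U.card * 2 ^ X ≤ N1 * 2 ^ (3 * p) ∧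
        ∀ l, Bin c W 0 l → Bin (max c (max 6 (4 * K ^ 2))) B 0 l → pl (b0 + p) l ∈ U)
    {θ : ℝ} {i i1 b b0 e h X q : ℕ} {ry : Ω → Ry} {H : Ω → Cell.Fu} {W : Ω → Cbx}
    (hCl : ∀ ω, C.l ω = toR θ (ry ω)) (hi : i ≤ i1) (hah : C.a i1 ≤ h) (hb0 : C.a i1 ≤ C.a i + b0) (hlev : C.Lev i1 b)
    (hR : X + 2 * b0 + e + z + 7 * C.μ + h ≤ C.R i1 b + b + C.a i) (hq : X + 2 * b0 + e + z ≤ q)
    (hsm : 24 * c ^ 2 * (1 / 2 : ℝ) ^ q ≤ 1) {w0 w1 : Ω} (hl : ry w0 = ry w1)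
    (hT : C.T i w0 = C.T i w1) (hP : PairOk C K i1 e h H w0 w1)
    (hW : Shp c 0 q (W w0) ∧ Bin c (W w0) 0 (bl h (ry w0) (C.t w0)))
    (hH : ∃ ρ : ℝ, ρ ≠ 0 ∧ H w0 = sclF ρ (FW θ h (W w0) (C.t w0))) :
    ∃ p : ℕ, p ≤ X ∧ ∃ U : Finset Cell, U.card * 2 ^ X ≤ N1 * 2 ^ (3 * p) ∧
      ∀ w0' w1', ry w0' = ry w1' → C.cell i1 b w1' = C.cell i1 b w1 → fl1 h (C.t w0') = fl1 h (C.t w0) → W w0' = W w0 →
        plb b0 h (ry w0') (C.t w0') = plb b0 h (ry w0) (C.t w0) → Bin c (W w0') 0 (bl h (ry w0') (C.t w0')) →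
        plb (b0 + p) h (ry w0') (C.t w0') ∈ U := by
  obtain ⟨ρ, hρ, hH⟩ := hH
  obtain ⟨B, L, hL, hLK, hS, bκ, bc, bv, hB⟩ := pair_box (R := X + 2 * b0 + e + z) hK hCl hi hah hb0 hlev hR hl hT hP.ok
  have hc1 : max (6 : ℝ) (4 * K ^ 2) ≤ max c (max 6 (4 * K ^ 2)) := le_max_right _ _
  have bcl : ∀ {l : Ry}, Bin (max 6 (4 * K ^ 2)) B 0 l → Bin (max c (max 6 (4 * K ^ 2))) B 0 l := by
    intro l hl
    exact bin_of hS.u2 hS.u1 ((bin_nr hS hl).mono hc1) ((bin_g0 hS hl).trans (mul_le_mul_of_nonneg_right hc1 (by positivity)))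
      ((bin_g1 hS hl).trans (mul_le_mul_of_nonneg_right hc1 (by positivity)))
  obtain ⟨p, hp, U, hU, hcov⟩ := hM q b0 (X + 2 * b0 + e + z) X (W w0) B (bl h (ry w0) (C.t w0)) (by omega) hq hsm hW.1
    ⟨hS.u2, hS.u1, hS.α2.trans hc1, hS.κ2.trans hc1⟩ hW.2 (bcl (hB w0 w1 hl rfl rfl rfl)) (by
      rcases Nat.eq_zero_or_pos X with hX | hX
      · exact Or.inl hX
      · exact Or.inr (pair_na hK hc hz hX hCl hP hρ hH hL hLK bκ bc bv))
  refine ⟨p, hp, U, hU, fun w0' w1' h1 h2 h3 h4 h5 h6 => ?_⟩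
  refine hcov _ ?_ (bcl (hB w0' w1' h1 h2 h3 h5))
  rw [← h4]
  exact h6

/-- **TOP PIECE IN THE CELLS OF THE PATH** (overhang of a heavy interval behind the last step) -/
theorem topC (lam N k k' β β' : ℝ) (h0 : 0 ≤ lam) (h1 : lam ≤ 1) (hk : 0 ≤ k) (hkk : k ≤ k') (hk' : k' ≤ lam) (hN : 0 ≤ N)
    (hF : FIXA lam N k' β') (c K1 : ℝ) (hc : 1 ≤ c) (hK1 : 1 ≤ K1) (ε : ℝ) (hε : 0 < ε) : ∃ (K : ℝ) (z : ℕ), 0 ≤ K ∧
      ∀ (d : ℝ) (Ω : Type) [Fintype Ω]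
      (γ : Type) (P : Law Ω) (l : Ω → Ry) (t : Ω → ℝ) (Cc : Ω → γ) (L h q : ℕ) (W : Ω → Cbx), 1 ≤ h →
      NEx c lam N k β d P l t Cc L h q W →
      ∀ (Ω' : Type) [Fintype Ω'] (P' : Law Ω') (π : Ω' → Ω), (∀ ω, P'.pr π ω = P.w ω) →
      ∀ (δ τ χ : Type) (G : Ω' → δ) (C : Cell.Pth Ω' τ) (V : Ω' → χ) (θ : ℝ) (H : Ω' → Cell.Fu) (i i1 n b b0 X e : ℕ),
      (∀ ω, C.l ω = toR θ (l (π ω))) → (∀ ω, C.t ω = t (π ω)) →
      (∀ ω, 0 < P'.w ω → ∃ ρ : ℝ, ρ ≠ 0 ∧ H ω = sclF ρ (FW θ h (W (π ω)) (t (π ω)))) →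
      (∀ ω ω', 0 < P'.w ω → 0 < P'.w ω' → V ω = V ω' → C.l ω = C.l ω' ∧ C.T i ω = C.T i ω') →
      i ≤ i1 → C.a i1 ≤ h → C.a i1 ≤ C.a i + b0 → C.Lev i1 b →
      X + 2 * b0 + e + z + 7 * C.μ + h ≤ C.R i1 b + b + C.a i → X + 2 * b0 + e + z ≤ q →
      X * Real.log 2 ≤
        Stk.hc (H118.two P' V) (fun p => C.cell i1 b p.snd) (fun p => (C.cell n b p.fst, C.VZ n b p.fst)) +
        (4 * X + 6 * b0) * Real.log 2 * prE (H118.two P' V) (fun p => ¬ PairOk C K1 i1 e h H p.fst p.snd) +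
        (β' + ε - β + d) * h * Real.log 2 + (1 + N) * Real.log (X + 1) + (6 * b0 + b) * Real.log 2 +
        Stk.hc P' (fun ω => (C.cell n b ω, C.VZ n b ω)) (fun ω => (fl1 b (C.l ω).v,
          kW (fun ω => W (π ω)) h (fun ω => t (π ω)) (fun ω => Cc (π ω)) G ω)) +
        Stk.hc P' G (fun ω => (W (π ω), fl1 h (t (π ω)), Cc (π ω))) +
        N * Stk.hc P' G (fun ω => (l (π ω), Cc (π ω))) + K := by
  classical
  obtain ⟨K, hK0, hK⟩ := topG lam N k k' β β' h0 h1 hk hkk hk' hN hF c hc ε hε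
  obtain ⟨N1, hN1, hM⟩ := meetW c (max c (max 6 (4 * K1 ^ 2))) hc (le_max_left _ _)
  obtain ⟨N2, hN2, hPl⟩ := planks c (by linarith)
  obtain ⟨N3, hN3⟩ := exists_nat_ge (4 * c)
  obtain ⟨z, hz⟩ := pow_unbounded_of_one_lt (12 * K1 ^ 4 * (1 + 24 * c ^ 3)) (by norm_num : (1 : ℝ) < 2)
  have hz' : 12 * K1 ^ 4 * (1 + 24 * c ^ 3) < 2 ^ (z + 1) :=
    hz.trans_le (pow_le_pow_right₀ (by norm_num) (Nat.le_succ z))
  have hl2 : 0 < Real.log 2 := Real.log_pos (by norm_num)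
  have hln1 : 0 ≤ Real.log N1 := Real.log_natCast_nonneg _
  have hln2 : 0 ≤ Real.log N2 := Real.log_natCast_nonneg _
  have hln3 : 0 ≤ Real.log (2 * N3 + 3) := Real.log_nonneg (by have : (0 : ℝ) ≤ N3 := Nat.cast_nonneg _; linarith)
  have hlc : 0 ≤ Real.log (24 * c ^ 2) := Real.log_nonneg (by nlinarith)
  refine ⟨K + Real.log N1 + 2 * Real.log N2 + Real.log (2 * N3 + 3) + Real.log (24 * c ^ 2), z, by linarith, ?_⟩
  intro d Ω _ γ P l t Cc L h q W hh hne Ω' _ P' π g1 δ τ χ G C V θ H i i1 n b b0 X e hCl hCt hH hV hi hah hb0 hlev hR hq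
  have hpos : ∀ ω, 0 < P'.w ω → 0 < P.w (π ω) := fun ω hω => by
    rw [← g1]
    exact P'.pr_pos π hω
  have hWS : ∀ ω, 0 < P'.w ω → Shp c 0 q (W (π ω)) ∧ Bin c (W (π ω)) 0 (bl h (l (π ω)) (t (π ω))) := by
    intro ω hω
    obtain ⟨w1, w2, w3⟩ := hne.lb (π ω) (hpos ω hω)
    exact ⟨⟨by rw [w2, pow_zero], w3, w1.α2, w1.κ2⟩, w1.inn⟩
  -- the pair
  have g2 : ∀ ω, (H118.two P' V).pr (fun p => π p.fst) ω = P.w ω := fun ω => by
    rw [← g1]
    exact Law.glue_pr (fun _ => rfl) π ω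
  have hE := hc_E P' (G := G) (Cc := fun ω => Cc (π ω)) hc hN2 hN3 hWS hPl θ b b0 (fun ω => (C.cell n b ω, C.VZ n b ω))
  have eE : Stk.hc (H118.two P' V) (fun p => (plb b0 h (l (π p.fst)) (t (π p.fst)), (C.cell n b p.fst, C.VZ n b p.fst)))
      (kW (fun p => W (π p.fst)) h (fun p => t (π p.fst)) (fun p => Cc (π p.fst)) (fun p => G p.fst)) =
      Stk.hc P' (fun ω => (plb b0 h (l (π ω)) (t (π ω)), (C.cell n b ω, C.VZ n b ω)))
      (kW (fun ω => W (π ω)) h (fun ω => t (π ω)) (fun ω => Cc (π ω)) G) :=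
    H118.two_hc P' V (fun ω => (plb b0 h (l (π ω)) (t (π ω)), (C.cell n b ω, C.VZ n b ω)))
      (kW (fun ω => W (π ω)) h (fun ω => t (π ω)) (fun ω => Cc (π ω)) G)
  have eG1 : Stk.hc (H118.two P' V) (fun p => G p.fst) (fun p => (W (π p.fst), fl1 h (t (π p.fst)), Cc (π p.fst))) =
      Stk.hc P' G (fun ω => (W (π ω), fl1 h (t (π ω)), Cc (π ω))) :=
    H118.two_hc P' V G (fun ω => (W (π ω), fl1 h (t (π ω)), Cc (π ω)))
  have eG2 : Stk.hc (H118.two P' V) (fun p => G p.fst) (fun p => (l (π p.fst), Cc (π p.fst))) =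
      Stk.hc P' G (fun ω => (l (π ω), Cc (π ω))) := H118.two_hc P' V G (fun ω => (l (π ω), Cc (π ω)))
  have hD : Stk.mi (H118.two P' V) (fun p => C.cell i1 b p.snd) (fun p => l (π p.fst)) (fun p =>
      (kW (fun p => W (π p.fst)) h (fun p => t (π p.fst)) (fun p => Cc (π p.fst)) (fun p => G p.fst) p,
        (plb b0 h (l (π p.fst)) (t (π p.fst)), (C.cell n b p.fst, C.VZ n b p.fst)))) ≤
      Stk.hc (H118.two P' V) (fun p => C.cell i1 b p.snd) (fun p => (C.cell n b p.fst, C.VZ n b p.fst)) := by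
    refine (mi_le_hc _ _ _ _).trans (hc_mono_right _ _ fun p p' _ _ e => ?_)
    simp only [Prod.mk.injEq] at e ⊢
    exact e.2.2
  have hlv : (fun ω => (fl1 b (C.l ω).v, kW (fun ω => W (π ω)) h (fun ω => t (π ω)) (fun ω => Cc (π ω)) G ω)) =
      (fun ω => (fl1 b (toR θ (l (π ω))).v, kW (fun ω => W (π ω)) h (fun ω => t (π ω)) (fun ω => Cc (π ω)) G ω)) := by
    funext ω
    rw [hCl]
  rw [hlv]
  rcases le_or_gt (24 * c ^ 2 * (1 / 2 : ℝ) ^ q) 1 with hsm | hsm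
  swap
  · -- the trivial case
    have key := hK d Ω γ P l t Cc L h q W hh hne (Law.GT V V) (H118.two P' V) (fun p => π p.fst) g2 δ _ _
      (fun p => G p.fst) (fun p => C.cell i1 b p.snd)
      (fun p => (plb b0 h (l (π p.fst)) (t (π p.fst)), (C.cell n b p.fst, C.VZ n b p.fst))) 0 0 N2 (fun _ => True) hN2
      (Nat.zero_le _) (fun p hp _ => by
        obtain ⟨U, hU1, hU2⟩ := hPl 0 (cn (W (π p.fst)))
        refine ⟨0, le_rfl, U, by simpa using hU1, fun p' hp' _ e => hU2 _ ?_⟩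
        simp only [kW, Prod.mk.injEq] at e
        rw [← e.2.1.1]
        have := hWS p'.fst (H118.two_supp hp').1
        exact bin_nr this.1 this.2)
    rw [eE, eG1, eG2] at key
    have hP0 : 0 ≤ prE (H118.two P' V) (fun p => ¬ PairOk C K1 i1 e h H p.fst p.snd) := prE_nonneg _ _
    have e2 : (X : ℝ) * Real.log 2 ≤ Real.log (24 * c ^ 2) := by
      have h3 : (2 : ℝ) ^ q ≤ 24 * c ^ 2 := by
        have h5 : 24 * c ^ 2 * (1 / 2 : ℝ) ^ q * 2 ^ q = 24 * c ^ 2 := by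
          rw [mul_assoc, ← mul_pow]
          norm_num
        have h4 : (0 : ℝ) < 2 ^ q := by positivity
        nlinarith
      have h6 := Real.log_le_log (by positivity) h3
      rw [Real.log_pow] at h6
      have h7 : (X : ℝ) ≤ q := by exact_mod_cast (by omega : X ≤ q)
      nlinarith
    have e3 : 0 ≤ (4 * (X : ℝ) + 6 * b0) * Real.log 2 *
        prE (H118.two P' V) (fun p => ¬ PairOk C K1 i1 e h H p.fst p.snd) := by positivity
    have e4 : 0 ≤ (1 + N) * Real.log ((X : ℝ) + 1) := mul_nonneg (by linarith)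
      (Real.log_nonneg (by have : (0 : ℝ) ≤ X := Nat.cast_nonneg X; linarith))
    simp only [Nat.cast_zero, mul_zero, zero_mul, add_zero, zero_add, Real.log_one] at key
    linarith
  · have key := hK d Ω γ P l t Cc L h q W hh hne (Law.GT V V) (H118.two P' V) (fun p => π p.fst) g2 δ _ _
      (fun p => G p.fst) (fun p => C.cell i1 b p.snd)
      (fun p => (plb b0 h (l (π p.fst)) (t (π p.fst)), (C.cell n b p.fst, C.VZ n b p.fst))) b0 X N1
      (fun p => PairOk C K1 i1 e h H p.fst p.snd) hN1 (by omega) (fun p hp hg => by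
        obtain ⟨s0, s1⟩ := H118.two_supp hp
        have hVp := hV _ _ s0 s1 p.eq
        have hlp : l (π p.fst) = l (π p.snd) := toR_inj (θ := θ) (by rw [← hCl, ← hCl]; exact hVp.1)
        obtain ⟨p0, hp0, U, hU, hcov⟩ := pair_meet (ry := fun ω => l (π ω)) (W := fun ω => W (π ω)) hK1 hc hz' hM hCl hi hah hb0
          hlev hR hq hsm hlp hVp.2 hg (by rw [hCt]; exact hWS _ s0) (by rw [hCt]; exact hH _ s0)
        refine ⟨p0, hp0, U, hU, fun p' hp' _ e => ?_⟩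
        obtain ⟨s0', s1'⟩ := H118.two_supp hp'
        have hVp' := hV _ _ s0' s1' p'.eq
        have hlp' : l (π p'.fst) = l (π p'.snd) := toR_inj (θ := θ) (by rw [← hCl, ← hCl]; exact hVp'.1)
        simp only [kW, Prod.mk.injEq] at e
        have := hcov p'.fst p'.snd hlp' e.1 (by rw [hCt, hCt]; exact e.2.1.2.1) e.2.1.1 (by rw [hCt, hCt]; exact e.2.2.1)
          (by rw [hCt]; exact (hWS _ s0').2)
        rwa [hCt] at this)
    rw [eE, eG1, eG2, ex_prE] at key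
    linarith

end Vale.Agent.P106.U.Top543
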