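import Vale.Agent.P106.U.H543.TopC
import Vale.Agent.P106.U.H513.HPair
import Vale.Agent.P106.U.H364.N4

/-!
# P106 / U / H543 : overhang of a heavy interval over a run (helper543)

* `FWb`, `fw_b` : the functional of the end label at a point of the run.
* `pair_dif` : probability that the second copy gives a slab which does not differ from the end label.
* `vz_clo`, `hc_endR` : cell and nominal position of the last step given the end label.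
* `topR` : **OVERHANG** over a `S3.Run`.
-/

set_option autoImplicit false

namespace Vale.Agent.P106.U.Top543

open Finset Vale.Agent.P127 Vale.Agent.P127.Stk Vale.Agent.P127.U Vale.Agent.P106.W Vale.Agent.P106.K Vale.Agent.P106.U
open Vale.Agent.P106.U.H428 Vale.Agent.P106.U.G480 Vale.Agent.P106.U.GR543
open Vale.Agent.P106.U.H786 Vale.Agent.P106.U.H786.Adp
open Vale.Agent.P127.U.CellD (q2 rd q2_pos q2_add q2_le q2_mul_pow rd_sub)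
open Vale.Agent.P106.U.S3 (Run)
open Vale.Agent.P127.U.Mic (colp)

section run

variable {Ω : Type} [Fintype Ω] {τ υ : Type} {R : Run Ω τ υ}

omit [Fintype Ω] in
theorem ok_mono {τ : Type} {C : Cell.Pth Ω τ} {K K' : ℝ} (hK : 1 ≤ K) (hKK : K ≤ K') {ω : Ω} (h : C.Ok K ω) : C.Ok K' ω := by
  have up : ∀ n : ℕ, K * q2 n ≤ K' * q2 n := fun n => mul_le_mul_of_nonneg_right hKK (q2_pos n).le
  refine ⟨h.v1, h.w1, h.p1, fun i => ?_, fun i => (h.n2 i).trans hKK, fun i => (h.k1 i).trans hKK,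
    fun i => (h.a1 i).trans hKK, fun i j hij => ?_⟩
  · have h1 := h.n1 i
    have h0 : 0 < (C.F i ω).cN (C.l ω) (C.s i ω) := by
      by_contra hn
      have := mul_nonneg (by linarith : (0 : ℝ) ≤ K) (by linarith : 0 ≤ -(C.F i ω).cN (C.l ω) (C.s i ω))
      linarith
    exact h1.trans (mul_le_mul_of_nonneg_right hKK h0.le)
  · obtain ⟨a1, a2, a3⟩ := h.ag i j hij
    exact ⟨a1.trans (up _), a2.trans (up _), a3.trans (up _)⟩

/-- the functional of the end label at a point of the run -/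
structure FWb (R : Run Ω τ υ) (K : ℝ) (ω : Ω) : Prop where
  n1 : 1 ≤ K * (R.FW ω).cN (R.C.l ω) (R.tW ω)
  n2 : |(R.FW ω).cN (R.C.l ω) (R.tW ω)| ≤ K
  v : |(R.FW ω).cV (R.C.l ω) (R.tW ω)| ≤ K
  k : |(R.FW ω).ka| ≤ K

theorem tW_near {p : Run.Num} {K c' g' gU : ℝ} (h : R.Ok p K c' g' gU) {j : ℕ} (ha : R.C.a j ≤ R.h) (ω : Ω) :
    |R.tW ω - R.C.s j ω| ≤ q2 (R.C.a j) := by
  unfold Run.tW Cell.Pth.s
  rw [h.Ct]
  exact rd_sub ha _

theorem cN_run {p : Run.Num} {K c' g' gU : ℝ} (h : R.Ok p K c' g' gU) {j : ℕ} (hj : j ≤ R.n) {ω : Ω} (hω : 0 < R.Q.w ω) :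
    |(R.FW ω).cN (R.C.l ω) (R.tW ω) - (R.C.F j ω).cN (R.C.l ω) (R.C.s j ω)| ≤ K * q2 (R.C.rk j) := by
  have h1 := (h.agW ω hω j hj).cN
  have e := Cell.Fu.cN_sh (R.C.F j ω) (R.C.l ω) (R.C.s j ω) (R.tW ω - R.C.s j ω)
  rw [show R.C.s j ω + (R.tW ω - R.C.s j ω) = R.tW ω by ring] at e
  rwa [e] at h1

theorem kL_le {p : Run.Num} {K c' g' gU : ℝ} (h : R.Ok p K c' g' gU) {j : ℕ} (ha : R.C.a j ≤ R.h) {ω : Ω}
    (hω : 0 < R.Q.w ω) : |R.kL j ω (R.tW ω)| ≤ 2 * K := by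
  have o0 := h.ok _ hω
  have g2 := o0.k1 j
  have g3 := o0.a1 j
  have g4 : |(R.tW ω - R.C.s j ω) * (R.C.F j ω).al| ≤ K := by
    rw [abs_mul]
    have g5 : |R.tW ω - R.C.s j ω| * |(R.C.F j ω).al| ≤ q2 (R.C.a j) * |(R.C.F j ω).al| :=
      mul_le_mul_of_nonneg_right (tW_near h ha ω) (abs_nonneg _)
    have g6 : q2 (R.C.a j) * |(R.C.F j ω).al| ≤ K := by
      rw [mul_comm]
      exact g3
    exact g5.trans g6
  unfold Run.kL
  rw [abs_le] at g2 g4 ⊢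
  constructor <;> linarith

/-- **the functional of the end label at a point of the run** -/
theorem fw_b {p : Run.Num} {K c' g' gU : ℝ} (h : R.Ok p K c' g' gU) (hK : 1 ≤ K) {j : ℕ} (hj : j ≤ R.n)
    (hr : 2 * K ^ 2 * q2 (R.C.rk j) ≤ 1) (ha : R.C.a j ≤ R.h) {ω : Ω} (hω : 0 < R.Q.w ω) : FWb R (3 * K) ω := by
  have hK0 : 0 < K := by linarith
  have o0 := h.ok _ hω
  have n1 := o0.n1 j
  have hq1 := q2_pos (R.C.rk j)
  have hKq : K * q2 (R.C.rk j) ≤ 1 / 2 := by nlinarith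
  have hcW := abs_le.1 (cN_run h hj hω)
  have hF1 := abs_le.1 (Cell.Pth.cN_abs o0 hK j)
  have low : 1 ≤ 2 * K * (R.FW ω).cN (R.C.l ω) (R.tW ω) := by
    have h3 : K * ((R.C.F j ω).cN (R.C.l ω) (R.C.s j ω) - (R.FW ω).cN (R.C.l ω) (R.tW ω)) ≤ K * (K * q2 (R.C.rk j)) :=
      mul_le_mul_of_nonneg_left (by linarith [hcW.1]) hK0.le
    nlinarith
  have hc0 : 0 < (R.FW ω).cN (R.C.l ω) (R.tW ω) := by
    by_contra hn
    have := mul_nonneg (by linarith : (0 : ℝ) ≤ 2 * K) (by linarith : 0 ≤ -(R.FW ω).cN (R.C.l ω) (R.tW ω))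
    linarith
  have hc2 : |(R.FW ω).cN (R.C.l ω) (R.tW ω)| ≤ 2 * K := by
    rw [abs_of_pos hc0]
    linarith [hcW.2, hF1.2]
  refine ⟨by nlinarith, by linarith, ?_, ?_⟩
  · rw [← h.Cp ω hω, abs_mul]
    have hp : |R.C.p ω| ≤ 1 := o0.p1.trans (Cell.Pth.q2_le_one _)
    calc |R.C.p ω| * |(R.FW ω).cN (R.C.l ω) (R.tW ω)| ≤ 1 * (2 * K) := mul_le_mul hp hc2 (abs_nonneg _) (by norm_num)
      _ ≤ 3 * K := by linarith
  · have h1 : |(R.FW ω).ka - R.kL j ω (R.tW ω)| ≤ K * q2 (R.C.rk j) := (h.agW ω hω j hj).ka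
    have h2 := kL_le h ha hω
    rw [abs_le] at h1 h2 ⊢
    constructor <;> linarith

/-- normalised kappa of the step and of the end label -/
theorem nk_FW {p : Run.Num} {K c' g' gU : ℝ} (h : R.Ok p K c' g' gU) (hK : 1 ≤ K) {j : ℕ} (hj : j ≤ R.n)
    (hr : 2 * K ^ 2 * q2 (R.C.rk j) ≤ 1) (ha : R.C.a j ≤ R.h) {ω : Ω} (hω : 0 < R.Q.w ω) :
    |R.C.nk j ω (R.tW ω) - (R.FW ω).ka / (R.FW ω).cN (R.C.l ω) (R.tW ω)| ≤ 30 * K ^ 4 * q2 (R.C.rk j) := by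
  have hK0 : 0 < K := by linarith
  have b := fw_b h hK hj hr ha hω
  have n1 := (h.ok _ hω).n1 j
  have hn0 : 0 < (R.C.F j ω).cN (R.C.l ω) (R.C.s j ω) := by
    by_contra hn
    have := mul_nonneg hK0.le (by linarith : 0 ≤ -(R.C.F j ω).cN (R.C.l ω) (R.C.s j ω))
    linarith
  have hcW := cN_run h hj hω
  have h1 : |(R.FW ω).ka - R.kL j ω (R.tW ω)| ≤ K * q2 (R.C.rk j) := (h.agW ω hω j hj).ka
  rw [abs_sub_comm] at hcW h1
  have key := Cell.Pth.quot_sub_le5 (K := 3 * K) (by linarith) (by nlinarith) b.n1 hcW h1 b.k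
  have e : R.kL j ω (R.tW ω) / (R.C.F j ω).cN (R.C.l ω) (R.C.s j ω) = R.C.nk j ω (R.tW ω) := rfl
  rw [e] at key
  refine key.trans ?_
  have hq := q2_pos (R.C.rk j)
  have k2 : K ^ 2 ≤ K ^ 4 := pow_le_pow_right₀ hK (by norm_num)
  calc 3 * K * (K * q2 (R.C.rk j)) + 3 * K * ((3 * K) ^ 2 * (K * q2 (R.C.rk j)))
      = (3 * K ^ 2 + 27 * K ^ 4) * q2 (R.C.rk j) := by ring
    _ ≤ 30 * K ^ 4 * q2 (R.C.rk j) := mul_le_mul_of_nonneg_right (by linarith) hq.le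

/-- **the copies of a good step differ from the end label** -/
theorem pair_dif {p : Run.Num} {K c' g' gU : ℝ} (h : R.Ok p K c' g' gU) (hK : 1 ≤ K) {ε : ℝ} {b i i1 c x : ℕ}
    (hg : R.Good p ε b i) (hi : i ≤ i1) (hi1 : i1 ≤ R.n) (hbB : b < p.B₁) (hbx : R.m + x ≤ b) (hc : 2 * K * q2 c ≤ 1)
    (hx : 60 * K ^ 6 * q2 x ≤ 1) (hxr : x ≤ R.C.rk i1) (hq : K * q2 R.q ≤ 1) (ha : R.C.a i1 ≤ R.h)
    (h1 : min (R.C.rf i) (R.rI i + b) + R.m + c + x ≤ R.C.R i1 b) :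
    prE (H118.two R.Q (R.XZ i b)) (fun q => ¬ PairOk R.C (3 * K) i1 (min (R.C.rf i) (R.rI i + b) + R.m + c + 1) R.h R.FW
      q.fst q.snd) ≤ 3 * ε := by
  have hK0 : 0 < K := by linarith
  have hpw : ∀ j ≤ 6, K ^ j ≤ K ^ 6 := fun j hj => pow_le_pow_right₀ hK hj
  have hq0 := q2_pos x
  have hε : 0 ≤ ε := (Mic.colp_nonneg R.Q _ _).trans hg.time
  have hn := R.C.R_le_rf i1 b
  have hn' := R.C.R_le_rk i1 b
  have hQF := h.pth.leF i1 (by omega)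
  have hm1 := h.pth.m1
  have hr : 2 * K ^ 2 * q2 (R.C.rk i1) ≤ 1 := by
    have e1 := hpw 2 (by norm_num)
    have e2 : q2 (R.C.rk i1) ≤ q2 x := q2_le hxr
    have e3 := q2_pos (R.C.rk i1)
    have e4 : K ^ 2 * q2 (R.C.rk i1) ≤ K ^ 6 * q2 x := mul_le_mul e1 e2 e3.le (by positivity)
    nlinarith
  have hx40 : 40 * K ^ 6 * q2 x ≤ 1 := by
    have : 0 ≤ K ^ 6 * q2 x := by positivity
    linarith
  have hx1 : 1 ≤ x := by
    by_contra hcon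
    have : x = 0 := by omega
    rw [this] at hx
    have e1 : 1 ≤ K ^ 6 := one_le_pow₀ hK
    have e2 : q2 0 = 1 := by unfold q2; norm_num
    rw [e2] at hx
    linarith
  rcases Nat.lt_or_ge (R.rI i + b) (R.C.rf i) with hreg | hreg
  · -- the line
    rw [Nat.min_eq_right hreg.le] at h1 ⊢
    have hline := hg.line (by omega)
    have hL : prE (H118.two R.Q (R.XZ i b)) (fun q =>
        |R.κ q.fst - (((R.C.F i1 q.snd).ka + R.C.s i1 q.snd * (R.C.F i1 q.snd).al) +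
          (-(R.C.F i1 q.snd).al) * R.tW q.fst)| ≤ q2 (R.rI i + R.m)) ≤ ε :=
      Cell.two_line5 R.Q (R.XZ i b) (fun (u : ℝ × ℝ) (v : ℝ × ℝ) => |v.2 - (u.1 + u.2 * v.1)| ≤
        q2 (R.rI i + R.m)) (fun ω => (R.tW ω, R.κ ω))
        (fun ω => ((R.C.F i1 ω).ka + R.C.s i1 ω * (R.C.F i1 ω).al, -(R.C.F i1 ω).al))
        (fun s => hline s)
    refine (Cell.prE_mono5' _ fun q hq' hbad => ?_).trans (hL.trans (by linarith))
    obtain ⟨s0, s1⟩ := H118.two_supp hq'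
    by_contra hcon
    push Not at hcon
    refine hbad ?_
    have hX : R.XZ i b q.fst = R.XZ i b q.snd := q.eq
    have hZ : R.Z i q.fst = R.Z i q.snd := (Prod.mk.inj hX).1
    have hD := Run.nk_copies h hK hi hi1 hbx hc hx40 hq (by omega) hreg ha s0 s1 hZ hcon
    have hF := nk_FW h hK hi1 hr ha s0
    obtain ⟨f1, f2, f3, f4⟩ := fw_b h hK hi1 hr ha s0
    have et : rd R.h (R.C.t q.fst) = R.tW q.fst := by rw [h.Ct]; rfl
    refine ⟨ok_mono hK (by linarith) (h.ok _ s1), by rw [et]; exact f1, by rw [et]; exact f2, by rw [et]; exact f3, f4, Or.inr ?_⟩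
    rw [et]
    have e0 : q2 (R.C.rk i1) ≤ q2 (R.rI i + R.m + c) * q2 x := by
      rw [← q2_add]
      exact q2_le (by omega)
    have e1 : 30 * K ^ 4 * q2 (R.C.rk i1) ≤ q2 (R.rI i + R.m + c) / 2 := by
      have k4 := hpw 4 (by norm_num)
      have p1 := q2_pos (R.rI i + R.m + c)
      have e2 : K ^ 4 * q2 (R.C.rk i1) ≤ K ^ 6 * (q2 (R.rI i + R.m + c) * q2 x) :=
        mul_le_mul k4 e0 (q2_pos _).le (by positivity)
      have e3 : 60 * K ^ 6 * q2 x * q2 (R.rI i + R.m + c) ≤ 1 * q2 (R.rI i + R.m + c) := mul_le_mul_of_nonneg_right hx p1.le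
      linarith
    have e4 : q2 (R.rI i + b + R.m + c + 1) ≤ q2 (R.rI i + R.m + c) / 2 := by
      have e5 : q2 (R.rI i + R.m + c) / 2 = q2 (R.rI i + R.m + c + 1) := by
        rw [q2_add _ 1]
        unfold q2
        ring
      rw [e5]
      exact q2_le (by omega)
    have e6 : R.C.nk i1 q.snd (R.tW q.fst) = ((R.C.F i1 q.snd).ka - (R.tW q.fst - R.C.s i1 q.snd) * (R.C.F i1 q.snd).al) /
        (R.C.F i1 q.snd).cN (R.C.l q.snd) (R.C.s i1 q.snd) := rfl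
    rw [← e6]
    have e7 : R.C.nk i1 q.snd (R.tW q.fst) - R.C.nk i1 q.fst (R.tW q.fst) =
        (R.C.nk i1 q.snd (R.tW q.fst) - (R.FW q.fst).ka / (R.FW q.fst).cN (R.C.l q.fst) (R.tW q.fst)) -
        (R.C.nk i1 q.fst (R.tW q.fst) - (R.FW q.fst).ka / (R.FW q.fst).cN (R.C.l q.fst) (R.tW q.fst)) := by ring
    rw [e7] at hD
    have e8 := abs_sub (R.C.nk i1 q.snd (R.tW q.fst) - (R.FW q.fst).ka / (R.FW q.fst).cN (R.C.l q.fst) (R.tW q.fst))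
      (R.C.nk i1 q.fst (R.tW q.fst) - (R.FW q.fst).ka / (R.FW q.fst).cN (R.C.l q.fst) (R.tW q.fst))
    linarith
  · -- the own slope
    rw [Nat.min_eq_left hreg] at h1 ⊢
    have hphi := hg.phi (by omega) (by omega)
    have hL := (R.C.pr_phi R.Q (R.XZ i b) (R.C.rf i + R.m)).trans
      (mul_le_mul_of_nonneg_left hphi (by norm_num : (0:ℝ) ≤ 3))
    refine (Cell.prE_mono5' _ fun q hq' hbad => ?_).trans hL
    obtain ⟨s0, s1⟩ := H118.two_supp hq'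
    by_contra hcon
    refine hbad ?_
    obtain ⟨f1, f2, f3, f4⟩ := fw_b h hK hi1 hr ha s0
    have et : rd R.h (R.C.t q.fst) = R.tW q.fst := by rw [h.Ct]; rfl
    refine ⟨ok_mono hK (by linarith) (h.ok _ s1), by rw [et]; exact f1, by rw [et]; exact f2, by rw [et]; exact f3, f4, Or.inl ?_⟩
    rw [et]
    have n1 := (h.ok _ s1).n1 i1
    have hn0 : (R.C.F i1 q.snd).cN (R.C.l q.snd) (R.C.s i1 q.snd) ≠ 0 := by
      intro hn
      rw [hn, mul_zero] at n1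
      linarith
    have hw0 : (R.FW q.fst).cN (R.C.l q.fst) (R.tW q.fst) ≠ 0 := by
      intro hn
      rw [hn, mul_zero] at f1
      linarith
    rw [Cell.Pth.F_cV, mul_div_assoc, div_self hn0, mul_one, ← h.Cp _ s0, mul_div_assoc, div_self hw0, mul_one]
    have e1 : |rd (R.C.rf i1) (R.C.p q.snd) - R.C.p q.snd| ≤ q2 (R.C.rf i1) := Vale.Agent.P127.U.CellD.rd_err _ _
    have e2 : q2 (R.C.rf i1) ≤ q2 (R.C.rf i + R.m) / 2 := by
      have e5 : q2 (R.C.rf i + R.m) / 2 = q2 (R.C.rf i + R.m + 1) := by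
        rw [q2_add _ 1]
        unfold q2
        ring
      rw [e5]
      exact q2_le (by omega)
    have e3 : q2 (R.C.rf i + R.m + c + 1) ≤ q2 (R.C.rf i + R.m) / 2 := by
      have e5 : q2 (R.C.rf i + R.m) / 2 = q2 (R.C.rf i + R.m + 1) := by
        rw [q2_add _ 1]
        unfold q2
        ring
      rw [e5]
      exact q2_le (by omega)
    have e7 : R.C.p q.fst - R.C.p q.snd = (rd (R.C.rf i1) (R.C.p q.snd) - R.C.p q.snd) -
        (rd (R.C.rf i1) (R.C.p q.snd) - R.C.p q.fst) := by ring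
    rw [e7] at hcon
    have e8 := abs_sub (rd (R.C.rf i1) (R.C.p q.snd) - R.C.p q.snd) (rd (R.C.rf i1) (R.C.p q.snd) - R.C.p q.fst)
    linarith

/-! ### the end label -/

/-- the end label at a point of the run, form of helper364 -/
theorem okW_run {p : Run.Num} {K c' g' gU : ℝ} (h : R.Ok p K c' g' gU) (hK : 1 ≤ K) {j : ℕ} (hj : j ≤ R.n)
    (hr : 2 * K ^ 2 * q2 (R.C.rk j) ≤ 1) (ha : R.C.a j ≤ R.h) {ω : Ω} (hω : 0 < R.Q.w ω) :
    H364.N4.OkW R.C (3 * K) p.A' j (R.FW ω) (R.tW ω) ω := by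
  obtain ⟨f1, f2, f3, f4⟩ := fw_b h hK hj hr ha hω
  have hKK : K ≤ 3 * K := by linarith
  have up : ∀ n : ℕ, K * q2 n ≤ 3 * K * q2 n := fun n => mul_le_mul_of_nonneg_right hKK (q2_pos n).le
  obtain ⟨a1, a2, a3⟩ := h.agW ω hω j hj
  refine ⟨f1, (le_abs_self _).trans f2, f4, (h.alW ω hω).trans hKK, ?_, ⟨a1.trans (up _), a2.trans (up _), a3.trans (up _)⟩,
    tW_near h ha ω⟩
  rw [h.Cp ω hω, sub_self, abs_zero]
  have := (q2_pos (R.C.rf j)).le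
  positivity

omit [Fintype Ω] in
theorem sclF_g (ρ : ℝ) (F : Cell.Fu) (l : Cell.Ray) (s : ℝ) : (sclF ρ F).g l s = ρ * F.g l s := by
  simp only [sclF, Cell.Fu.g]
  ring

omit [Fintype Ω] in
theorem sclF_gd (ρ : ℝ) (F : Cell.Fu) (l : Cell.Ray) (s : ℝ) : (sclF ρ F).gd l s = ρ * F.gd l s := by
  simp only [sclF, Cell.Fu.gd]
  ring

omit [Fintype Ω] in
theorem clW_scl {M K ρ : ℝ} (hM : 0 ≤ M) (hK : 1 ≤ K) (hρ : |ρ| ≤ K) {h q : ℕ} {F : Cell.Fu} {l l' : Cell.Ray} {s : ℝ}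
    (hc : H364.N4.ClW M h q F l l' s) : H364.N4.ClW (M * K) h q (sclF ρ F) l l' s := by
  have hMK : M ≤ M * K := by nlinarith
  have up : ∀ n : ℕ, M * q2 n ≤ M * K * q2 n := fun n => mul_le_mul_of_nonneg_right hMK (q2_pos n).le
  refine ⟨hc.X.trans (up _), hc.N.trans (up _), hc.z.trans (up _), ?_, ?_⟩
  · rw [sclF_gd, sclF_gd, ← mul_sub, abs_mul]
    have := mul_le_mul hρ hc.c (abs_nonneg _) (by linarith)
    linarith
  · rw [sclF_g, sclF_g, ← mul_sub, abs_mul]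
    have := mul_le_mul hρ hc.g (abs_nonneg _) (by linarith)
    linarith

/-- the functional of the run as a multiple of the functional of the label -/
theorem FW_scl {p : Run.Num} {K c' g' gU : ℝ} (h : R.Ok p K c' g' gU) {ω : Ω} (hω : 0 < R.Q.w ω) :
    ∃ ρ : ℝ, ρ ≠ 0 ∧ |ρ| ≤ K ∧ R.FW ω = sclF ρ (FW R.θ R.h (R.W ω) (R.t ω)) := by
  obtain ⟨ρ, h1, h2, h3⟩ := h.FWW ω hω
  refine ⟨ρ, ?_, h2, h3⟩
  rintro rfl
  rw [abs_zero, mul_zero] at h1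
  linarith

/-- two points of the run with the same end label -/
theorem clW_run {p : Run.Num} {K c' g' gU : ℝ} (h : R.Ok p K c' g' gU) (hK : 1 ≤ K) {c : ℝ} (hc : 1 ≤ c)
    (hWS : ∀ ω, 0 < R.Q.w ω → Shp c 0 R.q (R.W ω) ∧ Bin c (R.W ω) 0 (bl R.h (R.ry ω) (R.t ω))) {ω ω' : Ω}
    (hω : 0 < R.Q.w ω) (hω' : 0 < R.Q.w ω') (eW : R.W ω = R.W ω') (et : fl1 R.h (R.t ω) = fl1 R.h (R.t ω')) :
    H364.N4.ClW (6 * c ^ 2 * K) R.h R.q (R.FW ω) (R.C.l ω) (R.C.l ω') (R.tW ω) := by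
  obtain ⟨ρ, hρ0, hρ, hF⟩ := FW_scl h hω
  have eq : qa R.h (R.t ω') = qa R.h (R.t ω) := by
    unfold qa
    rw [et]
  have hb := box_close hc R.θ (by rw [(hWS ω hω).1.u2]) (by rw [(hWS ω hω).1.u1]) (hWS ω hω).2
    (by rw [eW]; exact (hWS ω' hω').2) eq
  have h1 := clW_scl (by positivity) hK hρ (H364.N4.clW_of_bc hc hb)
  rw [hF, h.Cl, h.Cl]
  exact h1

theorem tW_eq {ω ω' : Ω} (et : fl1 R.h (R.t ω) = fl1 R.h (R.t ω')) : R.tW ω = R.tW ω' := by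
  unfold Run.tW rd
  rw [et]

/-- two points with the same end label, the same letter and the same digits of the velocity -/
theorem clo_run {p : Run.Num} {K c' g' gU : ℝ} (h : R.Ok p K c' g' gU) (hK : 1 ≤ K) {c : ℝ} (hc : 1 ≤ c)
    (hWS : ∀ ω, 0 < R.Q.w ω → Shp c 0 R.q (R.W ω) ∧ Bin c (R.W ω) 0 (bl R.h (R.ry ω) (R.t ω))) {n b : ℕ} (hn : n ≤ R.n)
    (hr : 2 * K ^ 2 * q2 (R.C.rk n) ≤ 1) (ha : R.C.a n ≤ p.A') (hA : p.A' + 2 * b ≤ R.h) (hq : R.C.R n b + b ≤ R.q)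
    (hb : (3 * K) ^ 2 * (6 * c ^ 2 * K) * q2 (2 * b) ≤ 1) {ω ω' : Ω} (hω : 0 < R.Q.w ω) (hω' : 0 < R.Q.w ω')
    (eT : R.C.T n ω = R.C.T n ω') (ev : fl1 b (R.C.l ω).v = fl1 b (R.C.l ω').v) (eW : R.W ω = R.W ω')
    (et : fl1 R.h (R.t ω) = fl1 R.h (R.t ω')) : R.C.Clo n b (H364.N4.cst (3 * K) (6 * c ^ 2 * K)) ω ω' := by
  have hK3 : 1 ≤ 3 * K := by linarith
  have hM : 1 ≤ 6 * c ^ 2 * K := by
    have : 1 ≤ c ^ 2 := one_le_pow₀ hc
    nlinarith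
  have hw := okW_run h hK hn hr (by omega) hω
  have hw' := okW_run h hK hn hr (by omega) hω'
  have e0 : R.F 0 ω' = R.F 0 ω := by
    show ((R.W ω', fl1 R.h (R.t ω')), fl1 (R.m * 0) (R.C.l ω').v) = ((R.W ω, fl1 R.h (R.t ω)), fl1 (R.m * 0) (R.C.l ω).v)
    rw [eW, et, CellD.fl1_fl1 (show R.m * 0 ≤ b by omega) ev]
  have eF : R.FW ω' = R.FW ω := h.FWf ω' ω hω' hω e0
  rw [eF, ← tW_eq et] at hw'
  exact H364.N4.clo_of_W hK3 hM (ok_mono hK (by linarith) (h.ok _ hω)) (ok_mono hK (by linarith) (h.ok _ hω')) hw hw' eT ev ha hA hq hb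
    (clW_run h hK hc hWS hω hω' eW et)

omit [Fintype Ω] in
/-- the nominal position in close cells with the same digits of `w` -/
theorem vz_clo {C : Cell.Pth Ω τ} {n b : ℕ} {c : ℝ} {N : ℕ} (hc1 : 1 ≤ c) (hN : 3 * c ≤ N) (hμ : C.μ ≤ b) {ω ω' : Ω}
    (h : C.Clo n b c ω ω') (hw : fl1 (b - C.μ) ((C.l ω).w + C.o 1) = fl1 (b - C.μ) ((C.l ω').w + C.o 1)) :
    C.VZ n b ω' ∈ Iz N (C.VZ n b ω).1 ×ˢ Iz (N * 2 ^ C.μ) (C.VZ n b ω).2 := by
  obtain ⟨hT, hv, hNr, -⟩ := h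
  have hs : C.s n ω' = C.s n ω := Cell.Pth.s_eq hT
  have c0 : 0 ≤ c := by linarith
  rw [Finset.mem_product]
  constructor
  · show fl1 (C.a n + b) ((C.l ω').X (C.s n ω')) ∈ Iz N (fl1 (C.a n + b) ((C.l ω).X (C.s n ω)))
    rw [hs]
    exact fl1_near_mem (E := c) hNr.X (by linarith)
  · show fl1 (C.a n + 2 * b) (C.Zs b (C.s n ω') ω') ∈ Iz (N * 2 ^ C.μ) (fl1 (C.a n + 2 * b) (C.Zs b (C.s n ω) ω))
    rw [hs]
    refine fl1_near_mem (E := 3 * c * 2 ^ C.μ) ?_ ?_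
    · rw [Cell.Pth.Zs_sub hv hw]
      have e0 : (2 : ℝ) ^ C.μ * (1 / 2 : ℝ) ^ (C.a n + 2 * b) = q2 (C.a n + 2 * b - C.μ) := by
        have e1 : C.a n + 2 * b = (C.a n + 2 * b - C.μ) + C.μ := by omega
        have e2 : (1 / 2 : ℝ) ^ (C.a n + 2 * b) = q2 (C.a n + 2 * b - C.μ) * (1 / 2) ^ C.μ := by
          conv_lhs => rw [e1, pow_add]
          rfl
        rw [e2]
        have e3 : (2 : ℝ) ^ C.μ * (1 / 2 : ℝ) ^ C.μ = 1 := pw_b _
        linear_combination (q2 (C.a n + 2 * b - C.μ)) * e3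
      rw [mul_assoc, e0]
      set Q := q2 (C.a n + 2 * b - C.μ) with hQ
      have t1 : |((C.l ω).v - rd b (C.l ω).v) * ((C.l ω').X (C.s n ω) - (C.l ω).X (C.s n ω))| ≤ c * Q := by
        have e := Vale.Agent.P127.U.CellD.rd_err b (C.l ω).v
        rw [abs_sub_comm] at e
        rw [abs_mul]
        refine (mul_le_mul e hNr.X (abs_nonneg _) (q2_pos _).le).trans ?_
        calc q2 b * (c * q2 (C.a n + b)) = c * (q2 b * q2 (C.a n + b)) := by ring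
          _ ≤ _ := mul_le_mul_of_nonneg_left (by rw [← q2_add]; exact q2_le (by omega)) c0
      have t2 : |((C.l ω).w - C.ro 1 (b - C.μ) (C.l ω).w) * ((C.l ω').N (C.s n ω) - (C.l ω).N (C.s n ω))| ≤ c * Q := by
        rw [abs_mul]
        refine (mul_le_mul (C.ro_err 1 (b - C.μ) (C.l ω).w) hNr.N (abs_nonneg _) (q2_pos _).le).trans ?_
        calc q2 (b - C.μ) * (c * q2 (C.a n + b)) = c * (q2 (b - C.μ) * q2 (C.a n + b)) := by ring
          _ ≤ _ := mul_le_mul_of_nonneg_left (by rw [← q2_add]; exact q2_le (by omega)) c0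
      exact (H364.N4.abs_add3 hNr.z t1 t2).trans (by linarith)
    · push_cast
      exact mul_le_mul_of_nonneg_right hN (by positivity)

/-- the letters of the end: label, time, digits of the velocity -/
noncomputable def eY (R : Run Ω τ υ) (b : ℕ) (ω : Ω) : ℤ × (Cbx × ℤ) := (fl1 b (R.C.l ω).v, (R.W ω, fl1 R.h (R.t ω)))

/-- **cell and nominal position of the last step given the end label** -/
theorem hc_endR {p : Run.Num} {K c' g' gU : ℝ} (h : R.Ok p K c' g' gU) (hK : 1 ≤ K) {c : ℝ} (hc : 1 ≤ c)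
    (hWS : ∀ ω, 0 < R.Q.w ω → Shp c 0 R.q (R.W ω) ∧ Bin c (R.W ω) 0 (bl R.h (R.ry ω) (R.t ω))) {n b N : ℕ} (hn : n ≤ R.n)
    (hr : 2 * K ^ 2 * q2 (R.C.rk n) ≤ 1) (hlev : R.C.Lev n b) (ha : R.C.a n ≤ p.A') (hA : p.A' + 2 * b ≤ R.h)
    (hq : R.C.R n b + b ≤ R.q) (hb : (3 * K) ^ 2 * (6 * c ^ 2 * K) * q2 (2 * b) ≤ 1)
    (hN : 3 * H364.N4.cst (3 * K) (6 * c ^ 2 * K) ≤ N) :
    Stk.hc R.Q (fun ω => (R.C.cell n b ω, R.C.VZ n b ω)) (eY R b) ≤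
      Stk.hc R.Q (R.C.T n) (eY R b) + R.C.μ * Real.log 2 +
        ((6 + 10 * Real.log (2 * ⌈3 * H364.N4.cst (3 * K) (6 * c ^ 2 * K)⌉₊ + 3)) + 2 * Real.log (2 * N + 3)) := by
  have hK3 : 1 ≤ 3 * K := by linarith
  have hM : 1 ≤ 6 * c ^ 2 * K := by
    have : 1 ≤ c ^ 2 := one_le_pow₀ hc
    nlinarith
  have hc1 := H364.N4.one_le_cst hK3 hM
  set c0 := H364.N4.cst (3 * K) (6 * c ^ 2 * K) with hc0
  set Y' : Ω → τ × (ℤ × (Cbx × ℤ)) := fun ω => (R.C.T n ω, eY R b ω) with hY'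
  have clo : ∀ ω ω', 0 < R.Q.w ω → 0 < R.Q.w ω' → Y' ω = Y' ω' → R.C.Clo n b c0 ω ω' := by
    intro ω ω' p1 p2 e
    simp only [hY', eY, Prod.mk.injEq] at e
    obtain ⟨eT, ev, eW, et⟩ := e
    exact clo_run h hK hc hWS hn hr ha hA hq hb p1 p2 eT ev eW et
  have h1 := Stk.hc_le_add' R.Q (fun ω => (R.C.cell n b ω, R.C.VZ n b ω)) (R.C.T n) (eY R b)
  have h2 := Stk.hc_pair R.Q (R.C.cell n b) (R.C.VZ n b) Y'
  have h3 := H364.N4.hc_of_clo R.Q R.C Y' hc1 hlev clo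
  have h4 : Stk.hc R.Q (R.C.VZ n b) (fun ω => (R.C.cell n b ω, Y' ω)) ≤
      Real.log (((2 * N + 3) * (2 * (N * 2 ^ R.C.μ) + 3) : ℕ) : ℝ) := by
    refine Stk.hc_le_log R.Q _ _ _ fun ω hω => ⟨Iz N (R.C.VZ n b ω).1 ×ˢ Iz (N * 2 ^ R.C.μ) (R.C.VZ n b ω).2, ?_, fun ω' hω' e => ?_⟩
    · rw [Finset.card_product, Iz_card, Iz_card]
    · simp only [Prod.mk.injEq] at e
      obtain ⟨e1, e2⟩ := e
      exact vz_clo hc1 hN (by have := hlev.1; omega) (clo ω ω' hω hω' e2.symm) ((Cell.Pth.cell_iff.1 e1.symm).2.2 1)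
  have h5 : Real.log (((2 * N + 3) * (2 * (N * 2 ^ R.C.μ) + 3) : ℕ) : ℝ) ≤ R.C.μ * Real.log 2 + 2 * Real.log (2 * N + 3) := by
    have e1 : (((2 * N + 3) * (2 * (N * 2 ^ R.C.μ) + 3) : ℕ) : ℝ) ≤ (2 * N + 3) ^ 2 * 2 ^ R.C.μ := by
      push_cast
      have e2 : (1 : ℝ) ≤ 2 ^ R.C.μ := one_le_pow₀ (by norm_num)
      have e3 : (0 : ℝ) ≤ N := Nat.cast_nonneg _
      have e4 : 2 * ((N : ℝ) * 2 ^ R.C.μ) + 3 ≤ (2 * N + 3) * 2 ^ R.C.μ := by nlinarith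
      calc (2 * (N : ℝ) + 3) * (2 * (N * 2 ^ R.C.μ) + 3) ≤ (2 * N + 3) * ((2 * N + 3) * 2 ^ R.C.μ) :=
            mul_le_mul_of_nonneg_left e4 (by positivity)
        _ = _ := by ring
    refine (Real.log_le_log (by positivity) e1).trans (le_of_eq ?_)
    rw [Real.log_mul (by positivity) (by positivity), Real.log_pow, Real.log_pow]
    push_cast
    ring
  have h6 : (6 + 10 * Real.log (2 * ⌈3 * c0⌉₊ + 3)) * Real.sqrt (prE R.Q (R.C.Bad (4 * c0) n b)) ≤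
      (6 + 10 * Real.log (2 * ⌈3 * c0⌉₊ + 3)) := by
    have e1 : Real.sqrt (prE R.Q (R.C.Bad (4 * c0) n b)) ≤ 1 := by
      rw [Real.sqrt_le_iff]
      exact ⟨by norm_num, by rw [one_pow]; exact prE_le_one _ _⟩
    have e2 : 0 ≤ Real.log (2 * ⌈3 * c0⌉₊ + 3) := Real.log_nonneg (by
      have : (0 : ℝ) ≤ ⌈3 * c0⌉₊ := Nat.cast_nonneg _
      linarith)
    nlinarith [Real.sqrt_nonneg (prE R.Q (R.C.Bad (4 * c0) n b))]
  linarith

end run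

/-- a logarithm is small -/
theorem log_small {A δ : ℝ} (hA : 0 ≤ A) (hδ : 0 < δ) : ∃ C : ℝ, 0 ≤ C ∧ ∀ x : ℝ, 0 ≤ x → A * Real.log (x + 1) ≤ δ * x + C := by
  refine ⟨δ + A * |Real.log ((A + 1) / δ)|, by positivity, fun x hx => ?_⟩
  have hs : 0 < (A + 1) / δ := by positivity
  have h1 : Real.log ((x + 1) / ((A + 1) / δ)) ≤ (x + 1) / ((A + 1) / δ) - 1 := Real.log_le_sub_one_of_pos (by positivity)
  rw [Real.log_div (by positivity) (by positivity)] at h1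
  have h2 : Real.log (x + 1) ≤ (x + 1) / ((A + 1) / δ) + |Real.log ((A + 1) / δ)| := by
    have := le_abs_self (Real.log ((A + 1) / δ))
    linarith
  have h3 := mul_le_mul_of_nonneg_left h2 hA
  have h4 : A * ((x + 1) / ((A + 1) / δ)) ≤ δ * (x + 1) := by
    have e : A * ((x + 1) / ((A + 1) / δ)) = A / (A + 1) * (δ * (x + 1)) := by
      field_simp
    rw [e]
    have e1 : A / (A + 1) ≤ 1 := by
      rw [div_le_one (by linarith)]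
      linarith
    have e2 : 0 ≤ δ * (x + 1) := by positivity
    nlinarith
  linarith

/-- depth of the copies: either the level of the difference is near `R i b` or the slab of the step `i1` is not deep -/
theorem depthR {Ω : Type} [Fintype Ω] {τ υ : Type} {R : Run Ω τ υ} {p : Run.Num} (hP : R.Path p) {i i1 b : ℕ} (hi : R.IsA i)
    (hii : i < i1) (hi1 : i1 ≤ R.n) :
    min (R.C.rf i) (R.rI i + b) ≤ R.C.R i b + 3 * (R.C.a i1 - R.C.a i) + (p.s + 1) * R.m ∨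
      R.C.R i1 b ≤ R.C.R i b + 3 * (R.C.a i1 - R.C.a i) := by
  have e1 : R.C.R i b = min (R.C.rf i) (R.C.rk i + b) := by
    have := R.C.hkf i
    unfold Cell.Pth.R Cell.Pth.bs
    omega
  have h2 := R.C.R_le_rk i1 b
  rcases Run.depth5 hP hi i1 hii hi1 with h1 | h1
  · left
    rw [e1]
    omega
  · rcases le_total (R.C.rf i) (R.C.rk i + b) with h3 | h3
    · left
      rw [e1]
      omega
    · right
      rw [e1]
      omega

/-- the arithmetic of the overhang -/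
theorem arithR {X A b0 b m z c1 μ s hn L ε1 δ0 HC B T Kc Kd K0 : ℝ} (hL : 0 < L) (hb0 : 0 ≤ b0)
    (h12 : 12 * ε1 + δ0 ≤ 1) (hε1 : 0 ≤ ε1) (hδ0 : 0 ≤ δ0) (hc1 : 0 ≤ c1) (hz : 0 ≤ z) (hμ : 0 ≤ μ) (hs : 0 ≤ (s + 2) * m)
    (hhn : 0 ≤ hn)
    (hX : A ≤ X + 5 * b0 + (s + 2) * m + c1 + 1 + z + 7 * μ + hn)
    (hT : X * L ≤ HC + (4 * X + 6 * b0) * L * (3 * ε1) + B + (δ0 * (X * L) + Kd) + (6 * b0 + b) * L + (T + μ * L + Kc) + K0) :
    A * L * (1 - 12 * ε1 - δ0) - (13 * b0 + hn + b + 8 * μ + (s + 2) * m) * L - B - T -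
      ((c1 + 1 + z) * L + Kd + Kc + K0) ≤ HC := by
  have h1 : 0 ≤ 1 - 12 * ε1 - δ0 := by linarith
  have h1' : 1 - 12 * ε1 - δ0 ≤ 1 := by linarith
  have h2 := mul_le_mul_of_nonneg_right (mul_le_mul_of_nonneg_right hX hL.le) h1
  have h3 : 0 ≤ (5 * b0 + (s + 2) * m + c1 + 1 + z + 7 * μ + hn) * L := by positivity
  have h4 := mul_le_mul_of_nonneg_left h1' h3
  have h5 : ε1 * (b0 * L) ≤ 1 / 12 * (b0 * L) := mul_le_mul_of_nonneg_right (by linarith) (by positivity)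
  have h6 : 0 ≤ b0 * L := by positivity
  have e1 : (X + 5 * b0 + (s + 2) * m + c1 + 1 + z + 7 * μ + hn) * L * (1 - 12 * ε1 - δ0) =
      (X * L - (12 * ε1 + δ0) * (X * L)) + (5 * b0 + (s + 2) * m + c1 + 1 + z + 7 * μ + hn) * L * (1 - 12 * ε1 - δ0) := by ring
  have e2 : (4 * X + 6 * b0) * L * (3 * ε1) = 12 * ε1 * (X * L) + 18 * (ε1 * (b0 * L)) := by ring
  nlinarith

/-- the trivial case of the overhang -/
theorem arithR0 {A Z W b0 b m z c1 μ s hn L ε1 δ0 HC B T Kc Kd K0 : ℝ} (hL : 0 < L)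
    (h12 : 12 * ε1 + δ0 ≤ 1) (hε1 : 0 ≤ ε1) (hδ0 : 0 ≤ δ0) (hA : A ≤ Z) (hZ0 : 0 ≤ Z)
    (hZ : Z ≤ W) (hW : W * L = (13 * b0 + hn + b + 8 * μ + (s + 2) * m) * L + (c1 + 1 + z) * L)
    (hB : 0 ≤ B) (hT : 0 ≤ T) (hKd : 0 ≤ Kd) (hKc : 0 ≤ Kc) (hK0 : 0 ≤ K0) (hHC : 0 ≤ HC) :
    A * L * (1 - 12 * ε1 - δ0) - (13 * b0 + hn + b + 8 * μ + (s + 2) * m) * L - B - T -
      ((c1 + 1 + z) * L + Kd + Kc + K0) ≤ HC := by
  have h1 : 0 ≤ 1 - 12 * ε1 - δ0 := by linarith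
  have h1' : 1 - 12 * ε1 - δ0 ≤ 1 := by linarith
  have h2 := mul_le_mul_of_nonneg_right (mul_le_mul_of_nonneg_right hA hL.le) h1
  have h3 : Z * L * (1 - 12 * ε1 - δ0) ≤ Z * L * 1 := mul_le_mul_of_nonneg_left h1' (by positivity)
  have h4 : Z * L ≤ W * L := mul_le_mul_of_nonneg_right hZ hL.le
  linarith

/-- **OVERHANG OF A HEAVY INTERVAL OVER A RUN** -/
theorem topR (lam N k k' β β' : ℝ) (h0 : 0 ≤ lam) (h1 : lam ≤ 1) (hk : 0 ≤ k) (hkk : k ≤ k') (hk' : k' ≤ lam) (hN : 0 ≤ N)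
    (hF : FIXA lam N k' β') (c K : ℝ) (hc : 1 ≤ c) (hK : 1 ≤ K) (ε : ℝ) (hε : 0 < ε) (δ0 : ℝ) (hδ0 : 0 < δ0) :
    ∃ (D : ℝ) (z : ℕ), 0 ≤ D ∧ ∀ {Ω : Type} [Fintype Ω] {τ υ : Type} (R : Run Ω τ υ) (p : Run.Num) (c' g' gU d : ℝ),
      1 ≤ R.h → 0 ≤ β' + ε - β + d → R.Ok p K c' g' gU → NEx c lam N k β d R.Q R.ry R.t (fun _ => ()) R.L R.h R.q R.W →
      z ≤ R.r0 → ∀ (e1 : ℝ) (b i i1 n : ℕ), R.Good p e1 b i → i < i1 → i1 ≤ n → n ≤ R.n → R.m + z ≤ b → b < p.B₁ →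
      R.C.Lev i1 b → R.C.a n ≤ p.A' → p.A' + 2 * b ≤ R.h → R.C.R n b + b ≤ R.q → 12 * e1 + δ0 ≤ 1 →
      ((R.C.a i : ℝ) + R.C.R i1 b - R.C.R i b - R.C.a n) * Real.log 2 * (1 - 12 * e1 - δ0) -
          (13 * ((R.C.a i1 : ℝ) - R.C.a i) + ((R.h : ℝ) - R.C.a n) + b + 8 * R.C.μ + ((p.s : ℝ) + 2) * R.m) * Real.log 2 -
          (β' + ε - β + d) * R.h * Real.log 2 - Stk.hc R.Q (R.C.T n) (eY R b) - D ≤
        Stk.hc (H118.two R.Q (R.XZ i b)) (fun q => R.C.cell i1 b q.snd)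
          (fun q => (R.C.cell n b q.fst, R.C.VZ n b q.fst)) := by
  have hK0 : 0 < K := by linarith
  have hK3 : 1 ≤ 3 * K := by linarith
  have hM : 1 ≤ 6 * c ^ 2 * K := by
    have : 1 ≤ c ^ 2 := one_le_pow₀ hc
    nlinarith
  have hl2 : 0 < Real.log 2 := Real.log_pos (by norm_num)
  obtain ⟨K0, z0, hK00, htop⟩ := topC lam N k k' β β' h0 h1 hk hkk hk' hN hF c (3 * K) hc hK3 ε hε
  obtain ⟨c1, hc1⟩ := pow_unbounded_of_one_lt (2 * K) (by norm_num : (1 : ℝ) < 2)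
  obtain ⟨x1, hx1⟩ := pow_unbounded_of_one_lt (60 * K ^ 6) (by norm_num : (1 : ℝ) < 2)
  obtain ⟨z3, hz3⟩ := pow_unbounded_of_one_lt ((3 * K) ^ 2 * (6 * c ^ 2 * K)) (by norm_num : (1 : ℝ) < 2)
  obtain ⟨N0, hN0⟩ := exists_nat_ge (3 * H364.N4.cst (3 * K) (6 * c ^ 2 * K))
  obtain ⟨Kd, hKd0, hKd⟩ := log_small (A := 1 + N) (δ := δ0 * Real.log 2) (by linarith) (by positivity)
  have small : ∀ {A : ℝ} {n : ℕ}, A < 2 ^ n → ∀ m : ℕ, n ≤ m → A * q2 m ≤ 1 := by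
    intro A n hA m hm
    have e1 : q2 m ≤ q2 n := q2_le hm
    have e2 : (2 : ℝ) ^ n * q2 n = 1 := pw_b _
    have e3 := q2_pos m
    have e4 := q2_pos n
    rcases le_or_gt A 0 with hA0 | hA0
    · nlinarith
    · calc A * q2 m ≤ 2 ^ n * q2 n := mul_le_mul hA.le e1 e3.le (by positivity)
        _ = 1 := e2
  set Kc : ℝ := (6 + 10 * Real.log (2 * ⌈3 * H364.N4.cst (3 * K) (6 * c ^ 2 * K)⌉₊ + 3)) + 2 * Real.log (2 * N0 + 3) with hKc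
  have hKc0 : 0 ≤ Kc := by
    have e2 : 0 ≤ Real.log (2 * ⌈3 * H364.N4.cst (3 * K) (6 * c ^ 2 * K)⌉₊ + 3) := Real.log_nonneg (by
      have : (0 : ℝ) ≤ ⌈3 * H364.N4.cst (3 * K) (6 * c ^ 2 * K)⌉₊ := Nat.cast_nonneg _
      linarith)
    have e3 : 0 ≤ Real.log (2 * N0 + 3) := Real.log_nonneg (by
      have : (0 : ℝ) ≤ N0 := Nat.cast_nonneg _
      linarith)
    positivity
  set z : ℕ := z0 + c1 + x1 + z3 with hz
  refine ⟨((c1 : ℝ) + 1 + z) * Real.log 2 + Kd + Kc + K0, z, by positivity, ?_⟩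
  intro Ω _ τ υ R p c' g' gU d hh hd h hne hr0 e1 b i i1 n hg hii hi1 hn hbz hbB hlev han hA hq he
  have hP := h.pth
  have hε1 : 0 ≤ e1 := (Mic.colp_nonneg R.Q _ _).trans hg.time
  have hWS : ∀ ω, 0 < R.Q.w ω → Shp c 0 R.q (R.W ω) ∧ Bin c (R.W ω) 0 (bl R.h (R.ry ω) (R.t ω)) := by
    intro ω hω
    obtain ⟨w1, w2, w3⟩ := hne.lb ω hω
    exact ⟨⟨by rw [w2, pow_zero], w3, w1.α2, w1.κ2⟩, w1.inn⟩
  have haa : R.C.a i ≤ R.C.a i1 := R.C.ha hii.le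
  have haan : R.C.a i1 ≤ R.C.a n := R.C.ha hi1
  have hAh := hP.rA'
  have hrk0 : R.r0 ≤ R.C.rk i1 := by
    rw [← hP.k0]
    exact R.C.hk (Nat.zero_le _)
  have hrkn : R.r0 ≤ R.C.rk n := by
    rw [← hP.k0]
    exact R.C.hk (Nat.zero_le _)
  have hqr : R.r0 ≤ R.q := by
    have := hP.rK
    have := hP.rF
    omega
  have hHC : 0 ≤ Stk.hc (H118.two R.Q (R.XZ i b)) (fun q => R.C.cell i1 b q.snd)
      (fun q => (R.C.cell n b q.fst, R.C.VZ n b q.fst)) := Stk.hc_nonneg _ _ _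
  have hT0 : 0 ≤ Stk.hc R.Q (R.C.T n) (eY R b) := Stk.hc_nonneg _ _ _
  have hB0 : 0 ≤ (β' + ε - β + d) * R.h * Real.log 2 := by positivity
  have cb : ((R.C.a i1 - R.C.a i : ℕ) : ℝ) = (R.C.a i1 : ℝ) - R.C.a i := Nat.cast_sub haa
  have ch : ((R.h - R.C.a n : ℕ) : ℝ) = (R.h : ℝ) - R.C.a n := Nat.cast_sub (by omega)
  rw [← cb, ← ch]
  -- the level of the difference
  set e : ℕ := min (R.C.rf i) (R.rI i + b) + R.m + c1 + 1 with he'
  set b0 : ℕ := R.C.a i1 - R.C.a i with hb0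
  have triv : ∀ Z : ℕ, R.C.a i + R.C.R i1 b ≤ R.C.R i b + R.C.a n + Z →
      Z ≤ 5 * b0 + (R.h - R.C.a n) + (p.s + 2) * R.m + 7 * R.C.μ + (c1 + 1 + z) →
      ((R.C.a i : ℝ) + R.C.R i1 b - R.C.R i b - R.C.a n) * Real.log 2 * (1 - 12 * e1 - δ0) -
          (13 * (b0 : ℝ) + ((R.h - R.C.a n : ℕ) : ℝ) + b + 8 * R.C.μ + ((p.s : ℝ) + 2) * R.m) * Real.log 2 -
          (β' + ε - β + d) * R.h * Real.log 2 - Stk.hc R.Q (R.C.T n) (eY R b) -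
          (((c1 : ℝ) + 1 + z) * Real.log 2 + Kd + Kc + K0) ≤
        Stk.hc (H118.two R.Q (R.XZ i b)) (fun q => R.C.cell i1 b q.snd)
          (fun q => (R.C.cell n b q.fst, R.C.VZ n b q.fst)) := by
    intro Z hZ1 hZ2
    have hZ1' : ((R.C.a i + R.C.R i1 b : ℕ) : ℝ) ≤ ((R.C.R i b + R.C.a n + Z : ℕ) : ℝ) := by exact_mod_cast hZ1
    have hZ2' : (Z : ℝ) ≤ ((5 * b0 + (R.h - R.C.a n) + (p.s + 2) * R.m + 7 * R.C.μ + (c1 + 1 + z) : ℕ) : ℝ) := by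
      exact_mod_cast hZ2
    push_cast at hZ1' hZ2'
    have f1 : (0 : ℝ) ≤ b0 := Nat.cast_nonneg _
    have f2 : (0 : ℝ) ≤ b := Nat.cast_nonneg _
    have f3 : (0 : ℝ) ≤ R.C.μ := Nat.cast_nonneg _
    exact arithR0 (Z := Z) (W := 13 * (b0 : ℝ) + ((R.h - R.C.a n : ℕ) : ℝ) + b + 8 * R.C.μ + ((p.s : ℝ) + 2) * R.m +
      ((c1 : ℝ) + 1 + z)) hl2 he hε1 hδ0.le (by linarith) (Nat.cast_nonneg _) (by linarith) (by ring) hB0 hT0 hKd0 hKc0 hK00 hHC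
  rcases depthR hP hg.isA hii (hi1.trans hn) (b := b) with hdep | hdep
  swap
  · exact triv (3 * b0) (by omega) (by omega)
  by_cases hX : 2 * b0 + e + z + 7 * R.C.μ + R.h ≤ R.C.R i1 b + b + R.C.a i
  swap
  · push Not at hX
    exact triv (5 * b0 + (R.h - R.C.a n) + (p.s + 2) * R.m + 7 * R.C.μ + (c1 + 1 + z)) (by
      have : (p.s + 2) * R.m = (p.s + 1) * R.m + R.m := by ring
      omega) le_rfl
  obtain ⟨X, hX⟩ := Nat.exists_eq_add_of_le hX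
  have hR1 := R.C.R_mono5 hi1 b
  have key := htop d Ω Unit R.Q R.ry R.t (fun _ => ()) R.L R.h R.q R.W hh hne Ω R.Q (fun ω => ω) (fun ω => pr_id R.Q ω) Unit τ
    ((Ry × υ) × (τ × Cell.Pth.Dg)) (fun _ => ()) R.C (R.XZ i b) R.θ R.FW i i1 n b b0 X e h.Cl h.Ct
    (fun ω hω => by
      obtain ⟨ρ, g1, -, g2⟩ := FW_scl h hω
      exact ⟨ρ, g1, g2⟩)
    (fun ω ω' _ _ eV => Run.XZ_l h eV) hii.le (by omega) (by omega) hlev (by omega) (by omega)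
  have hpr := pair_dif h hK hg hii.le (hi1.trans hn) hbB (by omega : R.m + x1 ≤ b) (small hc1 c1 le_rfl) (small hx1 x1 le_rfl)
    (by omega) ((by
      have := small hc1 R.q (by omega)
      have := q2_pos R.q
      nlinarith : K * q2 R.q ≤ 1)) (by omega) (c := c1) (by omega)
  have hr : 2 * K ^ 2 * q2 (R.C.rk n) ≤ 1 := by
    have e2 := small hx1 (R.C.rk n) (by omega)
    have e3 := q2_pos (R.C.rk n)
    have e4 : K ^ 2 ≤ K ^ 6 := pow_le_pow_right₀ hK (by norm_num)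
    have e5 : K ^ 2 * q2 (R.C.rk n) ≤ K ^ 6 * q2 (R.C.rk n) := mul_le_mul_of_nonneg_right e4 e3.le
    have e6 : 0 ≤ K ^ 6 * q2 (R.C.rk n) := by positivity
    linarith
  have hend := hc_endR h hK hc hWS hn hr ⟨hlev.1, hlev.2.trans hR1⟩ han hA hq (small hz3 (2 * b) (by omega)) hN0
  have hmono : Stk.hc R.Q (fun ω => (R.C.cell n b ω, R.C.VZ n b ω)) (fun ω => (fl1 b (R.C.l ω).v,
      kW (fun ω => R.W ω) R.h (fun ω => R.t ω) (fun _ : Ω => ()) (fun _ : Ω => ()) ω)) ≤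
      Stk.hc R.Q (fun ω => (R.C.cell n b ω, R.C.VZ n b ω)) (eY R b) := by
    refine hc_mono_right _ _ fun ω ω' _ _ e => ?_
    simp only [kW, Prod.mk.injEq] at e
    simp only [eY, Prod.mk.injEq]
    exact ⟨e.1, e.2.1, e.2.2.1⟩
  have z1 : Stk.hc R.Q (fun _ : Ω => ()) (fun ω => (R.W ω, fl1 R.h (R.t ω), ())) = 0 := Stk.hc_zero R.Q fun _ _ _ _ _ => rfl
  have z2 : Stk.hc R.Q (fun _ : Ω => ()) (fun ω => (R.ry ω, ())) = 0 := Stk.hc_zero R.Q fun _ _ _ _ _ => rfl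
  have hlog := hKd X (Nat.cast_nonneg _)
  have hpr' : (4 * (X : ℝ) + 6 * b0) * Real.log 2 * prE (H118.two R.Q (R.XZ i b)) (fun q => ¬ PairOk R.C (3 * K) i1 e R.h R.FW
      q.fst q.snd) ≤ (4 * (X : ℝ) + 6 * b0) * Real.log 2 * (3 * e1) :=
    mul_le_mul_of_nonneg_left hpr (by positivity)
  rw [z1, z2] at key
  have f1 : (0 : ℝ) ≤ b0 := Nat.cast_nonneg _
  have f3 : (0 : ℝ) ≤ R.C.μ := Nat.cast_nonneg _
  have hcast : ((R.C.R i1 b + b + R.C.a i : ℕ) : ℝ) = ((2 * b0 + e + z + 7 * R.C.μ + R.h + X : ℕ) : ℝ) := by exact_mod_cast hX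
  have hde : ((e : ℕ) : ℝ) ≤ ((R.C.R i b + 3 * b0 + (p.s + 2) * R.m + c1 + 1 : ℕ) : ℝ) := by
    have : e ≤ R.C.R i b + 3 * b0 + (p.s + 2) * R.m + c1 + 1 := by
      have : (p.s + 2) * R.m = (p.s + 1) * R.m + R.m := by ring
      omega
    exact_mod_cast this
  push_cast at hcast hde
  refine arithR (X := X) (A := (R.C.a i : ℝ) + R.C.R i1 b - R.C.R i b - R.C.a n) (b0 := b0) (b := b) (m := R.m) (z := z) (c1 := c1)
    (μ := R.C.μ) (s := p.s) (hn := ((R.h - R.C.a n : ℕ) : ℝ)) hl2 f1 he hε1 hδ0.le (Nat.cast_nonneg _) (Nat.cast_nonneg _) f3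
    (by positivity) (Nat.cast_nonneg _) ?_ ?_
  · have f2 : (0 : ℝ) ≤ b := Nat.cast_nonneg _
    linarith
  · linarith

/-- price of the letter of the cell given the end label and the digits of the velocity -/
theorem hcT_le {Ω : Type} [Fintype Ω] {τ υ : Type} {R : Run Ω τ υ} {p : Run.Num} {K c' g' gU : ℝ} (h : R.Ok p K c' g' gU)
    {n b : ℕ} (hn : n ≤ R.n + p.J) (hb : R.m * R.b1 ≤ b) : Stk.hc R.Q (R.C.T n) (eY R b) ≤ gU := by
  have h1 := Stk.hc_le_add' R.Q (R.C.T n) R.W' (eY R b)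
  have h2 : Stk.hc R.Q (R.C.T n) (fun ω => (R.W' ω, eY R b ω)) = 0 := Stk.hc_zero R.Q fun ω ω' p1 p2 e => by
    simp only [Prod.mk.injEq] at e
    exact h.fnT n hn ω ω' p1 p2 e.1
  have h3 : Stk.hc R.Q R.W' (eY R b) ≤ Stk.hc R.Q R.W' (R.F R.b1) := hc_mono_right _ _ fun ω ω' _ _ e => by
    simp only [eY, Prod.mk.injEq] at e
    show ((R.W ω, fl1 R.h (R.t ω)), fl1 (R.m * R.b1) (R.C.l ω).v) = ((R.W ω', fl1 R.h (R.t ω')), fl1 (R.m * R.b1) (R.C.l ω').v)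
    rw [e.2.1, e.2.2, CellD.fl1_fl1 hb e.1]
  have h4 := h.prW
  linarith

end Vale.Agent.P106.U.Top543
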