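import Vale.Agent.P106.U.H543.Lin5

/-!
# P106 / U / H543 : two rays of one index cell are close (helper543)
-/

set_option autoImplicit false

namespace Vale.Agent.P106.U.Cov5

open Vale.Agent.P106.K

section

variable {A c0 B ρ : ℝ} {f g : Fu} {h0 h1 h m : ℝ} {l l' : Ry}

/-- the scale of the coarse cells -/
noncomputable def et (A c0 B : ℝ) : ℝ := 1 / (32 * KC A c0 B ^ 7)

theorem Dp.KC_pos (H : Dp A c0 B ρ f g h0 h1 h m) : 0 < KC A c0 B := by
  have h1 := H.KC_B 0 (by norm_num)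
  rw [pow_zero] at h1
  linarith

theorem Dp.et_pos (H : Dp A c0 B ρ f g h0 h1 h m) : 0 < et A c0 B := by
  have := H.KC_pos
  unfold et
  positivity

theorem Dp.et_le (H : Dp A c0 B ρ f g h0 h1 h m) : et A c0 B ≤ 1 := by
  have h1 := H.KC_B 0 (by norm_num)
  rw [pow_zero] at h1
  have h2 : (1 : ℝ) ≤ KC A c0 B ^ 7 := one_le_pow₀ (by linarith)
  unfold et
  rw [div_le_one (by positivity)]
  linarith

/-- the linear inequalities -/
theorem Dp.lin (H : Dp A c0 B ρ f g h0 h1 h m) (hl : l ∈ KK B ρ f g h0 h1) (hl' : l' ∈ KK B ρ f g h0 h1)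
    (hs : (0 ≤ ow f g l) = (0 ≤ ow f g l')) (hn : Near (et A c0 B) l l') :
    Lin (KC A c0 B) (qA f l l') (qB f l l') (qC f l l') (qD f l l') (rl l l').ζ (kh f g l') (ah f g l') (ow f g l')
      h m ρ (1 / (32 * KC A c0 B ^ 7) * (|qA f l l'| + |qB f l l'| + |qC f l l'| + |qD f l l'|)) := by
  have k0 := H.KC_B 0 (by norm_num)
  have k1 := H.KC_B 1 (by norm_num)
  have k2 := H.KC_B 2 (by norm_num)
  have k3 := H.KC_B 3 (by norm_num)
  have k6 := H.KC_ge
  rw [pow_zero] at k0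
  rw [pow_one] at k1
  have hB := H.B1
  have hK := H.KC_pos
  have B2 : (1 : ℝ) ≤ B ^ 2 := one_le_pow₀ hB
  have hA := H.A1
  have hρ := H.ρ0
  have hh := H.h0p
  have hm := H.m_pos
  have hq := qs_nonneg f l l'
  have ex : 1 / (32 * KC A c0 B ^ 7) * (|qA f l l'| + |qB f l l'| + |qC f l l'| + |qD f l l'|) =
      et A c0 B * qs f l l' := rfl
  rw [ex]
  have x0 : 0 ≤ et A c0 B * qs f l l' := mul_nonneg H.et_pos.le hq
  have z0 := abs_nonneg (rl l l').ζ
  exact {
    hK := by linarith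
    hm := hm
    hρ := hρ.le
    hh := hh.le
    hx := x0
    hmK := by
      have := H.m_le
      linarith
    hk := by
      have := H.kh_le hl'
      have : 0 ≤ B ^ 3 := by positivity
      linarith
    hal := by
      have := H.ah_le hl'
      have : 0 ≤ B ^ 3 := by positivity
      linarith
    hw := by
      refine (H.ow_m hl').trans (mul_le_mul_of_nonneg_right ?_ hm.le)
      have : 0 ≤ B ^ 3 := by positivity
      linarith
    F0 := (H.F0 hl hl' hn).trans (mul_le_mul_of_nonneg_right (by linarith) (by positivity))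
    F1 := (H.F1 hl hl' hn).trans (mul_le_mul_of_nonneg_right (by linarith) (by positivity))
    G0 := (H.G0 hl hl' hn).1.trans (mul_le_mul_of_nonneg_right (by
      have : 0 ≤ B ^ 3 := by positivity
      linarith) (by positivity))
    G1 := (H.G1 hl hl' hn).1.trans (mul_le_mul_of_nonneg_right (by
      have : 0 ≤ B ^ 3 := by positivity
      linarith) (by positivity))
    O := (H.O hl hl' hs hn).trans (mul_le_mul_of_nonneg_right (by
      have : 0 ≤ A * B ^ 6 := by positivity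
      linarith) (by positivity)) }

/-- the conclusion for two rays -/
theorem Dp.close (H : Dp A c0 B ρ f g h0 h1 h m) (hl : l ∈ KK B ρ f g h0 h1) (hl' : l' ∈ KK B ρ f g h0 h1)
    (hs : (0 ≤ ow f g l) = (0 ≤ ow f g l')) (hn : Near (et A c0 B) l l')
    (hc : Lin.Cs (KC A c0 B) (qA f l l') (qB f l l') (rl l l').ζ (kh f g l') (ah f g l') (ow f g l') h
      (et A c0 B * qs f l l')) :
    (|(rl l l').Y0| ≤ 200 * KC A c0 B ^ 9 * h ∧ |(rl l l').Y1| ≤ 200 * KC A c0 B ^ 9 * h ∧
      |(rl l l').S0| ≤ 200 * KC A c0 B ^ 9 * h ∧ |(rl l l').S1| ≤ 200 * KC A c0 B ^ 9 * h) ∧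
    |(rl l l').ζ| ≤ 5000 * KC A c0 B ^ 22 * ρ := by
  have L := H.lin hl hl' hs hn
  have hK := H.KC_pos
  have hK1 : 1 ≤ KC A c0 B := L.hK
  have hρ := H.ρ0
  have hh := H.h0p
  have hm := H.m_pos
  have hmax : h * m ≤ KC A c0 B * ρ := by
    refine H.up.trans (mul_le_mul_of_nonneg_right ?_ hρ.le)
    have k6 := H.KC_ge
    have b6 : (1 : ℝ) ≤ B ^ 6 := one_le_pow₀ H.B1
    have hA := H.A1
    nlinarith
  have hlo : ρ ≤ KC A c0 B * (h * m) := by
    refine H.lo.trans (mul_le_mul_of_nonneg_right ?_ (by positivity))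
    have k6 := H.KC_ge
    have b6 : (1 : ℝ) ≤ B ^ 6 := one_le_pow₀ H.B1
    have hA := H.A1
    nlinarith
  have s1 : qs f l l' ≤ 64 * KC A c0 B ^ 9 * h := Lin.fin hK L hc hmax hlo H.ρm
  have hK3 : 300 * KC A c0 B ^ 0 ≤ KC A c0 B := by
    have := H.KC_B 0 (by norm_num)
    rw [pow_zero] at this ⊢
    linarith
  have g0 := (H.G0 hl hl' hn).2
  have g1 := (H.G1 hl hl' hn).2
  have kB := H.KC_B 3 (by norm_num)
  have b3 : 0 ≤ B ^ 3 := by have := H.B1; positivity
  have qq : 0 ≤ qs f l l' ^ 2 + ρ := by positivity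
  have z1 := Lin.finz hK L hc hmax hlo H.ρm (fun hw => by
      have := L.hw
      have : KC A c0 B * |ow f g l'| ≤ KC A c0 B * (KC A c0 B * m) := mul_le_mul_of_nonneg_left L.hw hK.le
      have e : KC A c0 B * (KC A c0 B * m) = KC A c0 B ^ 2 * m := by ring
      linarith)
    (g0.trans (mul_le_mul_of_nonneg_right (by linarith) qq))
    (g1.trans (mul_le_mul_of_nonneg_right (by linarith) qq))
  obtain ⟨y0, y1⟩ := H.Y_le (l := l) hl'
  obtain ⟨t0, t1⟩ := H.S_le (l := l) hl'
  have hp : 0 ≤ KC A c0 B ^ 9 * h := by positivity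
  exact ⟨⟨by linarith, by linarith, by linarith, by linarith⟩, z1⟩

/-- [κ] the index is the position across the covector of the coarse cell -/
theorem Dp.cs1 (H : Dp A c0 B ρ f g h0 h1 h m) (hl' : l' ∈ KK B ρ f g h0 h1)
    (hn : Near (et A c0 B) l l') (hc : c0 ≤ |g.κ - tau f g h0 h1 * f.κ|) {n0 n1 : ℝ}
    (e0 : |f.N0 l' - n0| ≤ 3 * B * et A c0 B) (e1 : |f.N1 l' - n1| ≤ 3 * B * et A c0 B)
    (hi : |n0 * (rl l l').Y1 - n1 * (rl l l').Y0| ≤ h) :
    Lin.Cs (KC A c0 B) (qA f l l') (qB f l l') (rl l l').ζ (kh f g l') (ah f g l') (ow f g l') h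
      (et A c0 B * qs f l l') := by
  have hB := H.B1
  have hρ := H.ρ0
  have hK := H.KC_pos
  left
  constructor
  · have n1 := H.kh_near hl'
    have n2 := H.ρc
    have b3 : B ^ 3 * ρ ≤ B ^ 6 * ρ := mul_le_mul_of_nonneg_right (H.B1' 3 6 (by norm_num)) hρ.le
    have c2 : c0 ^ 2 ≤ c0 := by have := H.c0p; have := H.c01; nlinarith
    have n3 : c0 / 2 ≤ |kh f g l'| := by
      have t := abs_sub_abs_le_abs_sub (g.κ - tau f g h0 h1 * f.κ) (kh f g l')
      rw [abs_sub_comm] at n1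
      have := H.c0p
      linarith
    have n4 := H.KC_c0
    have n5 : KC A c0 B * (c0 / 2) ≤ KC A c0 B * |kh f g l'| := mul_le_mul_of_nonneg_left n3 hK.le
    linarith
  · obtain ⟨y0, y1⟩ := H.Y_le (l := l) hl'
    have e : qA f l l' = (n0 * (rl l l').Y1 - n1 * (rl l l').Y0) + (f.N0 l' - n0) * (rl l l').Y1 -
        (f.N1 l' - n1) * (rl l l').Y0 := by
      unfold qA
      ring
    have p0 := prod_le e0 y1 (by have := H.et_pos; positivity)
    have p1 := prod_le e1 y0 (by have := H.et_pos; positivity)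
    have t : |qA f l l'| ≤ h + 18 * B * (et A c0 B * qs f l l') := by
      rw [e]
      rw [abs_le] at p0 p1 hi ⊢
      constructor <;> linarith
    have k1 := H.KC_B 1 (by norm_num)
    rw [pow_one] at k1
    have x0 : 0 ≤ et A c0 B * qs f l l' := mul_nonneg H.et_pos.le (qs_nonneg _ _ _)
    have u1 : h ≤ KC A c0 B * h := le_mul_of_one_le_left H.h0p.le (by linarith)
    have u2 : 18 * B * (et A c0 B * qs f l l') ≤ KC A c0 B * (et A c0 B * qs f l l') :=
      mul_le_mul_of_nonneg_right (by linarith) x0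
    linarith

/-- [α] the index is the slope across the covector of the coarse cell -/
theorem Dp.cs2 (H : Dp A c0 B ρ f g h0 h1 h m) (hl' : l' ∈ KK B ρ f g h0 h1)
    (hn : Near (et A c0 B) l l') (hc : c0 ≤ |g.α - tau f g h0 h1 * f.α|) {n0 n1 : ℝ}
    (e0 : |f.N0 l' - n0| ≤ 3 * B * et A c0 B) (e1 : |f.N1 l' - n1| ≤ 3 * B * et A c0 B)
    (hi : |n0 * (rl l l').S1 - n1 * (rl l l').S0| ≤ h) :
    Lin.Cs (KC A c0 B) (qA f l l') (qB f l l') (rl l l').ζ (kh f g l') (ah f g l') (ow f g l') h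
      (et A c0 B * qs f l l') := by
  have hB := H.B1
  have hρ := H.ρ0
  have hK := H.KC_pos
  right
  left
  constructor
  · have n1 := H.ah_near hl'
    have n2 := H.ρc
    have b3 : B ^ 3 * ρ ≤ B ^ 6 * ρ := mul_le_mul_of_nonneg_right (H.B1' 3 6 (by norm_num)) hρ.le
    have c2 : c0 ^ 2 ≤ c0 := by have := H.c0p; have := H.c01; nlinarith
    have n3 : c0 / 2 ≤ |ah f g l'| := by
      have t := abs_sub_abs_le_abs_sub (g.α - tau f g h0 h1 * f.α) (ah f g l')
      rw [abs_sub_comm] at n1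
      have := H.c0p
      linarith
    have n4 := H.KC_c0
    have n5 : KC A c0 B * (c0 / 2) ≤ KC A c0 B * |ah f g l'| := mul_le_mul_of_nonneg_left n3 hK.le
    linarith
  · obtain ⟨y0, y1⟩ := H.S_le (l := l) hl'
    have e : qB f l l' = (n0 * (rl l l').S1 - n1 * (rl l l').S0) + (f.N0 l' - n0) * (rl l l').S1 -
        (f.N1 l' - n1) * (rl l l').S0 := by
      unfold qB
      ring
    have p0 := prod_le e0 y1 (by have := H.et_pos; positivity)
    have p1 := prod_le e1 y0 (by have := H.et_pos; positivity)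
    have t : |qB f l l'| ≤ h + 18 * B * (et A c0 B * qs f l l') := by
      rw [e]
      rw [abs_le] at p0 p1 hi ⊢
      constructor <;> linarith
    have k1 := H.KC_B 1 (by norm_num)
    rw [pow_one] at k1
    have x0 : 0 ≤ et A c0 B * qs f l l' := mul_nonneg H.et_pos.le (qs_nonneg _ _ _)
    have u1 : h ≤ KC A c0 B * h := le_mul_of_one_le_left H.h0p.le (by linarith)
    have u2 : 18 * B * (et A c0 B * qs f l l') ≤ KC A c0 B * (et A c0 B * qs f l l') :=
      mul_le_mul_of_nonneg_right (by linarith) x0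
    linarith

/-- [slope] the index is the adapted coordinate -/
theorem Dp.cs3 (H : Dp A c0 B ρ f g h0 h1 h m) (hl' : l' ∈ KK B ρ f g h0 h1)
    (hc : c0 ≤ m) {w0 w1 : ℝ}
    (e0 : |l'.s 0 - w0| ≤ et A c0 B) (e1 : |l'.s 1 - w1| ≤ et A c0 B)
    (hi : |(rl l l').ζ + ((rl l l').Y0 * (l'.s 0 - w0) + (rl l l').Y1 * (l'.s 1 - w1))| ≤ h) :
    Lin.Cs (KC A c0 B) (qA f l l') (qB f l l') (rl l l').ζ (kh f g l') (ah f g l') (ow f g l') h
      (et A c0 B * qs f l l') := by
  have hB := H.B1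
  have hρ := H.ρ0
  have hK := H.KC_pos
  have hc0 := H.c0p
  right
  right
  constructor
  · have n1 := H.ow_near hl'
    have n2 := H.ρc
    have m2 := H.m2
    have cm : c0 ^ 2 ≤ m ^ 2 := pow_le_pow_left₀ hc0.le hc 2
    have b6 : (1 : ℝ) ≤ B ^ 6 := one_le_pow₀ hB
    have hρc : ρ < c0 ^ 2 := by
      have : 0 < c0 ^ 2 := by positivity
      nlinarith
    have hD : Del f g h0 h1 = m ^ 2 := by
      rcases le_total (Del f g h0 h1) ρ with hh | hh
      · rw [max_eq_right hh] at m2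
        linarith
      · rw [max_eq_left hh] at m2
        exact m2.symm
    rw [hD] at n1
    rw [abs_le] at n1
    have n3 : (c0 / 2) ^ 2 ≤ ow f g l' ^ 2 := by nlinarith
    have n3' : c0 / 2 ≤ |ow f g l'| := by
      rw [← sq_abs (ow f g l')] at n3
      exact (abs_le_of_sq_le_sq' n3 (abs_nonneg _)).2
    have n4 := H.KC_c0
    have n5 : KC A c0 B * (c0 / 2) ≤ KC A c0 B * |ow f g l'| := mul_le_mul_of_nonneg_left n3' hK.le
    linarith
  · obtain ⟨y0, y1⟩ := H.Y_le (l := l) hl'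
    have p0 := prod_le e0 y0 H.et_pos.le
    have p1 := prod_le e1 y1 H.et_pos.le
    have t : |(rl l l').ζ| ≤ h + 6 * (et A c0 B * qs f l l') := by
      rw [abs_le] at p0 p1 hi ⊢
      constructor <;> linarith
    have k1 := H.KC_B 0 (by norm_num)
    rw [pow_zero] at k1
    have x0 : 0 ≤ et A c0 B * qs f l l' := mul_nonneg H.et_pos.le (qs_nonneg _ _ _)
    have u1 : h ≤ KC A c0 B * h := le_mul_of_one_le_left H.h0p.le (by linarith)
    have u2 : 6 * (et A c0 B * qs f l l') ≤ KC A c0 B * (et A c0 B * qs f l l') :=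
      mul_le_mul_of_nonneg_right (by linarith) x0
    linarith

end

end Vale.Agent.P106.U.Cov5
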